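import Vale.Agent.P261Z.D.Defs
import Vale.Agent.P251.C.ShapiroOpen

/-!
# P261, block D: basic facts on `ZZ`, `BB`, `HZ`, `Bd`, `Fn`, `Tw`, `Dl`
-/

set_option linter.unusedSectionVars false

namespace Vale.Agent.P261Z.D

open Vale.Agent.P251 Vale.Agent.P251.C

section coh

variable {G : Type} [Group G] [TopologicalSpace G] {A B C M N L : Type}
  [AddCommGroup A] [DistribMulAction G A] [AddCommGroup B] [DistribMulAction G B]
  [AddCommGroup C] [DistribMulAction G C] [AddCommGroup M] [DistribMulAction G M]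
  [AddCommGroup N] [DistribMulAction G N] [AddCommGroup L] [DistribMulAction G L] {s : ℕ}

theorem mem_ZZ {F : (Fin (s + 1) → G) → M} : F ∈ ZZ G M s ↔ IsCoch G F ∧ dd F = 0 := Iff.rfl

theorem mem_BB_zero {F : (Fin (0 + 1) → G) → M} : F ∈ BB G M 0 ↔ F = 0 := AddSubgroup.mem_bot

theorem mem_BB_succ {F : (Fin (s + 1 + 1) → G) → M} :
    F ∈ BB G M (s + 1) ↔ ∃ Y : (Fin (s + 1) → G) → M, IsCoch G Y ∧ dd Y = F := Iff.rfl

theorem dd_mem_BB {Y : (Fin (s + 1) → G) → M} (hY : IsCoch G Y) : dd Y ∈ BB G M (s + 1) :=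
  ⟨Y, hY, rfl⟩

theorem dd_comp_G (u : M →+[G] N) {n : ℕ} (F : (Fin n → G) → M) : dd (u ∘ F) = u ∘ dd F :=
  dd_mapG u F

theorem comp_sub_G (u : M →+[G] N) {X : Type} (F F' : X → M) :
    u ∘ (F - F') = u ∘ F - u ∘ F' := funext fun x => map_sub u (F x) (F' x)

theorem comp_add_G (u : M →+[G] N) {X : Type} (F F' : X → M) :
    u ∘ (F + F') = u ∘ F + u ∘ F' := funext fun x => map_add u (F x) (F' x)

theorem comp_nsmul_G (u : M →+[G] N) {X : Type} (n : ℕ) (F : X → M) :
    u ∘ (n • F) = n • (u ∘ F) := funext fun x => map_nsmul u n (F x)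

theorem comp_zero_G (u : M →+[G] N) {X : Type} : u ∘ (0 : X → M) = 0 :=
  funext fun _ => map_zero u

theorem ZZ.map {F : (Fin (s + 1) → G) → M} (hF : F ∈ ZZ G M s) (u : M →+[G] N) :
    u ∘ F ∈ ZZ G N s :=
  ⟨hF.1.map u, by rw [dd_comp_G, hF.2, comp_zero_G]⟩

theorem BB.map {F : (Fin (s + 1) → G) → M} (hF : F ∈ BB G M s) (u : M →+[G] N) :
    u ∘ F ∈ BB G N s := by
  cases s with
  | zero => rw [mem_BB_zero.1 hF, comp_zero_G]; exact zero_mem _
  | succ s =>
    obtain ⟨Y, hY, rfl⟩ := hF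
    exact ⟨u ∘ Y, hY.map u, dd_comp_G u Y⟩

theorem BB_le_ZZ : BB G M s ≤ ZZ G M s := by
  intro F hF
  cases s with
  | zero => rw [mem_BB_zero.1 hF]; exact zero_mem _
  | succ s =>
    obtain ⟨Y, hY, rfl⟩ := hF
    exact ⟨hY.dd, dd_dd Y⟩

/-- Cocycles of degree `0` are constant. -/
theorem ZZ.const {F : (Fin (0 + 1) → G) → M} (hF : F ∈ ZZ G M 0) (x y : Fin (0 + 1) → G) :
    F x = F y := by
  have h2 := congrFun hF.2 (Fin.cons (x 0) y : Fin 2 → G)
  rw [dd_cons, dd_one, Pi.zero_apply, sub_eq_zero] at h2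
  rw [h2]
  congr 1
  funext i
  refine Fin.cases ?_ (fun i => i.elim0) i
  simp

/-- The value of a cocycle of degree `0` is invariant. -/
theorem ZZ.inv {F : (Fin (0 + 1) → G) → M} (hF : F ∈ ZZ G M 0) (g : G) (x : Fin (0 + 1) → G) :
    g • F x = F x := by
  rw [← hF.1.equi g x]
  exact ZZ.const hF _ _

/-- Invariant elements are cocycles of degree `0`. -/
theorem const_mem_ZZ {m : M} (hm : ∀ g : G, g • m = m) :
    (fun _ : Fin (0 + 1) → G => m) ∈ ZZ G M 0 := by
  refine ⟨⟨IsLocallyConstant.const m, fun g _ => (hm g).symm⟩, ?_⟩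
  funext x
  obtain ⟨a, x', rfl⟩ : ∃ a x', x = (Fin.cons a x' : Fin 2 → G) := ⟨x 0, Fin.tail x, by simp⟩
  rw [dd_cons, dd_one]
  simp

theorem mem_BB_of_hzero (h : HZero G M (s + 1)) {F : (Fin (s + 1 + 1) → G) → M}
    (hF : F ∈ ZZ G M (s + 1)) : F ∈ BB G M (s + 1) := h F hF.1 hF.2

theorem hz_succ_iff {u : M → N} : HZ G (s + 1) u ↔ HMapZero G (s + 1) u :=
  ⟨fun h F h1 h2 => h F ⟨h1, h2⟩, fun h F hF => h F hF.1 hF.2⟩

theorem HZ.comp_left {u : M → N} (h : HZ G s u) (v : N →+[G] L) : HZ G s (v ∘ u) :=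
  fun F hF => BB.map (h F hF) v

theorem HZ.comp_right {u : M → N} (h : HZ G s u) (v : L →+[G] M) : HZ G s (u ∘ v) :=
  fun F hF => h (v ∘ F) (ZZ.map hF v)

theorem HZ.bd {u : M → N} (h : HZ G s u) : Bd G s u 1 :=
  ⟨{0}, by simp, fun F hF => ⟨0, Finset.mem_singleton_self 0, by
    rw [sub_zero]; exact h F hF⟩⟩

theorem Bd.mono {u : M → N} {n n' : ℕ} (h : Bd G s u n) (hn : n ≤ n') : Bd G s u n' := by
  obtain ⟨S, h1, h2⟩ := h
  exact ⟨S, h1.trans hn, h2⟩

theorem Bd.comp_left {u : M → N} {n : ℕ} (h : Bd G s u n) (v : N →+[G] L) :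
    Bd G s (v ∘ u) n := by
  classical
  obtain ⟨S, h1, h2⟩ := h
  refine ⟨S.image fun z => v ∘ z, Finset.card_image_le.trans h1, fun F hF => ?_⟩
  obtain ⟨z, hz, hz'⟩ := h2 F hF
  refine ⟨v ∘ z, Finset.mem_image_of_mem _ hz, ?_⟩
  have := BB.map hz' v
  rwa [comp_sub_G] at this

theorem Bd.comp_right {u : M → N} {n : ℕ} (h : Bd G s u n) (v : L →+[G] M) :
    Bd G s (u ∘ v) n := by
  obtain ⟨S, h1, h2⟩ := h
  exact ⟨S, h1, fun F hF => h2 (v ∘ F) (ZZ.map hF v)⟩

/-- Representatives can be chosen among the cocycles of the source. -/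
theorem Bd.reps {u : M → N} {n : ℕ} (h : Bd G s u n) :
    ∃ S : Finset ((Fin (s + 1) → G) → M), S.card ≤ n ∧ (∀ z ∈ S, z ∈ ZZ G M s) ∧
      ∀ F ∈ ZZ G M s, ∃ z ∈ S, u ∘ F - u ∘ z ∈ BB G N s := by
  classical
  obtain ⟨S, h1, h2⟩ := h
  have key : ∀ z : (Fin (s + 1) → G) → N, ∃ F₀ ∈ ZZ G M s,
      (∃ F ∈ ZZ G M s, u ∘ F - z ∈ BB G N s) → u ∘ F₀ - z ∈ BB G N s := by
    intro z
    by_cases hz : ∃ F ∈ ZZ G M s, u ∘ F - z ∈ BB G N s
    · obtain ⟨F, hF, hF'⟩ := hz
      exact ⟨F, hF, fun _ => hF'⟩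
    · exact ⟨0, zero_mem _, fun h => absurd h hz⟩
  choose c hc hc' using key
  refine ⟨S.image c, Finset.card_image_le.trans h1, ?_, fun F hF => ?_⟩
  · intro z hz
    obtain ⟨y, -, rfl⟩ := Finset.mem_image.1 hz
    exact hc y
  · obtain ⟨z, hz, hz'⟩ := h2 F hF
    refine ⟨c z, Finset.mem_image_of_mem _ hz, ?_⟩
    have := sub_mem hz' (hc' z ⟨F, hF, hz'⟩)
    rwa [sub_sub_sub_cancel_right] at this

/-- Counting: the image of `b` is bounded by the image of `a` and the image under `b` of the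
kernel of `a`. -/
theorem Bd.of_ker (a : M →+[G] A) (b : M →+[G] B) {n n' : ℕ} (ha : Bd G s a n)
    (S : Finset ((Fin (s + 1) → G) → B)) (hS : S.card ≤ n')
    (hk : ∀ F ∈ ZZ G M s, a ∘ F ∈ BB G A s → ∃ z ∈ S, b ∘ F - z ∈ BB G B s) :
    Bd G s b (n * n') := by
  classical
  obtain ⟨T, h1, h2, h3⟩ := ha.reps
  refine ⟨(T ×ˢ S).image fun y => b ∘ y.1 + y.2, Finset.card_image_le.trans ?_, fun F hF => ?_⟩
  · rw [Finset.card_product]
    exact Nat.mul_le_mul h1 hS
  · obtain ⟨t, ht, ht'⟩ := h3 F hF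
    obtain ⟨z, hz, hz'⟩ := hk (F - t) (sub_mem hF (h2 t ht)) (by rwa [comp_sub_G])
    refine ⟨b ∘ t + z, Finset.mem_image.2 ⟨(t, z), Finset.mem_product.2 ⟨ht, hz⟩, rfl⟩, ?_⟩
    rwa [comp_sub_G, sub_sub] at hz'

variable [IsTopologicalGroup G]

/-- The connecting map: lift a cocycle, take the coboundary. -/
theorem exists_delta [DiscMod G B] (i : A →+[G] B) (q : B →+[G] C) (hi : Function.Injective i)
    (hq : Function.Surjective q) (hex : ∀ b, q b = 0 → ∃ a, i a = b)
    {F : (Fin (s + 1) → G) → C} (hF : F ∈ ZZ G C s) :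
    ∃ Y : (Fin (s + 1) → G) → B, IsCoch G Y ∧ q ∘ Y = F ∧
      ∃ F₁ ∈ ZZ G A (s + 1), i ∘ F₁ = dd Y := by
  obtain ⟨Y, hY, hqY⟩ := hF.1.lift q hq
  have e : q ∘ Y = F := funext hqY
  obtain ⟨F₁, h1, h2⟩ := IsCoch.of_inj i hi hY.dd (fun x => hex _ (by
    have := congrFun (dd_comp_G q Y) x
    rw [e, hF.2] at this
    exact this.symm))
  have e' : i ∘ F₁ = dd Y := funext h2
  refine ⟨Y, hY, e, F₁, ⟨h1, ?_⟩, e'⟩
  funext x
  apply hi
  have := congrFun (dd_comp_G i F₁) x
  rw [e', dd_dd] at this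
  exact this.symm.trans (map_zero i).symm

/-- Cocycles lift if the next cohomology group of the kernel vanishes. -/
theorem lift_cocycle [DiscMod G B] (i : A →+[G] B) (q : B →+[G] C) (hi : Function.Injective i)
    (hq : Function.Surjective q) (hq0 : ∀ a, q (i a) = 0) (hex : ∀ b, q b = 0 → ∃ a, i a = b)
    (hA : HZero G A (s + 1)) {F : (Fin (s + 1) → G) → C} (hF : F ∈ ZZ G C s) :
    ∃ Y ∈ ZZ G B s, q ∘ Y = F := by
  obtain ⟨Y, hY, e, F₁, h1, e'⟩ := exists_delta i q hi hq hex hF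
  obtain ⟨X, hX, hX'⟩ := hA F₁ h1.1 h1.2
  refine ⟨Y - i ∘ X, ⟨hY.sub (hX.map i), ?_⟩, ?_⟩
  · rw [dd_sub, dd_comp_G, hX', e', sub_self]
  · rw [comp_sub_G, e]
    funext x
    simp [hq0]

/-- Exactness in the middle. -/
theorem exact_mid [DiscMod G B] (i : A →+[G] B) (q : B →+[G] C) (hi : Function.Injective i)
    (hq : Function.Surjective q) (hex : ∀ b, q b = 0 → ∃ a, i a = b)
    {F : (Fin (s + 1) → G) → B} (hF : F ∈ ZZ G B s) (h0 : q ∘ F ∈ BB G C s) :
    ∃ F' ∈ ZZ G A s, F - i ∘ F' ∈ BB G B s := by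
  have key : ∃ X ∈ BB G B s, q ∘ X = q ∘ F := by
    cases s with
    | zero => exact ⟨0, zero_mem _, by rw [mem_BB_zero.1 h0, comp_zero_G]⟩
    | succ s =>
      obtain ⟨Y, hY, e⟩ := h0
      obtain ⟨Y', hY', e'⟩ := hY.lift q hq
      exact ⟨dd Y', dd_mem_BB hY', by rw [← dd_comp_G, show q ∘ Y' = Y from funext e', e]⟩
  obtain ⟨X, hX, e⟩ := key
  have h1 : F - X ∈ ZZ G B s := sub_mem hF (BB_le_ZZ hX)
  obtain ⟨F', h2, h3⟩ := IsCoch.of_inj i hi h1.1 (fun x => hex _ (by
    have := congrFun e x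
    rw [Pi.sub_apply, map_sub, sub_eq_zero]
    exact this.symm))
  have e' : i ∘ F' = F - X := funext h3
  refine ⟨F', ⟨h2, ?_⟩, by rw [e', sub_sub_cancel]; exact hX⟩
  funext x
  apply hi
  have := congrFun (dd_comp_G i F') x
  rw [e', h1.2] at this
  exact this.symm.trans (map_zero i).symm

end coh

/-! ### kernels and cokernels -/

section kc

variable {G : Type} [Group G] {M N : Type} [AddCommGroup M] [DistribMulAction G M]
  [AddCommGroup N] [DistribMulAction G N]

/-- The kernel of an equivariant map. -/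
def Ker (u : M →+[G] N) : Type := (u : M →+ N).ker

instance (u : M →+[G] N) : AddCommGroup (Ker u) :=
  inferInstanceAs (AddCommGroup (u : M →+ N).ker)

theorem ker_stable (u : M →+[G] N) (g : G) (a : M) (ha : a ∈ (u : M →+ N).ker) :
    g • a ∈ (u : M →+ N).ker := by
  have ha' : u a = 0 := ha
  change u (g • a) = 0
  rw [map_smul, ha', smul_zero]

instance (u : M →+[G] N) : DistribMulAction G (Ker u) := subAct _ (ker_stable u)

/-- The inclusion of the kernel. -/
def Ker.inc (u : M →+[G] N) : Ker u →+[G] M where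
  toFun z := Subtype.val z
  map_smul' _ _ := rfl
  map_zero' := rfl
  map_add' _ _ := rfl

theorem Ker.inc_injective (u : M →+[G] N) : Function.Injective (Ker.inc u) :=
  Subtype.val_injective

theorem Ker.map_inc (u : M →+[G] N) (a : Ker u) : u (Ker.inc u a) = 0 := Subtype.property a

theorem Ker.exact (u : M →+[G] N) (b : M) (hb : u b = 0) : ∃ a, Ker.inc u a = b :=
  ⟨(⟨b, hb⟩ : (u : M →+ N).ker), rfl⟩

instance (u : M →+[G] N) [Finite M] : Finite (Ker u) :=
  Finite.of_injective _ (Ker.inc_injective u)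

theorem Ker.nsmul_eq_zero (u : M →+[G] N) {p : ℕ} (hM : ∀ m : M, p • m = 0) (a : Ker u) :
    p • a = 0 :=
  Ker.inc_injective u (by rw [map_nsmul, hM, map_zero])

/-- The cokernel of an equivariant map. -/
def Cok (u : M →+[G] N) : Type := N ⧸ (u : M →+ N).range

instance (u : M →+[G] N) : AddCommGroup (Cok u) :=
  inferInstanceAs (AddCommGroup (N ⧸ (u : M →+ N).range))

theorem range_stable (u : M →+[G] N) (g : G) (a : N) (ha : a ∈ (u : M →+ N).range) :
    g • a ∈ (u : M →+ N).range := by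
  obtain ⟨m, rfl⟩ := ha
  exact ⟨g • m, map_smul u g m⟩

instance (u : M →+[G] N) : DistribMulAction G (Cok u) := quotAct _ (range_stable u)

/-- The projection to the cokernel. -/
def Cok.pr (u : M →+[G] N) : N →+[G] Cok u where
  toFun z := (QuotientAddGroup.mk z : N ⧸ (u : M →+ N).range)
  map_smul' _ _ := rfl
  map_zero' := rfl
  map_add' _ _ := rfl

theorem Cok.pr_surjective (u : M →+[G] N) : Function.Surjective (Cok.pr u) :=
  QuotientAddGroup.mk_surjective

theorem Cok.pr_eq_zero (u : M →+[G] N) (b : N) : Cok.pr u b = 0 ↔ ∃ a, u a = b :=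
  QuotientAddGroup.eq_zero_iff b

instance (u : M →+[G] N) [Finite N] : Finite (Cok u) :=
  Finite.of_surjective _ (Cok.pr_surjective u)

theorem discMod_of_surjective [TopologicalSpace G] [IsTopologicalGroup G] (q : M →+[G] N)
    (hq : Function.Surjective q) [DiscMod G M] : DiscMod G N := by
  constructor
  intro n
  obtain ⟨m, rfl⟩ := hq n
  have h := ((smul_lc (G := G) m).comp q).isOpen_fiber (q m)
  convert h using 1
  ext g
  change g • q m = q m ↔ q (g • m) = q m
  rw [map_smul]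

theorem discMod_of_injective [TopologicalSpace G] (i : M →+[G] N)
    (hi : Function.Injective i) [DiscMod G N] : DiscMod G M := by
  constructor
  intro m
  have h := DiscMod.isOpen_stab (G := G) (i m)
  convert h using 1
  ext g
  change g • m = m ↔ g • i m = i m
  rw [← map_smul, hi.eq_iff]

instance [TopologicalSpace G] (u : M →+[G] N) [DiscMod G M] : DiscMod G (Ker u) :=
  discMod_of_injective (Ker.inc u) (Ker.inc_injective u)

instance [TopologicalSpace G] [IsTopologicalGroup G] (u : M →+[G] N) [DiscMod G N] :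
    DiscMod G (Cok u) := discMod_of_surjective (Cok.pr u) (Cok.pr_surjective u)

theorem Cok.nsmul_eq_zero (u : M →+[G] N) {p : ℕ} (hN : ∀ n : N, p • n = 0) (a : Cok u) :
    p • a = 0 := by
  obtain ⟨n, rfl⟩ := Cok.pr_surjective u a
  rw [← map_nsmul, hN, map_zero]

end kc

/-! ### functions on finite `G`-sets, twisted modules -/

section fn

variable {G : Type} [Group G] {X X' X'' : Type} [MulAction G X] [MulAction G X']
  [MulAction G X''] {M N : Type} [AddCommGroup M] [DistribMulAction G M] [AddCommGroup N]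
  [DistribMulAction G N]

theorem Fn.nsmul_eq_zero {p : ℕ} (hM : ∀ m : M, p • m = 0) (f : Fn X M) : p • f = 0 :=
  Fn.ext fun x => by rw [Fn.nsmul_apply, hM]; rfl

/-- constant functions -/
def cst (G : Type) [Group G] (X : Type) [MulAction G X] (M : Type) [AddCommGroup M]
    [DistribMulAction G M] : M →+[G] Fn X M where
  toFun m := Fn.mk fun _ => m
  map_smul' _ _ := rfl
  map_zero' := rfl
  map_add' _ _ := rfl

theorem cst_apply (m : M) (x : X) : cst G X M m x = m := rfl

/-- the map on functions induced by a map of coefficients -/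
def Fn.map (X : Type) [MulAction G X] (u : M →+[G] N) : Fn X M →+[G] Fn X N where
  toFun f := Fn.mk fun x => u (f x)
  map_smul' g f := Fn.ext fun x => map_smul u g (f (g⁻¹ • x))
  map_zero' := Fn.ext fun _ => map_zero u
  map_add' f f' := Fn.ext fun x => map_add u (f x) (f' x)

theorem Fn.map_apply (u : M →+[G] N) (f : Fn X M) (x : X) : Fn.map X u f x = u (f x) := rfl

theorem tot_map [Finite X] (u : M →+[G] N) (f : Fn X M) :
    tot G X N (Fn.map X u f) = u (tot G X M f) := by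
  have := Fintype.ofFinite X
  rw [tot_apply, tot_apply, map_sum]
  rfl

theorem tot_surjective [Finite X] [Nonempty X] : Function.Surjective (tot G X M) := by
  classical
  have := Fintype.ofFinite X
  intro m
  obtain ⟨x₀⟩ := ‹Nonempty X›
  refine ⟨Fn.mk fun x => if x = x₀ then m else 0, ?_⟩
  rw [tot_apply]
  simp

theorem tot_push [Finite X] [Finite X'] (π : X' → X)
    (hπ : ∀ (g : G) (x : X'), π (g • x) = g • π x) (f : Fn X' M) :
    tot G X M (push G M π hπ f) = tot G X' M f := by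
  classical
  have := Fintype.ofFinite X
  have := Fintype.ofFinite X'
  rw [tot_apply, tot_apply]
  simp only [push_apply]
  rw [Finset.sum_comm]
  refine Finset.sum_congr rfl fun y _ => ?_
  simp

theorem push_push [Finite X'] [Finite X''] (π : X' → X)
    (hπ : ∀ (g : G) (x : X'), π (g • x) = g • π x) (π' : X'' → X')
    (hπ' : ∀ (g : G) (x : X''), π' (g • x) = g • π' x) (π'' : X'' → X)
    (hπ'' : ∀ (g : G) (x : X''), π'' (g • x) = g • π'' x) (h : ∀ x, π (π' x) = π'' x)
    (f : Fn X'' M) : push G M π hπ (push G M π' hπ' f) = push G M π'' hπ'' f := by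
  classical
  have := Fintype.ofFinite X'
  have := Fintype.ofFinite X''
  refine Fn.ext fun x => ?_
  simp only [push_apply]
  have e : ∀ y : X', (if π y = x then ∑ z : X'', if π' z = y then f z else 0 else 0) =
      ∑ z : X'', if π' z = y then (if π y = x then f z else 0) else 0 := by
    intro y
    split_ifs <;> simp
  simp only [e]
  rw [Finset.sum_comm]
  refine Finset.sum_congr rfl fun z _ => ?_
  rw [Finset.sum_ite_eq, if_pos (Finset.mem_univ _), h]

theorem pushQ_pushQ {V'' V' V : Subgroup G} [Finite (G ⧸ V'')] [Finite (G ⧸ V')] (h' : V'' ≤ V')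
    (h : V' ≤ V) (f : Fn (G ⧸ V'') M) :
    pushQ h M (pushQ h' M f) = pushQ (h'.trans h) M f :=
  push_push _ _ _ _ _ _ (fun x => by
    obtain ⟨a, rfl⟩ := QuotientGroup.mk_surjective x
    rfl) f

theorem tot_pushQ {V' V : Subgroup G} [Finite (G ⧸ V')] [Finite (G ⧸ V)] (h : V' ≤ V)
    (f : Fn (G ⧸ V') M) : tot G (G ⧸ V) M (pushQ h M f) = tot G (G ⧸ V') M f :=
  tot_push _ _ f

theorem push_surjective [Finite X'] (π : X' → X)
    (hπ : ∀ (g : G) (x : X'), π (g • x) = g • π x) (hs : Function.Surjective π) :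
    Function.Surjective (push G M π hπ) := by
  classical
  have := Fintype.ofFinite X'
  intro f
  refine ⟨Fn.mk fun y => if y = Function.surjInv hs (π y) then f (π y) else 0, Fn.ext fun x => ?_⟩
  rw [push_apply, Finset.sum_eq_single (Function.surjInv hs x)]
  · simp only [Function.surjInv_eq hs, if_true]
  · intro y _ hy
    split_ifs with h1
    · exact if_neg (by rw [h1]; exact hy)
    · rfl
  · intro h
    exact absurd (Finset.mem_univ _) h

theorem pushQ_surjective {V' V : Subgroup G} [Finite (G ⧸ V')] (h : V' ≤ V) :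
    Function.Surjective (pushQ h M) :=
  push_surjective _ _ fun x => by
    obtain ⟨a, rfl⟩ := QuotientGroup.mk_surjective x
    exact ⟨a, rfl⟩

variable [TopologicalSpace G]

theorem discMod_Fn [Finite X] [DiscMod G M] (hX : ∀ x : X, IsOpen {g : G | g • x = x})
    [IsTopologicalGroup G] : DiscMod G (Fn X M) := by
  constructor
  intro f
  have h1 : IsOpen (⋂ x : X, ({g : G | g • x = x} ∩ {g : G | g • f x = f x})) :=
    isOpen_iInter_of_finite fun x => (hX x).inter (DiscMod.isOpen_stab _)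
  refine Subgroup.isOpen_of_mem_nhds (MulAction.stabilizer G f) (g := 1)
    (Filter.mem_of_superset (h1.mem_nhds (by simp)) ?_)
  intro g hg
  rw [Set.mem_iInter] at hg
  refine Fn.ext fun x => ?_
  have h2 : g⁻¹ • x = x := by
    rw [inv_smul_eq_iff]
    exact (hg x).1.symm
  rw [Fn.smul_apply, h2]
  exact (hg x).2

theorem isOpen_stab_quot [IsTopologicalGroup G] {V : Subgroup G} (hV : IsOpen (V : Set G))
    (x : G ⧸ V) : IsOpen {g : G | g • x = x} := by
  have : DiscreteTopology (G ⧸ V) := QuotientGroup.discreteTopology hV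
  exact (isOpen_discrete {x}).preimage (continuous_id.smul continuous_const)

theorem discMod_FnQ [IsTopologicalGroup G] {V : Subgroup G} (hV : IsOpen (V : Set G))
    [Finite (G ⧸ V)] [DiscMod G M] : DiscMod G (Fn (G ⧸ V) M) :=
  discMod_Fn (isOpen_stab_quot hV)

/-- An open normal subgroup inside `U` which acts trivially on the finite module `M`. -/
theorem exists_normal_triv [IsTopologicalGroup G] [CompactSpace G] [T2Space G]
    [TotallyDisconnectedSpace G] (U : Subgroup G) (hU : IsOpen (U : Set G)) (M : Type)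
    [AddCommGroup M] [DistribMulAction G M] [DiscMod G M] [Finite M] :
    ∃ V : Subgroup G, V.Normal ∧ IsOpen (V : Set G) ∧ V ≤ U ∧ ∀ v ∈ V, ∀ m : M, v • m = m := by
  have h1 : IsOpen ((U : Set G) ∩ ⋂ m : M, {g : G | g • m = m}) :=
    hU.inter (isOpen_iInter_of_finite fun m => DiscMod.isOpen_stab m)
  obtain ⟨V, hV⟩ := ProfiniteGrp.exist_openNormalSubgroup_sub_open_nhds_of_one h1
    ⟨U.one_mem, by simp⟩
  refine ⟨V.toSubgroup, inferInstance, V.isOpen', fun v hv => (hV hv).1, fun v hv m => ?_⟩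
  exact Set.mem_iInter.1 (hV hv).2 m

end fn

section tw

variable {G : Type} [Group G] {p : ℕ} (χ : G →* (ZMod p)ˣ) {M : Type} [AddCommGroup M]

theorem Tw.nsmul_eq_zero (a : Tw χ) : p • a = 0 :=
  (Tw.val χ).injective (by rw [map_nsmul, map_zero, nsmul_eq_mul, ZMod.natCast_self, zero_mul])

instance [NeZero p] : Finite (Tw χ) := Finite.of_equiv _ (Tw.val χ).toEquiv.symm

theorem Triv.smul_eq (g : G) (a : Triv G p) : g • a = a :=
  (Tw.val (1 : G →* (ZMod p)ˣ)).injective (by
    rw [Tw.val_smul, MonoidHom.one_apply, Units.val_one, one_mul])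

theorem Dl.ext {φ ψ : Dl χ M} (h : ∀ m, Dl.val χ M φ m = Dl.val χ M ψ m) : φ = ψ :=
  (Dl.val χ M).injective (AddMonoidHom.ext h)

theorem Dl.nsmul_eq_zero (φ : Dl χ M) : p • φ = 0 :=
  Dl.ext χ fun m => by
    rw [map_nsmul, map_zero, AddMonoidHom.nsmul_apply, nsmul_eq_mul, ZMod.natCast_self, zero_mul,
      AddMonoidHom.zero_apply]

instance [NeZero p] [Finite M] : Finite (Dl χ M) :=
  Finite.of_injective (fun φ : Dl χ M => (Dl.val χ M φ : M → ZMod p)) fun _ _ h =>
    Dl.ext χ (congrFun h)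

variable [DistribMulAction G M]

theorem ev_smul (g : G) (m : M) (φ : Dl χ M) : ev χ M (g • m) (g • φ) = g • ev χ M m φ :=
  (Tw.val χ).injective (by rw [val_ev, Dl.val_smul, inv_smul_smul, Tw.val_smul, val_ev])

variable [TopologicalSpace G] [IsTopologicalGroup G]

theorem discMod_Tw (hχ : IsOpen (χ.ker : Set G)) : DiscMod G (Tw χ) := by
  constructor
  intro a
  refine Subgroup.isOpen_mono (H₁ := χ.ker) (H₂ := MulAction.stabilizer G a) ?_ hχ
  intro g hg
  refine (Tw.val χ).injective ?_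
  rw [Tw.val_smul, MonoidHom.mem_ker.1 hg, Units.val_one, one_mul]

instance : DiscMod G (Triv G p) := ⟨fun a => by
  have : {g : G | g • a = a} = Set.univ := Set.eq_univ_of_forall fun g => Triv.smul_eq g a
  rw [this]
  exact isOpen_univ⟩

theorem discMod_Dl (hχ : IsOpen (χ.ker : Set G)) [Finite M] [DiscMod G M] :
    DiscMod G (Dl χ M) := by
  constructor
  intro φ
  have h1 : IsOpen ((χ.ker : Set G) ∩ ⋂ m : M, {g : G | g • m = m}) :=
    hχ.inter (isOpen_iInter_of_finite fun m => DiscMod.isOpen_stab m)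
  refine Subgroup.isOpen_of_mem_nhds (MulAction.stabilizer G φ) (g := 1)
    (Filter.mem_of_superset (h1.mem_nhds ⟨χ.ker.one_mem, by simp⟩) ?_)
  intro g hg
  refine Dl.ext χ fun m => ?_
  have h2 : g⁻¹ • m = m := by
    rw [inv_smul_eq_iff]
    exact (Set.mem_iInter.1 hg.2 m).symm
  rw [Dl.val_smul, h2, MonoidHom.mem_ker.1 hg.1, Units.val_one, one_mul]

end tw

end Vale.Agent.P261Z.D
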