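import Vale.Agent.P261Z.D.Sk
import Vale.Agent.P251.F.GroupFinal

/-!
# P261, block D: characters with values in the prime field
-/

namespace Vale.Agent.P261Z.D

open Vale.Agent.P251 Vale.Agent.P251.C Vale.Agent.P251.F

theorem chi : CHI := by
  intro p d _ G _ _ _ V χ hp2 hχ g hg
  have := V.U_normal
  obtain ⟨k, hk⟩ := V.relIndex
  obtain ⟨B, e, he⟩ := V.unif
  have h1 : g ^ p ^ k ∈ V.U := hk ▸ V.U.pow_relIndex_mem hg
  obtain ⟨l, hl⟩ := Unif.exists_lev_subset he (V := Subtype.val ⁻¹' (χ.ker : Set G))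
    ((hχ.preimage continuous_subtype_val).mem_nhds χ.ker.one_mem)
  have h2 : χ ((g ^ p ^ k) ^ p ^ l) = 1 := hl (Unif.pow_pow_mem he hp2 ⟨_, h1⟩ l)
  rw [← pow_mul, ← pow_add, map_pow] at h2
  refine Units.ext ?_
  simpa only [Units.val_pow_eq_pow_val, ZMod.pow_card_pow] using congrArg Units.val h2

/-- a character which is trivial on the principal units is a power of the norm -/
theorem chi_norm {k : Type} [Field k] [Finite k] {p n : ℕ} [hp : Fact p.Prime] [CharP k p]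
    {H : FormalGroup k} [H.IsComm] (hH : HondaOver p n H) (hk : Nat.card k = p ^ n) (_hn : 1 ≤ n)
    (χ : AutF H →* (ZMod p)ˣ) (h : ∀ g ∈ HondaOver.prin H, χ g = 1) :
    ∃ i : ℕ, ∀ g, ZMod.castHom (dvd_refl p) k (χ g) = g.cf 1 ^ (i * ((p ^ n - 1) / (p - 1))) := by
  let c : AutF H →* kˣ :=
    { toFun := fun g => Units.mk0 (g.cf 1) (AutF.cf_one_isUnit g).ne_zero
      map_one' := Units.ext AutF.cf_one_one
      map_mul' := fun f g => Units.ext (AutF.cf_one_mul f g) }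
  let ψ := (Units.map (ZMod.castHom (dvd_refl p) k).toMonoidHom).comp χ
  obtain ⟨y, hy⟩ := IsCyclic.exists_monoid_generator (α := kˣ)
  obtain ⟨g₀, h₀⟩ : ∃ g₀, c g₀ = y :=
    ⟨⟨_, hH.teich y, by simp⟩, Units.ext (by simp [c, AutF.cf, AutF.val])⟩
  obtain ⟨m, hm⟩ := hy (ψ g₀)
  have h1 : orderOf y = p ^ n - 1 := by
    rw [orderOf_eq_card_of_forall_mem_powers hy, Nat.card_units, hk]
  have h2 : (p ^ n - 1) / (p - 1) * (p - 1) ∣ m * (p - 1) := by
    rw [Nat.div_mul_cancel (Nat.sub_one_dvd_pow_sub_one p n), ← h1, orderOf_dvd_iff_pow_eq_one,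
      pow_mul, show y ^ m = ψ g₀ from hm, MonoidHom.comp_apply, ← map_pow,
      ZMod.units_pow_card_sub_one_eq_one, map_one]
  obtain ⟨i, rfl⟩ := Nat.dvd_of_mul_dvd_mul_right (Nat.sub_pos_of_lt hp.out.one_lt) h2
  refine ⟨i, fun g => ?_⟩
  obtain ⟨a, ha⟩ := hy (c g)
  have h3 : c (g * (g₀ ^ a)⁻¹) = 1 := by
    rw [map_mul, map_inv, map_pow, h₀, show y ^ a = c g from ha, mul_inv_cancel]
  have h4 := h _ (HondaOver.mem_prin.2 (congrArg Units.val h3))
  rw [map_mul, map_inv, mul_inv_eq_one, map_pow] at h4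
  have h5 : ψ g = c g ^ (i * ((p ^ n - 1) / (p - 1))) := by
    rw [MonoidHom.comp_apply, h4, map_pow, ← ha, ← pow_mul, mul_comm a, mul_comm i, pow_mul]
    exact congrArg (· ^ a) hm.symm
  exact congrArg Units.val h5

end Vale.Agent.P261Z.D
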