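import Vale.Agent.P261Z.D.Sk
import Vale.Agent.P261Z.D.Basic

/-!
# P261, block D: cup products
-/

namespace Vale.Agent.P261Z.D

open Vale.Agent.P251 Vale.Agent.P251.C

section alg

variable {G M D E : Type} [AddCommGroup M] [AddCommGroup D] [AddCommGroup E] (β : M →+ D →+ E)
  {a b n : ℕ}

theorem cup_congr {M' D' : Type} [AddCommGroup M'] [AddCommGroup D'] (β' : M' →+ D' →+ E)
    (h : a + b = n) {F : (Fin (a + 1) → G) → M} {Z : (Fin (b + 1) → G) → D}
    {F' : (Fin (a + 1) → G) → M'} {Z' : (Fin (b + 1) → G) → D'}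
    (H : ∀ x y, β (F x) (Z y) = β' (F' x) (Z' y)) : cup β h F Z = cup β' h F' Z' :=
  funext fun _ => H _ _

theorem cup_zero_left (h : a + b = n) (Z : (Fin (b + 1) → G) → D) :
    cup β h (0 : (Fin (a + 1) → G) → M) Z = 0 :=
  funext fun _ => by simp [cup]

theorem cup_zero_right (h : a + b = n) (F : (Fin (a + 1) → G) → M) :
    cup β h F (0 : (Fin (b + 1) → G) → D) = 0 :=
  funext fun _ => by simp [cup]

theorem cup_add_left (h : a + b = n) (F F' : (Fin (a + 1) → G) → M) (Z : (Fin (b + 1) → G) → D) :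
    cup β h (F + F') Z = cup β h F Z + cup β h F' Z :=
  funext fun _ => by simp [cup]

theorem cup_add_right (h : a + b = n) (F : (Fin (a + 1) → G) → M) (Z Z' : (Fin (b + 1) → G) → D) :
    cup β h F (Z + Z') = cup β h F Z + cup β h F Z' :=
  funext fun _ => by simp [cup]

theorem cup_sub_left (h : a + b = n) (F F' : (Fin (a + 1) → G) → M) (Z : (Fin (b + 1) → G) → D) :
    cup β h (F - F') Z = cup β h F Z - cup β h F' Z :=
  funext fun _ => by simp [cup]

theorem cup_sub_right (h : a + b = n) (F : (Fin (a + 1) → G) → M) (Z Z' : (Fin (b + 1) → G) → D) :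
    cup β h F (Z - Z') = cup β h F Z - cup β h F Z' :=
  funext fun _ => by simp [cup]

theorem cup_map {E' : Type} [AddCommGroup E'] (u : E →+ E') (h : a + b = n)
    (F : (Fin (a + 1) → G) → M) (Z : (Fin (b + 1) → G) → D) :
    u ∘ cup β h F Z = cup (β.compr₂ u) h F Z := rfl

theorem cup_cons (h : a + b = n) (h' : a + 1 + b = n + 1) (F : (Fin (a + 1 + 1) → G) → M)
    (Z : (Fin (b + 1) → G) → D) (x : G) (y : Fin (n + 1) → G) :
    cup β h' F Z (Fin.cons x y : Fin (n + 1 + 1) → G) =
      cup β h (fun w => F (Fin.cons x w)) Z y := by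
  unfold cup
  congr 2
  · congr 1
    funext i
    exact Fin.cases rfl (fun _ => rfl) i
  · funext j
    rw [show (⟨a + 1 + j, by omega⟩ : Fin (n + 1 + 1)) = Fin.succ ⟨a + j, by omega⟩ from
      Fin.ext (by simp only [Fin.val_succ]; omega), Fin.cons_succ]

theorem cup_left_zero (h : 0 + b = b) (F : (Fin (0 + 1) → G) → M) (Z : (Fin (b + 1) → G) → D)
    (x : Fin (b + 1) → G) : cup β h F Z x = β (F fun _ => x 0) (Z x) := by
  unfold cup
  congr 2
  · congr 1
    funext i
    exact Fin.cases rfl (fun i => i.elim0) i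
  · funext j
    exact congrArg x (Fin.ext (Nat.zero_add _))

end alg

theorem cup_dd : CUP := by
  intro G M D E _ _ _ β a
  induction a with
  | zero =>
    intro b n h F Z
    obtain rfl : b = n := (Nat.zero_add b).symm.trans h
    funext x
    obtain ⟨x, y, rfl⟩ : ∃ u y, x = (Fin.cons u y : Fin (b + 1 + 1) → G) :=
      ⟨x 0, Fin.tail x, by simp⟩
    have e : (fun w : Fin (0 + 1) → G => dd F (Fin.cons x w : Fin (0 + 1 + 1) → G)) =
        fun w => F w - F fun _ => x := funext fun w => by
      rw [dd_cons, dd_one]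
      congr 2
      funext i
      exact Fin.cases rfl (fun i => i.elim0) i
    rw [Pi.add_apply, pow_zero, one_smul, cup_cons β h, e, dd_cons]
    simp only [cup_left_zero, Fin.cons_zero]
    rw [dd_cons, dd_map (β (F fun _ => x)) fun w => Z (Fin.cons x w)]
    simp only [map_sub, AddMonoidHom.sub_apply]
    abel
  | succ a ih =>
    intro b n h F Z
    obtain ⟨n, rfl⟩ : ∃ m, n = m + 1 := ⟨a + b, by omega⟩
    have h0 : a + b = n := by omega
    funext x
    obtain ⟨x, y, rfl⟩ : ∃ u y, x = (Fin.cons u y : Fin (n + 1 + 1 + 1) → G) :=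
      ⟨x 0, Fin.tail x, by simp⟩
    have e : (fun w : Fin (a + 1 + 1) → G => dd F (Fin.cons x w : Fin (a + 1 + 1 + 1) → G)) =
        F - dd fun w => F (Fin.cons x w) := funext fun w => dd_cons F x w
    rw [Pi.add_apply, Pi.smul_apply, cup_cons β h, e, dd_cons,
      cup_cons β (show a + (b + 1) = n + 1 by omega), cup_sub_left,
      funext (cup_cons β h0 h F Z x), ih]
    simp only [Pi.add_apply, Pi.sub_apply, Pi.smul_apply, pow_succ, mul_neg, mul_one, neg_smul]
    abel

theorem isCoch_cup {G M D E : Type} [Group G] [TopologicalSpace G] [AddCommGroup M]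
    [DistribMulAction G M] [AddCommGroup D] [DistribMulAction G D] [AddCommGroup E]
    [DistribMulAction G E] (β : M →+ D →+ E) (hβ : ∀ (g : G) m y, β (g • m) (g • y) = g • β m y)
    {a b n : ℕ} (h : a + b = n) {F : (Fin (a + 1) → G) → M} {Z : (Fin (b + 1) → G) → D}
    (hF : IsCoch G F) (hZ : IsCoch G Z) : IsCoch G (cup β h F Z) := by
  refine ⟨?_, fun g x => ?_⟩
  · exact (hF.lc.comp_continuous (continuous_pi fun _ => continuous_apply _)).comp₂
      (hZ.lc.comp_continuous (continuous_pi fun _ => continuous_apply _)) fun m y => β m y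
  · unfold cup
    rw [← hβ, ← hF.equi, ← hZ.equi]

end Vale.Agent.P261Z.D
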