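import Vale.Agent.P251.I.C
import Vale.Agent.P251.C.LES

/-!
# P261, block D: definitions

Cocycles `ZZ`, coboundaries `BB` (zero in degree `0`), `HZ` (a map kills the cohomology in degree
`s`, including `s = 0`), `Bd` (the image in cohomology has at most `n` elements), `PF` (a tower
has bounded stable images), cup products, functions on finite `G`-sets, twisted duals.
-/

namespace Vale.Agent.P261Z.D

open Vale.Agent.P251 Vale.Agent.P251.C

section coh

variable (G : Type) [Group G] [TopologicalSpace G] (M : Type) [AddCommGroup M]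
  [DistribMulAction G M]

/-- The cocycles of degree `s`. -/
def ZZ (s : ℕ) : AddSubgroup ((Fin (s + 1) → G) → M) where
  carrier := {F | IsCoch G F ∧ dd F = 0}
  add_mem' := fun {a b} ha hb => ⟨ha.1.add hb.1, by rw [dd_add, ha.2, hb.2, add_zero]⟩
  zero_mem' := ⟨IsCoch.zero, dd_zero⟩
  neg_mem' := fun {a} ha => ⟨ha.1.neg, by rw [dd_neg, ha.2, neg_zero]⟩

/-- The coboundaries of degree `s` (zero for `s = 0`). -/
def BB : ∀ s : ℕ, AddSubgroup ((Fin (s + 1) → G) → M)
  | 0 => ⊥
  | s + 1 =>
    { carrier := {F | ∃ Y : (Fin (s + 1) → G) → M, IsCoch G Y ∧ dd Y = F}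
      add_mem' := by
        rintro _ _ ⟨Y, hY, rfl⟩ ⟨Y', hY', rfl⟩
        exact ⟨Y + Y', hY.add hY', dd_add Y Y'⟩
      zero_mem' := ⟨0, IsCoch.zero, dd_zero⟩
      neg_mem' := by
        rintro _ ⟨Y, hY, rfl⟩
        exact ⟨-Y, hY.neg, dd_neg Y⟩ }

variable {M} {N : Type} [AddCommGroup N] [DistribMulAction G N]

/-- The map `u` is zero on `H^s`. -/
def HZ (s : ℕ) (u : M → N) : Prop := ∀ F ∈ ZZ G M s, u ∘ F ∈ BB G N s

/-- The image of the map induced by `u` on `H^s` has at most `n` elements. -/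
def Bd (s : ℕ) (u : M → N) (n : ℕ) : Prop :=
  ∃ S : Finset ((Fin (s + 1) → G) → N), S.card ≤ n ∧
    ∀ F ∈ ZZ G M s, ∃ z ∈ S, u ∘ F - z ∈ BB G N s

variable (M) in
/-- `H^s(G; M)` is finite. -/
def HFin (s : ℕ) : Prop := ∃ n, Bd G s (id : M → M) n

/-- The tower `k ↦ H^s(G; T k)` has stable images of bounded order. -/
def PF (s : ℕ) (T : ℕ → Type) [∀ k, AddCommGroup (T k)] [∀ k, DistribMulAction G (T k)]
    (r : ∀ {k k' : ℕ}, k ≤ k' → T k' → T k) : Prop :=
  ∃ n, ∀ k, ∃ k', ∃ h : k ≤ k', Bd G s (r h) n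

end coh

/-- The cup product of homogeneous cochains of degrees `a` and `b`. -/
def cup {G M D E : Type} [AddCommGroup M] [AddCommGroup D] [AddCommGroup E] (β : M →+ D →+ E)
    {a b n : ℕ} (h : a + b = n) (F : (Fin (a + 1) → G) → M) (Z : (Fin (b + 1) → G) → D) :
    (Fin (n + 1) → G) → E :=
  fun x => β (F fun i => x ⟨i, by omega⟩) (Z fun j => x ⟨a + j, by omega⟩)

/-! ### functions on `G`-sets -/

/-- Functions on a `G`-set with values in a `G`-module. -/
structure Fn (X M : Type) : Type where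
  /-- the underlying function -/
  fn : X → M

section fn

variable {G : Type} [Group G] {X X' : Type} [MulAction G X] [MulAction G X'] {M : Type}

instance : CoeFun (Fn X M) (fun _ => X → M) := ⟨Fn.fn⟩

/-- the underlying function, as an equivalence -/
def Fn.equiv (X M : Type) : Fn X M ≃ (X → M) where
  toFun := Fn.fn
  invFun := Fn.mk
  left_inv _ := rfl
  right_inv _ := rfl

theorem Fn.ext {f f' : Fn X M} (h : ∀ x, f x = f' x) : f = f' :=
  (Fn.equiv X M).injective (funext h)

instance [Finite X] [Finite M] : Finite (Fn X M) := Finite.of_equiv _ (Fn.equiv X M).symm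

variable [AddCommGroup M]

instance : AddCommGroup (Fn X M) := (Fn.equiv X M).addCommGroup

theorem Fn.add_apply (f f' : Fn X M) (x : X) : (f + f') x = f x + f' x := rfl

theorem Fn.sub_apply (f f' : Fn X M) (x : X) : (f - f') x = f x - f' x := rfl

theorem Fn.neg_apply (f : Fn X M) (x : X) : (-f) x = -f x := rfl

theorem Fn.zero_apply (x : X) : (0 : Fn X M) x = 0 := rfl

/-- evaluation at a point -/
def Fn.ev (M : Type) [AddCommGroup M] (x : X) : Fn X M →+ M where
  toFun f := f x
  map_zero' := rfl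
  map_add' _ _ := rfl

theorem Fn.ev_apply (x : X) (f : Fn X M) : Fn.ev M x f = f x := rfl

theorem Fn.sum_apply {ι : Type*} (s : Finset ι) (f : ι → Fn X M) (x : X) :
    (∑ i ∈ s, f i) x = ∑ i ∈ s, f i x := map_sum (Fn.ev M x) f s

theorem Fn.nsmul_apply (n : ℕ) (f : Fn X M) (x : X) : (n • f) x = n • f x :=
  map_nsmul (Fn.ev M x) n f

variable [DistribMulAction G M]

instance : DistribMulAction G (Fn X M) where
  smul g f := Fn.mk fun x => g • f (g⁻¹ • x)
  one_smul f := Fn.ext fun x => by
    change (1 : G) • f ((1 : G)⁻¹ • x) = f x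
    rw [inv_one, one_smul, one_smul]
  mul_smul g h f := Fn.ext fun x => by
    change (g * h) • f ((g * h)⁻¹ • x) = g • h • f (h⁻¹ • g⁻¹ • x)
    rw [mul_smul, mul_inv_rev, mul_smul]
  smul_zero g := Fn.ext fun _ => smul_zero g
  smul_add g _ _ := Fn.ext fun _ => smul_add g _ _

theorem Fn.smul_apply (g : G) (f : Fn X M) (x : X) : (g • f) x = g • f (g⁻¹ • x) := rfl

open Classical in
/-- Summation over the fibres of an equivariant map of finite `G`-sets. -/
noncomputable def push (G : Type) [Group G] {X X' : Type} [MulAction G X] [MulAction G X']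
    [Finite X'] (M : Type) [AddCommGroup M] [DistribMulAction G M] (π : X' → X)
    (hπ : ∀ (g : G) (x : X'), π (g • x) = g • π x) : Fn X' M →+[G] Fn X M where
  toFun f := Fn.mk fun x => ∑ᶠ y : X', if π y = x then f y else 0
  map_smul' g f := Fn.ext fun x => by
    have := Fintype.ofFinite X'
    change (∑ᶠ y : X', if π y = x then g • f (g⁻¹ • y) else 0) =
      g • ∑ᶠ y : X', if π y = g⁻¹ • x then f y else 0
    rw [finsum_eq_sum_of_fintype, finsum_eq_sum_of_fintype, Finset.smul_sum,
      ← Equiv.sum_comp (MulAction.toPerm g)]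
    refine Finset.sum_congr rfl fun y _ => ?_
    rw [MulAction.toPerm_apply, inv_smul_smul, hπ]
    by_cases h : π y = g⁻¹ • x
    · rw [if_pos h, if_pos (by rw [h, smul_inv_smul])]
    · rw [if_neg h, if_neg (fun h' => h (by rw [← h', inv_smul_smul])), smul_zero]
  map_zero' := Fn.ext fun x => by
    change (∑ᶠ y : X', if π y = x then (0 : M) else 0) = 0
    simp
  map_add' f f' := Fn.ext fun x => by
    have := Fintype.ofFinite X'
    change (∑ᶠ y : X', if π y = x then f y + f' y else 0) =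
      (∑ᶠ y : X', if π y = x then f y else 0) + ∑ᶠ y : X', if π y = x then f' y else 0
    rw [finsum_eq_sum_of_fintype, finsum_eq_sum_of_fintype, finsum_eq_sum_of_fintype,
      ← Finset.sum_add_distrib]
    refine Finset.sum_congr rfl fun y _ => ?_
    split_ifs <;> simp

/-- The sum of the values. -/
noncomputable def tot (G : Type) [Group G] (X : Type) [MulAction G X] [Finite X] (M : Type)
    [AddCommGroup M] [DistribMulAction G M] : Fn X M →+[G] M where
  toFun f := ∑ᶠ x : X, f x
  map_smul' g f := by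
    have := Fintype.ofFinite X
    change (∑ᶠ x : X, g • f (g⁻¹ • x)) = g • ∑ᶠ x : X, f x
    rw [finsum_eq_sum_of_fintype, finsum_eq_sum_of_fintype, Finset.smul_sum]
    exact Equiv.sum_comp (MulAction.toPerm g⁻¹) (fun x => g • f x)
  map_zero' := by
    change (∑ᶠ _ : X, (0 : M)) = 0
    simp
  map_add' f f' := by
    have := Fintype.ofFinite X
    change (∑ᶠ x : X, (f x + f' x)) = (∑ᶠ x : X, f x) + ∑ᶠ x : X, f' x
    rw [finsum_eq_sum_of_fintype, finsum_eq_sum_of_fintype, finsum_eq_sum_of_fintype,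
      Finset.sum_add_distrib]

open Classical in
theorem push_apply [Fintype X'] (π : X' → X) (hπ : ∀ (g : G) (x : X'), π (g • x) = g • π x)
    (f : Fn X' M) (x : X) : push G M π hπ f x = ∑ y : X', if π y = x then f y else 0 :=
  finsum_eq_sum_of_fintype _

theorem tot_apply [Fintype X] (f : Fn X M) : tot G X M f = ∑ x : X, f x :=
  finsum_eq_sum_of_fintype _

end fn

/-- The projection `G ⧸ V' → G ⧸ V` is equivariant. -/
theorem quot_smul {G : Type} [Group G] {V' V : Subgroup G} (h : V' ≤ V) (g : G) (x : G ⧸ V') :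
    Subgroup.quotientMapOfLE h (g • x) = g • Subgroup.quotientMapOfLE h x := by
  obtain ⟨a, rfl⟩ := QuotientGroup.mk_surjective x
  rfl

/-- Summation over the fibres of `G ⧸ V' → G ⧸ V`. -/
noncomputable def pushQ {G : Type} [Group G] {V' V : Subgroup G} [Finite (G ⧸ V')] (h : V' ≤ V)
    (M : Type) [AddCommGroup M] [DistribMulAction G M] : Fn (G ⧸ V') M →+[G] Fn (G ⧸ V) M :=
  push G M (Subgroup.quotientMapOfLE h) (quot_smul h)

/-! ### twisted modules -/

/-- `ZMod p` with the action through the character `χ`. -/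
def Tw {G : Type} [Group G] {p : ℕ} (_χ : G →* (ZMod p)ˣ) : Type := ZMod p

/-- The twisted dual of `M`. -/
def Dl {G : Type} [Group G] {p : ℕ} (_χ : G →* (ZMod p)ˣ) (M : Type) [AddCommGroup M] : Type :=
  M →+ ZMod p

section tw

variable {G : Type} [Group G] {p : ℕ} (χ : G →* (ZMod p)ˣ) (M : Type) [AddCommGroup M]

instance : AddCommGroup (Tw χ) := inferInstanceAs (AddCommGroup (ZMod p))

/-- the underlying element -/
def Tw.val : Tw χ ≃+ ZMod p := AddEquiv.refl _

instance : DistribMulAction G (Tw χ) where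
  smul g a := (Tw.val χ).symm ((χ g : ZMod p) * Tw.val χ a)
  one_smul a := by
    change ((χ 1 : (ZMod p)ˣ) : ZMod p) * Tw.val χ a = Tw.val χ a
    rw [map_one, Units.val_one, one_mul]
  mul_smul g h a := by
    change ((χ (g * h) : (ZMod p)ˣ) : ZMod p) * Tw.val χ a =
      (χ g : ZMod p) * ((χ h : ZMod p) * Tw.val χ a)
    rw [map_mul, Units.val_mul, mul_assoc]
  smul_zero g := mul_zero (χ g : ZMod p)
  smul_add g a b := mul_add (χ g : ZMod p) (Tw.val χ a) (Tw.val χ b)

theorem Tw.val_smul (g : G) (a : Tw χ) : Tw.val χ (g • a) = (χ g : ZMod p) * Tw.val χ a := rfl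

instance : AddCommGroup (Dl χ M) := inferInstanceAs (AddCommGroup (M →+ ZMod p))

/-- the underlying homomorphism -/
def Dl.val : Dl χ M ≃+ (M →+ ZMod p) := AddEquiv.refl _

variable [DistribMulAction G M]

instance : DistribMulAction G (Dl χ M) where
  smul g φ := (Dl.val χ M).symm ((AddMonoidHom.mulLeft (χ g : ZMod p)).comp
    ((Dl.val χ M φ).comp (DistribSMul.toAddMonoidHom M g⁻¹)))
  one_smul φ := by
    refine AddMonoidHom.ext fun m => ?_
    change ((χ 1 : (ZMod p)ˣ) : ZMod p) * Dl.val χ M φ ((1 : G)⁻¹ • m) = Dl.val χ M φ m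
    rw [map_one, Units.val_one, one_mul, inv_one, one_smul]
  mul_smul g h φ := by
    refine AddMonoidHom.ext fun m => ?_
    change ((χ (g * h) : (ZMod p)ˣ) : ZMod p) * Dl.val χ M φ ((g * h)⁻¹ • m) =
      (χ g : ZMod p) * ((χ h : ZMod p) * Dl.val χ M φ (h⁻¹ • g⁻¹ • m))
    rw [map_mul, Units.val_mul, mul_assoc, mul_inv_rev, mul_smul]
  smul_zero g := by
    refine AddMonoidHom.ext fun m => ?_
    exact mul_zero (χ g : ZMod p)
  smul_add g φ ψ := by
    refine AddMonoidHom.ext fun m => ?_
    exact mul_add (χ g : ZMod p) _ _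

theorem Dl.val_smul (g : G) (φ : Dl χ M) (m : M) :
    Dl.val χ M (g • φ) m = (χ g : ZMod p) * Dl.val χ M φ (g⁻¹ • m) := rfl

omit [DistribMulAction G M] in
/-- the evaluation pairing -/
def ev : M →+ Dl χ M →+ Tw χ where
  toFun m :=
    { toFun := fun φ => (Tw.val χ).symm (Dl.val χ M φ m)
      map_zero' := rfl
      map_add' := fun _ _ => rfl }
  map_zero' := AddMonoidHom.ext fun φ => map_zero (Dl.val χ M φ)
  map_add' m m' := AddMonoidHom.ext fun φ => map_add (Dl.val χ M φ) m m'

omit [DistribMulAction G M] in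
theorem val_ev (m : M) (φ : Dl χ M) : Tw.val χ (ev χ M m φ) = Dl.val χ M φ m := rfl

end tw

/-- `ZMod p` with the trivial action of `G`. -/
abbrev Triv (G : Type) [Group G] (p : ℕ) : Type := Tw (1 : G →* (ZMod p)ˣ)

end Vale.Agent.P261Z.D
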