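import Vale.Agent.P261Z.D.Mc

/-!
# P261, block D with coefficients: the rows `HGL` and `HGH`
-/

set_option linter.all false

open Matrix

namespace Vale.Agent.P261Z.D

open Vale.Agent.P251.C _root_.P261.Ser _root_.P261.Ser.SA

namespace McH

variable {E P ι : Type} [CommRing E] [Group P] [Fintype ι] [DecidableEq ι]
  (φ : P → E →+* E) (ρ : P → Matrix ι ι E)

/-- twisted conjugation -/
def al (h1 : ∀ g, ρ g * (ρ g⁻¹).map (φ g) = 1) (g : P) : Matrix ι ι E →+* Matrix ι ι E where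
  toFun X := ρ g * X.map (φ g) * (ρ g⁻¹).map (φ g)
  map_one' := by rw [Matrix.map_one _ (map_zero _) (map_one _), mul_one, h1]
  map_mul' X Y := by
    have h2 : (ρ g⁻¹).map (φ g) * ρ g = 1 := mul_eq_one_comm.1 (h1 g)
    rw [Matrix.map_mul]
    calc ρ g * (X.map (φ g) * Y.map (φ g)) * (ρ g⁻¹).map (φ g)
        = ρ g * X.map (φ g) * ((ρ g⁻¹).map (φ g) * ρ g) * Y.map (φ g) * (ρ g⁻¹).map (φ g) := by
          rw [h2, mul_one]; simp only [mul_assoc]
      _ = _ := by simp only [mul_assoc]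
  map_zero' := by rw [Matrix.map_zero _ (map_zero _), mul_zero, zero_mul]
  map_add' X Y := by rw [Matrix.map_add _ (map_add _), mul_add, add_mul]

theorem al_apply (h1 : ∀ g, ρ g * (ρ g⁻¹).map (φ g) = 1) (g : P) (X : Matrix ι ι E) :
    al φ ρ h1 g X = ρ g * X.map (φ g) * (ρ g⁻¹).map (φ g) := rfl

end McH

open McH

theorem hgl : HGL := by
  intro E k P ι _ _ _ _ _ _ π φ ρ ε θ hπ hu hφ1 hφ hπφ hρ1 hρ hε hερ hθ
  have h1 : ∀ g, ρ g * (ρ g⁻¹).map (φ g) = 1 := fun g => by rw [← hρ, mul_inv_cancel, hρ1]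
  have hmm : ∀ g g' (X : Matrix ι ι E), X.map (φ (g * g')) = (X.map (φ g')).map (φ g) :=
    fun g g' X => Matrix.ext fun a b => hφ g g' _
  have hal : ∀ g g' X, al φ ρ h1 (g * g') X = al φ ρ h1 g (al φ ρ h1 g' X) := fun g g' X => by
    have e : (ρ (g * g')⁻¹).map (φ (g * g')) =
        ((ρ g'⁻¹).map (φ g')).map (φ g) * (ρ g⁻¹).map (φ g) := by
      rw [_root_.mul_inv_rev, hρ, Matrix.map_mul, ← hmm, ← hmm, mul_assoc, mul_inv_cancel, mul_one]
    simp only [al_apply]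
    rw [e, hρ, hmm, Matrix.map_mul, Matrix.map_mul]
    simp only [mul_assoc]
  have hae : ∀ g, al φ ρ h1 g ε = ε := fun g => by rw [al_apply, ← hερ, mul_assoc, h1, mul_one]
  obtain ⟨th, rfl⟩ : ∃ th : Matrix ι ι E, th.map π = θ := by
    choose s hs using hπ
    exact ⟨θ.map s, Matrix.ext fun a b => hs _⟩
  have hp : ∀ g (X : Matrix ι ι E), (X.map (φ g)).map π = X.map π :=
    fun g X => Matrix.ext fun a b => hπφ g _
  set N : Matrix ι ι E := ∑ g, al φ ρ h1 g (ε * th * ε) with hN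
  have hN1 : N = ε * (∑ g, al φ ρ h1 g th) * ε := by
    rw [hN, Finset.mul_sum, Finset.sum_mul]
    exact Finset.sum_congr rfl fun g _ => by rw [map_mul, map_mul, hae]
  have hN2 : ∀ g, al φ ρ h1 g N = N := fun g => by
    rw [hN, map_sum]
    simp only [← hal]
    exact Fintype.sum_equiv (Equiv.mulLeft g) _ _ fun _ => rfl
  have hN3 : π.mapMatrix N = π.mapMatrix ε := by
    have e : π.mapMatrix (∑ g, al φ ρ h1 g th) = π.mapMatrix ε := by
      rw [map_sum]
      refine Eq.trans (Finset.sum_congr rfl fun g _ => ?_) hθ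
      rw [al_apply, map_mul, map_mul]
      simp only [RingHom.mapMatrix_apply, hp]
    rw [hN1, map_mul, map_mul, e, ← map_mul, ← map_mul, hε, hε]
  set U : Matrix ι ι E := N + (1 - ε) with hU
  have hU1 : IsUnit U.det := hu _ (by
    rw [RingHom.map_det, hU, map_add, map_sub, map_one, hN3, add_sub_cancel, det_one]
    exact one_ne_zero)
  have hU2 : ∀ g, al φ ρ h1 g U = U := fun g => by rw [hU, map_add, map_sub, map_one, hN2, hae]
  have hU3 : ∀ g, al φ ρ h1 g U⁻¹ = U⁻¹ := fun g => by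
    refine (Matrix.inv_eq_left_inv ?_).symm
    conv_lhs => rw [← hU2 g, ← map_mul, hU2, Matrix.nonsing_inv_mul _ hU1, map_one]
  have hU4 : U * ε = N := by
    rw [hU, add_mul, sub_mul, one_mul, hε, sub_self, add_zero, hN1, mul_assoc, hε]
  refine ⟨U⁻¹ * (ε * th * ε), ?_⟩
  calc ∑ g, al φ ρ h1 g (U⁻¹ * (ε * th * ε)) = U⁻¹ * N := by
        rw [hN, Finset.mul_sum]
        exact Finset.sum_congr rfl fun g _ => by rw [map_mul, hU3]
    _ = ε := by rw [← hU4, ← mul_assoc, Matrix.nonsing_inv_mul _ hU1, one_mul]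

theorem hgh : HGH := by
  intro p G K _ _ _ c S ι _ _ ρ ε h I l P _ hP
  have := Fintype.ofFinite P
  obtain ⟨θ, hθ⟩ := h P hP
  refine ⟨Mw.mat ρ I l θ, fun m => ?_⟩
  have h1 : ∀ g : G, g • Mw.mat ρ I l θ (g⁻¹ • m) =
      Mw.mat ρ I l (ρ.ρ g * θ.map (S.φ g) * (ρ.ρ g⁻¹).map (S.φ g)) m := fun g => Mw.ext fun a => by
    simp only [Mw.mat_apply, Mw.smul_apply, Mw.g_sum, smul_inv_smul, mul_assoc, Mw.sum_mul,
      Matrix.map_apply]
  rw [finsum_eq_sum_of_fintype, ← hθ]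
  refine Mw.ext fun a => ?_
  simp only [h1, Mw.sum_apply, Mw.mat_apply, Matrix.sum_apply, Finset.sum_smul]
  exact Finset.sum_comm

end Vale.Agent.P261Z.D
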