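import Vale.Agent.P261Z.D.Mc

/-!
# P261, block D with coefficients: (BV) for triangular cocycles
-/

open MvPowerSeries Matrix

set_option linter.all false

namespace Vale.Agent.P261Z.D

open Vale.Agent.P251.C Vale.Agent.P261Z.Ev _root_.P261.Ser _root_.P261.Ser.SA

namespace Kmt

variable {G K : Type} [TopologicalSpace G] [Group G] [Field K] {c : ℕ} {S : SA G K c} {ι : Type}
  [Fintype ι] [DecidableEq ι] {ρ : MC S ι} {a₀ : ι} (h₀ : ∀ g b, b ≠ a₀ → ρ.ρ g a₀ b = 0)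

/-- the cocycle on the complement of an index -/
def sub : MC S {a // a ≠ a₀} where
  ρ g := (ρ.ρ g).submatrix Subtype.val Subtype.val
  one := by rw [ρ.one, submatrix_one _ Subtype.val_injective]
  mul g g' := by
    ext1 a b
    rw [submatrix_apply, ρ.mul, Matrix.mul_apply, Matrix.mul_apply,
      Fintype.sum_eq_add_sum_subtype_ne _ a₀, map_apply, h₀ _ _ b.2, map_zero, mul_zero, zero_add]
    rfl
  lc a b := ρ.lc a b

/-- extension by zero -/
noncomputable def inc (I : S.SI) (l : S.Coc) : Mw (sub h₀) I l →+[G] Mw ρ I l where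
  toFun x := ⟨fun a => if h : a = a₀ then 0 else x ⟨a, h⟩⟩
  map_zero' := Mw.ext fun a => by
    change dite _ _ _ = 0
    split_ifs <;> rfl
  map_add' x y := Mw.ext fun a => by
    change (if h : a = a₀ then 0 else (x + y) ⟨a, h⟩) =
      (if h : a = a₀ then 0 else x ⟨a, h⟩) + (if h : a = a₀ then 0 else y ⟨a, h⟩)
    split_ifs
    · exact (add_zero _).symm
    · rfl
  map_smul' g x := Mw.ext fun a => by
    change dite _ _ _ = ∑ b, ρ.ρ g a b • g • (if h : b = a₀ then 0 else x ⟨b, h⟩)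
    rw [Fintype.sum_eq_add_sum_subtype_ne _ a₀, dif_pos rfl, smul_zero, smul_zero, zero_add]
    split_ifs with h
    · subst h
      exact (Finset.sum_eq_zero fun b _ => by rw [h₀ _ _ b.2, zero_smul]).symm
    · exact Finset.sum_congr rfl fun b _ => by rw [dif_neg b.2]; rfl

variable {I I' : S.SI} {l l' l'' : S.Coc}

theorem inc_apply (x : Mw (sub h₀) I l) (a : ι) :
    inc h₀ I l x a = if h : a = a₀ then 0 else x ⟨a, h⟩ := rfl

theorem inc_inj : Function.Injective (inc h₀ I l) := fun x y h => Mw.ext fun a => by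
  have := congrArg (fun z : Mw ρ I l => z a.1) h
  simpa only [inc_apply, dif_neg a.2] using this

theorem lift_inc (u : S.Tw I l →ₗ[RR K c] S.Tw I' l') (x : Mw (sub h₀) I l) :
    Mw.lift ρ u (inc h₀ I l x) = inc h₀ I' l' (Mw.lift _ u x) := Mw.ext fun a => by
  rw [Mw.lift_apply, inc_apply, inc_apply]
  split_ifs
  · exact map_zero u
  · rfl

theorem one_mem (I : S.SI) : ∀ y ∈ I.1, 1 * y ∈ I.1 := fun y hy => by rwa [one_mul]

/-- the coordinate `a₀` -/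
noncomputable def quo (h₀ : ∀ g b, b ≠ a₀ → ρ.ρ g a₀ b = 0) (I : S.SI)
    (h : ∀ g, val l'' g = ρ.ρ g a₀ a₀ * val l g) : Mw ρ I l →+[G] S.Tw I l'' :=
  eqa ((SA.mul I I l l'' 1 (one_mem I)).toAddMonoidHom.comp (Mw.co ρ I l a₀))
    fun g x => by
      obtain ⟨y, rfl⟩ := Mw.exists_rep x
      change SA.mul I I l l'' 1 (one_mem I) (∑ b, ρ.ρ g a₀ b • g • cl I l (y b)) =
        g • SA.mul I I l l'' 1 (one_mem I) (cl I l (y a₀))
      rw [Finset.sum_eq_single a₀ (fun b _ hb => by rw [h₀ g b hb, zero_smul])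
        (fun h => absurd (Finset.mem_univ _) h), g_cl, smul_cl, mul_cl, mul_cl, g_cl, h, one_mul,
        one_mul, mul_assoc]

theorem quo_cl (h : ∀ g, val l'' g = ρ.ρ g a₀ a₀ * val l g) {x : Mw ρ I l} {y : RR K c}
    (e : x a₀ = cl I l y) : quo h₀ I h x = cl I l'' y := by
  change SA.mul I I l l'' 1 (one_mem I) (x a₀) = _
  rw [e, mul_cl, one_mul]

theorem quo_surj (h : ∀ g, val l'' g = ρ.ρ g a₀ a₀ * val l g) :
    Function.Surjective (quo h₀ I h) := fun z => by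
  obtain ⟨y, rfl⟩ := cl_surj _ _ z
  exact ⟨⟨fun _ => cl I l y⟩, quo_cl h₀ h rfl⟩

theorem quo_ker (h : ∀ g, val l'' g = ρ.ρ g a₀ a₀ * val l g) (x : Mw ρ I l)
    (hx : quo h₀ I h x = 0) : ∃ z, inc h₀ I l z = x := by
  obtain ⟨y, e⟩ := cl_surj I l (x a₀)
  rw [quo_cl h₀ h e.symm, cl_eq_zero, ← cl_eq_zero I l, e] at hx
  refine ⟨⟨fun a => x a.1⟩, Mw.ext fun a => ?_⟩
  rw [inc_apply]
  split_ifs with h1
  · rw [h1, hx]
  · rfl

variable {p : ℕ} [hp : Fact p.Prime] [CharP K p]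

theorem tr_tr' {k k' k'' : ℕ} (h : k ≤ k') (h' : k' ≤ k'') (x y : RR K c) (z : S.T p k l) :
    S.tr c h' y l' l'' (S.tr c h x l l' z) = S.tr c (h.trans h') (x * y) l l'' z := by
  obtain ⟨z, rfl⟩ := cl_surj _ _ z
  have h1 := Nat.pow_le_pow_right hp.out.pos h
  have h2 := Nat.pow_le_pow_right hp.out.pos h'
  rw [tr_cl, tr_cl, tr_cl, show p ^ k'' - p ^ k = p ^ k'' - p ^ k' + (p ^ k' - p ^ k) by omega,
    pow_add]
  exact congrArg _ (by ring)

theorem step [IsTopologicalGroup G] {v : RR K c} {β : S.Coc} (hv : ∀ g, S.φ g v = val β g * v)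
    {d m : S.Coc} (hd : ∀ g, ρ.ρ g a₀ a₀ = val d g) {s A A' : ℕ}
    (h1 : S.Kill p s (v ^ A) (m * d) (m * d * (β ^ A)⁻¹))
    (h2 : KM p (sub h₀) s (v ^ A') (m * (β ^ A)⁻¹) (m * (β ^ A)⁻¹ * (β ^ A')⁻¹)) :
    KM p ρ s (v ^ A * v ^ A') m (m * (β ^ A)⁻¹ * (β ^ A')⁻¹) := by
  intro e Z hZ
  have hq : ∀ g, val (m * d * (S.B c ^ p ^ e)⁻¹) g =
      ρ.ρ g a₀ a₀ * val (m * (S.B c ^ p ^ e)⁻¹) g := fun g => by
    simp only [hd, val_mul]
    ring
  have hZ' := ZZ.map hZ (quo h₀ _ hq)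
  obtain ⟨e₁, he₁, h3⟩ := h1 e _ hZ'.1 hZ'.2
  have hq₁ : ∀ g, val (m * d * (β ^ A)⁻¹ * (S.B c ^ p ^ e₁)⁻¹) g =
      ρ.ρ g a₀ a₀ * val (m * (β ^ A)⁻¹ * (S.B c ^ p ^ e₁)⁻¹) g := fun g => by
    simp only [hd, val_mul]
    ring
  have t : ∀ (n : ℕ) (l : S.Coc) {k k' : ℕ} (h : k ≤ k') (g : G) (a : S.Hi p c k l),
      S.tr c h (v ^ n) _ (l * (β ^ n)⁻¹ * (S.B c ^ p ^ k')⁻¹) (g • a) =
        g • S.tr c h (v ^ n) _ _ a := fun n l k k' h =>
    S.tr_equi c h fun g => by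
      rw [S.semi_pow hv n l g]
      exact zero_mem _
  obtain ⟨Z', hZ'', h4⟩ := exact_mid (inc h₀ _ _) (quo h₀ _ hq₁) (inc_inj h₀) (quo_surj h₀ hq₁)
    (quo_ker h₀ hq₁) (ZZ.map hZ (Mw.map ρ _ (t A m he₁))) (by
      convert cb_iff.1 h3 using 1
      funext x
      obtain ⟨y, e⟩ := cl_surj _ _ (Z x a₀)
      change quo h₀ _ hq₁ (Mw.lift ρ _ (Z x)) = S.tr c he₁ _ _ _ (quo h₀ _ hq (Z x))
      rw [quo_cl h₀ hq e.symm, tr_cl]
      exact quo_cl h₀ hq₁ (by rw [Mw.lift_apply, ← e, tr_cl]))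
  obtain ⟨e₂, he₂, h5⟩ := h2 e₁ Z' hZ''
  refine ⟨e₂, he₁.trans he₂, ?_⟩
  have h6 := add_mem (BB.map h4 (Mw.map ρ _ (t A' _ he₂))) (BB.map h5 (inc h₀ _ _))
  convert h6 using 1
  funext x
  simp only [Pi.add_apply, Pi.sub_apply, Function.comp_apply, Mw.map_eq, map_sub, lift_inc,
    sub_add_cancel]
  exact Mw.ext fun a => (tr_tr' he₁ he₂ _ _ _).symm

end Kmt

open Kmt in
theorem kmt : KMT := by
  intro p _ G K _ _ _ _ _ c S L v β hβ hv
  suffices ∀ (n : ℕ) (ι : Type) [Fintype ι] [DecidableEq ι], Fintype.card ι = n →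
      ∀ ρ : MC S ι, Tri ρ L → ∀ m : S.Coc, (∀ d ∈ L, S.BV p v β (m * d)) → BVM p ρ v β m from
    fun ι _ _ => this _ ι rfl
  intro n
  induction n using Nat.strong_induction_on with
  | _ n ih =>
    rintro ι _ _ rfl ρ ⟨deg, d, hd, hρ, h0⟩ m hm s
    cases isEmpty_or_nonempty ι with
    | inl h =>
      refine ⟨0, fun e F _ => ⟨e, le_rfl, ?_⟩⟩
      convert AddSubgroup.zero_mem _ using 1
      exact funext fun x => Mw.ext fun a => isEmptyElim a
    | inr h =>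
      obtain ⟨a₀, ha⟩ := Finite.exists_min deg
      have h₀ : ∀ g b, b ≠ a₀ → ρ.ρ g a₀ b = 0 := fun g b hb => h0 g a₀ b hb.symm (ha b)
      obtain ⟨A, h1⟩ := hm _ (hd a₀) s
      obtain ⟨A', h2⟩ := ih _ (Fintype.card_subtype_lt (x := a₀) fun h => h rfl) {a // a ≠ a₀} rfl
        (sub h₀) ⟨fun a => deg a.1, fun a => d a.1, fun a => hd _, fun g a => hρ g _,
          fun g a b hab => h0 g _ _ fun e => hab (Subtype.ext e)⟩ (m * (β ^ A)⁻¹)
        (fun d' hd' => by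
          rw [mul_assoc]
          exact hm _ (mul_mem (inv_mem (pow_mem hβ A)) hd')) s
      refine ⟨A + A', ?_⟩
      rw [pow_add, pow_add, mul_inv, ← mul_assoc]
      exact Kmt.step h₀ hv (fun g => hρ g a₀) h1 h2

end Vale.Agent.P261Z.D
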