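import Vale.Agent.P261Z.D.Mc

/-!
# P261, block D: the tower step for summands
-/

namespace Vale.Agent.P261Z.D

open Vale.Agent.P251 Vale.Agent.P251.C

namespace StE

variable {G : Type} [Group G] {M M' D D' : Type} [AddCommGroup M] [DistribMulAction G M]
  [AddCommGroup M'] [DistribMulAction G M'] [AddCommGroup D] [DistribMulAction G D]
  [AddCommGroup D'] [DistribMulAction G D']

/-- the difference with the identity -/
def dif (ε : M →+[G] M) : M →+[G] M :=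
  eqa ((ε : M →+ M) - AddMonoidHom.id M) fun g x => by
    change ε (g • x) - g • x = g • (ε x - x)
    rw [map_smul, smul_sub]

/-- the projection to the summand -/
def prj {ε : M →+[G] M} (h : ∀ x, ε (ε x) = ε x) : M →+[G] Ker (dif ε) where
  toFun x := (⟨ε x, sub_eq_zero.2 (h x)⟩ : (dif ε : M →+ M).ker)
  map_smul' g x := Ker.inc_injective _ (map_smul ε g x)
  map_zero' := Ker.inc_injective _ (map_zero ε)
  map_add' x y := Ker.inc_injective _ (map_add ε x y)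

theorem cl {p : ℕ} {ε : M →+[G] M} (h : ∀ x, ε (ε x) = ε x) (hH : T3.Hig p G ε) :
    T3.Cl p G (Ker (dif ε)) := fun P _ hP => by
  obtain ⟨θ, hθ⟩ := hH P inferInstance hP
  refine ⟨(prj h : M →+ _).comp (θ.comp (Ker.inc (dif ε) : _ →+ M)), fun m => ?_⟩
  have k := congrArg (prj h) (hθ (Ker.inc _ m))
  rw [finsum_eq_sum_of_fintype, map_sum] at k
  simp only [map_smul] at k
  exact k.trans (Ker.inc_injective _ ((h _).trans (sub_eq_zero.1 (Ker.map_inc _ m))))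

theorem top [TopologicalSpace G] [IsTopologicalGroup G] {p d : ℕ} {χ : G →* (ZMod p)ˣ}
    (hPD : T3.PDMc d χ) [DiscMod G M] [Finite M] [DiscMod G M'] [Finite M']
    (hM : ∀ m : M, p • m = 0) {ε : M →+[G] M} {ε' : M' →+[G] M'} (h : ∀ x, ε (ε x) = ε x)
    (h' : ∀ x, ε' (ε' x) = ε' x) (hH : T3.Hig p G ε) (hH' : T3.Hig p G ε')
    (β : M →+ D →+ ZMod p) (β' : M' →+ D' →+ ZMod p)
    (hβ : ∀ (g : G) m y, β (g • m) (g • y) = (χ g : ZMod p) * β m y)
    (hβ' : ∀ (g : G) m y, β' (g • m) (g • y) = (χ g : ZMod p) * β' m y)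
    (hb : Function.Bijective β.flip) (u : M' →+[G] M) (w : D →+[G] D')
    (e : ∀ m y, β' m (w y) = β (u m) y) (hu : ∀ x, u (ε' x) = ε (u x)) {s b : ℕ} (hs : s + b = d)
    (hw : HZ G b w) : HZ G s (ε.comp u) := by
  let E := AddEquiv.ofBijective β.flip hb
  have hE : ∀ φ m, β m (E.symm φ) = φ m := fun φ m =>
    DFunLike.congr_fun (E.apply_symm_apply φ) m
  let j : Dl χ M →+[G] D := eqa (E.symm.toAddMonoidHom.comp (Dl.val χ M).toAddMonoidHom)
    fun g φ => hb.1 (AddMonoidHom.ext fun m => (hE _ m).trans (by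
      change _ = β m (g • E.symm (Dl.val χ M φ))
      rw [← smul_inv_smul g m, hβ, hE, smul_inv_smul]
      rfl))
  have key := hPD _ _ _ D' (Ker.nsmul_eq_zero _ hM) (cl h hH) (cl h' hH')
    (Dl.val χ (Ker (dif ε))).toAddMonoidHom.flip (β'.comp (Ker.inc (dif ε') : _ →+ M'))
    (fun g m φ => congrArg (fun x => (χ g : ZMod p) * Dl.val χ _ φ x) (inv_smul_smul g m))
    (fun g m y => hβ' g _ y) (Dl.val χ _).bijective
    ((prj h).comp (u.comp (Ker.inc _))) (w.comp (j.comp (NdH.dl χ (prj h))))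
    (fun m φ => (e _ _).trans (hE _ _)) s b hs (hw.comp_right (j.comp (NdH.dl χ (prj h))))
  intro F hF
  convert BB.map (key _ (ZZ.map hF (prj h'))) (Ker.inc _) using 1
  funext x
  change ε (u (F x)) = ε (u (ε' (F x)))
  rw [hu, h]

end StE

theorem stepe : STEPE := by
  intro p d _ G _ _ _ χ hPD hF M M' D _ _ _ _ _ _ _ _ _ _ hM hD r r' π v V ι W β ε ε' rr πr vr πs πk
    vi V0 Vs ιι βs βb βa εε εH rε Vε πε s b hsb ⟨A, hA⟩ hP
  have key := Step.down (P := fun i => ∃ n, ∀ k, ∃ k', ∃ h : k ≤ k',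
    Bd G s ((ε 0 k).comp ((V i k).comp (r i h))) n) ?_ A ⟨1, fun k => ?_⟩
  · obtain ⟨n, hn⟩ := key
    refine ⟨n, fun k => ?_⟩
    obtain ⟨k', h, h1⟩ := hn k
    refine ⟨k', h, ?_⟩
    rwa [show ⇑((ε 0 k).comp ((V 0 k).comp (r 0 h))) = fun x => ε 0 k (r 0 h x) from
      funext fun x => congrArg (ε 0 k) (V0 k _)] at h1
  · rintro i ⟨n₁, h₁⟩
    obtain ⟨n₂, h₂⟩ := hP i
    refine ⟨n₂ * n₁, fun k => ?_⟩
    obtain ⟨k₀, e₀, S, hS, hS'⟩ := h₁ k
    obtain ⟨k₂, e₂, hB⟩ := h₂ (k₀ + 1)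
    have e₁ : k ≤ k₀ + 1 := e₀.trans (Nat.le_succ k₀)
    refine ⟨k₂, e₁.trans e₂, Bd.of_ker ((ε' i _).comp ((r' i e₂).comp (π i k₂))) _
      (hB.comp_right (π i k₂)) S hS fun F hF0 h0 => ?_⟩
    obtain ⟨X, hX, Y, h1, h2⟩ := Step.mid (v i (k₀ + 1)) (π i (k₀ + 1))
      (r (i + 1) (Nat.le_succ k₀)) (vi i k₀) (πs i _) (πk i _)
      (ZZ.map hF0 ((ε i _).comp (r i e₂)))
      (by
        convert h0 using 1
        exact funext fun x => (πε i _ _).trans (congrArg (ε' i _) (πr i _ _ e₂ _)))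
    obtain ⟨z, hz, h3⟩ := hS' _ h2
    refine ⟨z, hz, ?_⟩
    convert add_mem h3 (BB.map hX ((ε 0 k).comp ((V i k).comp (r i e₁)))) using 1
    funext x
    have h4 : v i (k₀ + 1) (Y x) = ε i _ (r i e₂ (F x)) - X x := congrFun h1 x
    change ε 0 k (V i k (r i _ (F x))) - z x =
      ε 0 k (V (i + 1) k (r (i + 1) e₀ (r (i + 1) _ (Y x)))) - z x + ε 0 k (V i k (r i e₁ (X x)))
    rw [rr, Vs, vr, h4, map_sub, map_sub, map_sub, rε, rr, Vε, εε]
    abel
  · obtain ⟨n, hn⟩ := hF (D 0 k) (hD 0 k) b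
    obtain ⟨S, -, h1, h2⟩ := hn.reps
    choose! c hc hc' using hA k
    have e : k ≤ max k (S.sup c) := le_max_left _ _
    refine ⟨_, e, HZ.bd (StE.top hPD (hM 0 k) (εε 0 k) (εε A _) (εH 0 k) (εH A _) (β 0 k) (β A _)
      (βs 0 k) (βs A _) (βb k) ((V A k).comp (r A e)) ((ι A e).comp (W A k)) (βa A k _ e)
      (fun x => (congrArg (V A k) (rε A _ _ e x)).trans (Vε A k _)) hsb fun Z hZ => ?_)⟩
    obtain ⟨z, hz, h3⟩ := h2 Z hZ
    have e' : c z ≤ max k (S.sup c) := (Finset.le_sup hz).trans (le_max_right _ _)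
    convert add_mem (BB.map h3 ((ι A e).comp (W A k))) (BB.map (hc' z (h1 z hz)) (ι A e'))
      using 1
    funext x
    change ι A e (W A k (Z x)) = ι A e (W A k (Z x - z x)) + ι A e' (ι A _ (W A k (z x)))
    rw [ιι, map_sub, map_sub, sub_add_cancel]

end Vale.Agent.P261Z.D
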