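import Vale.Agent.P261Z.D.Rho
import Vale.Agent.P261Z.D.StepE
import Vale.Agent.P261Z.D.McK
import Vale.Agent.P261Z.D.McH
import Vale.Agent.P261Z.D.Chi
import Vale.Agent.P261Z.X.Mod
import Vale.Agent.P261Z.Top.Spec

/-!
# P261, block D with coefficients: finiteness for the summands of `E_j[y_b] / (y_b ^ M) ω ^ w`
-/

open MvPowerSeries Matrix

set_option linter.unusedSectionVars false

namespace Vale.Agent.P261Z.D

open Vale.Agent.P251 Vale.Agent.P251.C Vale.Agent.P251.F Vale.Agent.P261Z.Ev _root_.P261.Ser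
  _root_.P261.Ser.SA Vale.Agent.P261Z.X Vale.Agent.P261Z.JM Vale.Agent.P261Z.T3.Nm

variable {p : ℕ} [hp : Fact p.Prime] {n : ℕ} {k : Type} [Field k] [CharP k p] {D : LTD p n k}
  {ι : Type} [Fintype ι] [DecidableEq ι] {M : ℕ} {e : MonoidAlgebra ℤ (Equiv.Perm ι)} {μ : ℤ}

theorem mA_map {h c : ℕ} {G K E : Type} [Group G] [TopologicalSpace G] [Field K] [CharP K p]
    [CommRing E] (A : N.RG p h c G K) (hh : 1 ≤ h) (f : RR K c →+* E) (g : G) {u : InvSeries E}
    (hu : ∀ i, f ((A.ser g).c i) = u.c i) :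
    (((mA A hh M).tens ι).ρ g).map f = tpi fun _ => Sm M u⁻¹.val := by
  rw [← show InvSeries.map f (A.ser g) = u from
    InvSeries.ext_c fun i => (InvSeries.c_map _ _ _).trans (hu i), ← map_inv, ← sm_map]
  exact tpi_map f _

theorem hg_mA (hM : T3.bnd D ≤ M) (he : IsIdem p M e μ) {h c : ℕ} (hh : 1 ≤ h)
    {A : N.RG p h c D.GG k} (hA : N.IsT D (RingHom.id k) A) :
    Hg p ((mA A hh M).tens ι) (emat (RR k c) (Fin M) e) := by
  refine hg_tens _ (fun a b hb => he.kill _ a b (by rwa [Fintype.card_fin] at hb)) fun P _ hP => ?_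
  obtain ⟨i, j, h1⟩ := T3.exists_ne D hM P hP
  refine ⟨i, j, isUnit_iff_constantCoeff.2 (IsUnit.mk0 _ ?_)⟩
  convert h1 using 1
  rw [map_sum, map_sum]
  refine Finset.sum_congr rfl fun g _ => ?_
  have h2 : InvSeries.map (constantCoeff : RR k c →+* k) (A.ser g)⁻¹ = ((g : D.GG)⁻¹).toInv := by
    rw [map_inv, AutF.toInv_inv]
    exact congrArg _ (InvSeries.ext_c fun i => (InvSeries.c_map _ _ _).trans (hA g i))
  exact (congrFun (congrFun (sm_map (constantCoeff : RR k c →+* k) (A.ser g)⁻¹) i) j).trans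
    (by rw [h2]; rfl)

theorem indX (hD : N.IsHz p D) (hB : BVL D) {d : ℕ} {χ : D.GG →* (ZMod p)ˣ}
    (hPD : T3.PDMc d χ) (hF : FinG D.GG p) {i : ℕ}
    (hχ : ∀ g, ZMod.castHom (dvd_refl p) k (χ g) = g.cf 1 ^ (i * ((p ^ n - 1) / (p - 1))))
    (hM : T3.bnd D ≤ M) (he : IsIdem p M e μ) (hμ : (p : ℤ) ∣ μ - 1)
    {s : ℕ} (hs : s ≤ d) (c : ℕ) : ∀ (h : ℕ) (hh : 1 ≤ h), h + c = n →
      ∀ A : N.RG p h c D.GG k, N.IsT D (RingHom.id k) A → ∀ w : ℤ,
        PFM p ((mA A hh M).tens ι) (emat (RR k c) (Fin M) e) s (tc A hh ^ w) := by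
  have := D.finite
  induction c with
  | zero => exact fun h hh _ A _ w => pfm_zero hF (emat_tens _ e) s _
  | succ c ih =>
    intro h hh e1 A hA w
    have hh' : 1 ≤ h + 1 := by omega
    obtain ⟨A', hA'⟩ := N.All.rgex p n k D hD (h + 1) c hh' (by omega) k (RingHom.id k)
    have h1 : ∀ g, val (ccoc _ (tc A hh) ^ (i * ((p ^ n - 1) / (p - 1)))) g =
        C (g.cf 1 ^ (i * ((p ^ n - 1) / (p - 1)))) := fun g => by
      rw [val_pow, val_ccoc, map_pow]
      exact congrArg (fun z => C z ^ _) (hA g 0)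
    refine mcs stepe hgh p d D.GG k χ hPD hF c (sa A hh) (sa A' hh')
      (fun g => (kf_chg hD hh e1 hA hA' g).1) _ _ ((mD A hh M).tens ι) ((mA A' hh' M).tens ι) _ _
      (fun g => mA_map A hh (kf k c : RR k (c + 1) →+* RR k c) g (kf_chg hD hh e1 hA hA' g).2)
      (mD_mul A hh M ι) (emat_map (kf k c : RR k (c + 1) →+* RR k c) e)
      (emat_sq (p_RR p) he.sq hμ) (emat_tens _ e) (hg_mA hM he hh hA) _
      (fun j => tc A' hh' ^ (w + ((p ^ (h + 0) - 1) * j : ℕ))) (fun j g => ?_)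
      ((tc A hh ^ w)⁻¹ * ((sa A hh).J * ccoc _ (tc A hh) ^ (i * ((p ^ n - 1) / (p - 1))))) _
      (fun g => (h1 g).trans (congrArg C (hχ g).symm)) (mul_inv_cancel_left _ _)
      (kmt p D.GG k (c + 1) (sa A hh) (Subgroup.zpowers (tc A hh)) (X 0) ((sa A hh).bc 0)
        (Subgroup.npow_mem_zpowers (tc A hh) (p ^ (h + 0) - 1)) (phi_X0 _) _ _
        (tri_mD A hh M ι) _ ?_) s hs fun j => ih (h + 1) hh' (by omega) A' hA' _
    · rw [sa_bc, ← pow_mul, ← zpow_natCast, ← _root_.zpow_add, Fin.val_zero, val_zpow]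
      exact map_val_zpow (l := tc A hh) (u := (tc A' hh').1 g) (kf k c : RR k (c + 1) →+* RR k c)
        ((kf_chg hD hh e1 hA hA' g).2 0) _
    · rintro _ ⟨z, rfl⟩
      refine hB h (c + 1) hh c.succ_pos e1 A hA _ ⟨-w + z, 1, i, fun g => ?_⟩
      rw [mul_right_comm, ← _root_.zpow_neg, ← _root_.zpow_add, val_mul, val_mul, h1, val_zpow,
        zpow_one, Units.val_mul, mul_assoc]
      rfl

/-- comparison with the modules `VX` -/
theorem pf_VX (hD : N.IsHz p D) {c : ℕ} (e1 : 1 + c = n) {A : N.RG p 1 c D.GG k}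
    (hA : N.IsT D (RingHom.id k) A) {s : ℕ} {w : ℤ}
    (h : PFM p ((mA A le_rfl M).tens ι) (emat (RR k c) (Fin M) e) s (tc A le_rfl ^ w)) :
    PF D.GG s (fun j => VX D j ι M w) fun {j _} hj x => epsV D j M e w (redV D ι M w hj x) := by
  obtain ⟨σ, h1, h2, h3, h4, h5⟩ := exists_sigma hD e1 hA
  obtain ⟨τ, hτ⟩ : ∃ τ : ∀ j, ((ι → Fin M) → RR k c) →+ VX D j ι M w,
      ∀ j x b, cf b ((twX D j ι M).val w (τ j x)) = σ j (x b) :=
    ⟨fun j => AddMonoidHom.mk' (fun x => (twX D j ι M).of w (un fun a => σ j (x a)))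
      fun x y => (congrArg un (funext fun a => map_add (σ j) (x a) (y a))).trans (map_add un _ _),
      fun j x b => cf_sum b _⟩
  have ext : ∀ j (x y : VX D j ι M w), (∀ b, cf b ((twX D j ι M).val w x) =
      cf b ((twX D j ι M).val w y)) → x = y := fun j x y h =>
    ((twX D j ι M).val w).injective (cf_ext h)
  refine pf_of_tau (fun j => epsV D j M e w) (fun hj => redV D ι M w hj) τ (fun j y => ?_)
    (fun j x => ?_) (fun j g x => ext _ _ _ fun b => ?_) (fun j x => ext _ _ _ fun b => ?_)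
    (fun j j' hj x => ext _ _ _ fun b => ?_) h
  · choose x hx using fun b => h1 j (cf b ((twX D j ι M).val w y))
    exact ⟨x, ext _ _ _ fun b => (hτ j x b).trans (hx b)⟩
  · refine ⟨fun h a => (h2 j _).1 ?_, fun h => ext _ _ _ fun b => ?_⟩
    · rw [← hτ, h, map_zero, map_zero]
    · rw [hτ, map_zero, map_zero, (h2 j _).2 (h b)]
  · rw [hτ, cf_smul_VX, map_sum, Finset.mul_sum]
    refine Finset.sum_congr rfl fun a _ => ?_
    rw [map_mul, map_mul, map_val_zpow _ ((h4 j g 0).trans (tw_a D j g).symm), hτ, mul_left_comm]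
    exact congrArg _ (congrArg₂ _
      (congrFun (congrFun (mA_map A le_rfl (σ j) g (h4 j g)) b) a) (h3 j g (x a)))
  · rw [hτ, cf_epsV, map_sum]
    exact Finset.sum_congr rfl fun a _ => by rw [map_mul, emat_apply, map_intCast, hτ, zsmul_eq_mul]
  · rw [cf_redV, hτ, hτ, h5]

omit [CharP k p] in
theorem finX (hA : P261.Top.StA p) (hD : N.IsHz p D) (hn : 1 ≤ n)
    (hM : T3.bnd D ≤ M) (he : IsIdem p M e μ) (hμ : (p : ℤ) ∣ μ - 1) : FinX D M e := by
  intro w s
  have := D.charP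
  have := D.finite
  let V := T3.virtUnifS D.honda D.card hn
  have hV := T3.virtUnifS_unifS D.honda D.card hn
  obtain ⟨hF, χ, h1, hPD⟩ := T3.pdallc V hV
  obtain ⟨i, hi⟩ := chi_norm D.honda D.card hn χ fun g hg =>
    h1 g (D.honda.mem_congr_iff.2 (D.honda.mem_prin_iff.1 hg))
  have e1 : 1 + (n - 1) = n := by omega
  obtain ⟨A, hT⟩ := N.All.rgex p n k D hD 1 (n - 1) le_rfl e1 k (RingHom.id k)
  refine T1.proBd_of_PF (fun _ _ h x y => by rw [map_sub, map_sub]) (pf_VX hD e1 hT ?_)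
  rcases le_or_gt s (n * n) with hs | hs
  · exact indX hD (fun h c hh hc e A hT => hA n h c k k D hD _ hh hc e A hT) hPD hF hi hM he hμ
      hs _ 1 le_rfl e1 A hT w
  · exact pfm_of_hz fun l => hz_eps V hV (Mw.nsmul_eq_zero p) (Mw.eps _ _ (emat_tens _ e))
      (fun x => by rw [Mw.eps_eq, Mw.eps_eq, ← Mw.mat_mul, emat_sq (p_RR p) he.sq hμ])
      (hgh p _ _ _ _ _ _ _ (hg_mA hM he le_rfl hT) _ _) hs

end Vale.Agent.P261Z.D
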