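import Vale.Agent.P261Z.D.Sk
import Vale.Agent.P261Z.D.Basic

/-!
# P261, block D: from an open normal subgroup to the whole group
-/

set_option linter.all false

namespace Vale.Agent.P261Z.D

open Vale.Agent.P251 Vale.Agent.P251.C

namespace Glb

theorem reps {α β : Type} [Nonempty α] (P : α → Prop) (R : α → β → Prop) (S : Finset β)
    (h : ∀ a, P a → ∃ z ∈ S, R a z) :
    ∃ T : Finset α, T.card ≤ S.card ∧ ∀ a, P a → ∃ t ∈ T, P t ∧ ∃ z, R a z ∧ R t z := by
  classical
  refine ⟨S.image fun z => Classical.epsilon fun a => P a ∧ R a z, Finset.card_image_le,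
    fun a ha => ?_⟩
  obtain ⟨z, hz, hr⟩ := h a ha
  have h1 := Classical.epsilon_spec (p := fun a => P a ∧ R a z) ⟨a, ha, hr⟩
  exact ⟨_, Finset.mem_image_of_mem _ hz, h1.1, z, hr, h1.2⟩

section res

variable {G : Type} [Group G] {P : Subgroup G} {B B₀ : Type} [AddCommGroup B] [AddCommGroup B₀]
  {s : ℕ}

/-- restriction of cochains -/
def res (P : Subgroup G) (ε : B →+ B₀) (s : ℕ) :
    ((Fin (s + 1) → G) → B) →+ ((Fin (s + 1) → P) → B₀) where
  toFun F := fun x => ε (F fun i => (x i : G))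
  map_zero' := funext fun _ => map_zero ε
  map_add' F F' := funext fun _ => map_add ε _ _

variable [TopologicalSpace G] [DistribMulAction G B] [DistribMulAction P B₀]

theorem res_mem (ε : B →+ B₀) (hε : ∀ (q : P) b, ε ((q : G) • b) = q • ε b)
    {F : (Fin (s + 1) → G) → B} (hF : F ∈ ZZ G B s) : res P ε s F ∈ ZZ P B₀ s := by
  refine ⟨⟨?_, fun q x => ?_⟩, ?_⟩
  · exact (hF.1.lc.comp_continuous (continuous_pi fun i =>
      continuous_subtype_val.comp (continuous_apply i))).comp ε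
  · change ε (F fun i => (q : G) * (x i : G)) = q • ε (F fun i => (x i : G))
    rw [hF.1.equi, hε]
  · funext x
    have h1 := congrFun (dd_map ε fun y : Fin (s + 1) → P => F (Subtype.val ∘ y)) x
    rw [dd_comp, hF.2] at h1
    exact h1.trans (map_zero ε)

end res

section ind

variable {G : Type} [Group G] (U V : Subgroup G)

/-- the inclusion of the cosets -/
def iota : U ⧸ V.subgroupOf U → G ⧸ V :=
  Quotient.map' Subtype.val fun a b h => by
    rw [QuotientGroup.leftRel_apply] at h ⊢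
    exact h

variable {U V}

theorem iota_mk (u : U) : iota U V (QuotientGroup.mk u) = QuotientGroup.mk (u : G) := rfl

theorem iota_inj : Function.Injective (iota U V) := by
  intro a b h
  obtain ⟨a, rfl⟩ := QuotientGroup.mk_surjective a
  obtain ⟨b, rfl⟩ := QuotientGroup.mk_surjective b
  rw [iota_mk, iota_mk, QuotientGroup.eq] at h
  exact QuotientGroup.eq.2 h

variable {M M₀ : Type} [AddCommGroup M] [AddCommGroup M₀]

variable (U V) in
/-- restriction of functions -/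
def eps (e : M ≃+ M₀) : Fn (G ⧸ V) M →+ Fn (U ⧸ V.subgroupOf U) M₀ where
  toFun f := Fn.mk fun y => e (f (iota U V y))
  map_zero' := Fn.ext fun _ => map_zero e
  map_add' f f' := Fn.ext fun _ => map_add e _ _

theorem eps_apply (e : M ≃+ M₀) (f : Fn (G ⧸ V) M) (y : U ⧸ V.subgroupOf U) :
    eps U V e f y = e (f (iota U V y)) := rfl

variable [DistribMulAction G M] [DistribMulAction U M₀] {e : M ≃+ M₀}

theorem eps_smul_mk (γ : G) (f : Fn (G ⧸ V) M) (u : U) :
    eps U V e (γ • f) (QuotientGroup.mk u) = e (γ • f (QuotientGroup.mk (γ⁻¹ * u))) := rfl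

theorem eps_smul (he : ∀ (q : U) m, e ((q : G) • m) = q • e m) (q : U) (f : Fn (G ⧸ V) M) :
    eps U V e ((q : G) • f) = q • eps U V e f := Fn.ext fun y => by
  obtain ⟨u, rfl⟩ := QuotientGroup.mk_surjective y
  rw [eps_smul_mk, he]
  rfl

theorem eps_inj (f : Fn (G ⧸ V) M) (h : ∀ γ : G, eps U V e (γ • f) = 0) : f = 0 :=
  Fn.ext fun c => by
    obtain ⟨g, rfl⟩ := QuotientGroup.mk_surjective c
    have h1 : eps U V e (g⁻¹ • f) (QuotientGroup.mk 1) = 0 := by rw [h]; rfl
    rw [eps_smul_mk, inv_inv, OneMemClass.coe_one, mul_one, EmbeddingLike.map_eq_zero_iff,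
      smul_eq_zero_iff_eq] at h1
    exact h1

theorem eps_surj (hV : V ≤ U) (he : ∀ (q : U) m, e ((q : G) • m) = q • e m)
    (φ : G → Fn (U ⧸ V.subgroupOf U) M₀) (hφ : ∀ (q : U) (γ : G), φ (q * γ) = q • φ γ) :
    ∃ f, ∀ γ : G, eps U V e (γ • f) = φ γ := by
  have he' : ∀ (q : U) m, (q : G) • e.symm m = e.symm (q • m) := fun q m =>
    e.injective (by rw [he, e.apply_symm_apply, e.apply_symm_apply])
  have key : ∀ (q : U) (γ : G), (q : G) • e.symm (φ ((q : G)⁻¹ * γ) (QuotientGroup.mk 1)) =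
      e.symm (φ γ (QuotientGroup.mk q)) := fun q γ => by
    have h1 := hφ q⁻¹ γ
    rw [InvMemClass.coe_inv] at h1
    rw [he', h1, Fn.smul_apply, smul_inv_smul, inv_inv]
    congr 2
    change QuotientGroup.mk (q * 1) = _
    rw [mul_one]
  refine ⟨Fn.mk fun c => Quotient.liftOn' c
    (fun g => g • e.symm (φ g⁻¹ (QuotientGroup.mk 1))) fun a b h => ?_, fun γ => Fn.ext fun y => ?_⟩
  · rw [QuotientGroup.leftRel_apply] at h
    have h1 := key ⟨a⁻¹ * b, hV h⟩ a⁻¹
    have h2 : (QuotientGroup.mk (⟨a⁻¹ * b, hV h⟩ : U) : U ⧸ V.subgroupOf U) =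
        QuotientGroup.mk 1 := by
      rw [eq_comm, QuotientGroup.eq, inv_one, one_mul]
      exact h
    rw [h2] at h1
    rw [← h1, smul_smul]
    congr 2
    · simp
    · simp
  · obtain ⟨u, rfl⟩ := QuotientGroup.mk_surjective y
    rw [eps_smul_mk]
    change e (γ • (γ⁻¹ * u) • e.symm (φ (γ⁻¹ * u)⁻¹ (QuotientGroup.mk 1))) = _
    rw [smul_smul, mul_inv_cancel_left, mul_inv_rev, inv_inv, key, e.apply_symm_apply]

theorem eps_push {V' : Subgroup G} (h : V' ≤ V) (hV : V ≤ U) [Finite (G ⧸ V')]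
    [Finite (U ⧸ V'.subgroupOf U)] (h' : V'.subgroupOf U ≤ V.subgroupOf U)
    (f : Fn (G ⧸ V') M) : eps U V e (pushQ h M f) = pushQ h' M₀ (eps U V' e f) := by
  classical
  have := Fintype.ofFinite (G ⧸ V')
  have := Fintype.ofFinite (U ⧸ V'.subgroupOf U)
  refine Fn.ext fun y => ?_
  obtain ⟨u, rfl⟩ := QuotientGroup.mk_surjective y
  rw [eps_apply, pushQ, pushQ, push_apply, push_apply, map_sum]
  refine (Fintype.sum_of_injective (iota U V') iota_inj _ _ (fun c hc => ?_) fun z => ?_).symm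
  · obtain ⟨g, rfl⟩ := QuotientGroup.mk_surjective c
    rw [if_neg, map_zero]
    intro h1
    have h2 : g⁻¹ * u ∈ V := QuotientGroup.eq.1 h1
    have h3 : g ∈ U := by
      have := U.mul_mem u.2 (U.inv_mem (hV h2))
      simpa using this
    exact hc ⟨QuotientGroup.mk ⟨g, h3⟩, rfl⟩
  · obtain ⟨w, rfl⟩ := QuotientGroup.mk_surjective z
    have h1 : Subgroup.quotientMapOfLE h' (QuotientGroup.mk w) = QuotientGroup.mk u ↔
        Subgroup.quotientMapOfLE h (iota U V' (QuotientGroup.mk w)) =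
          iota U V (QuotientGroup.mk u) := iota_inj.eq_iff.symm
    by_cases h2 : Subgroup.quotientMapOfLE h' (QuotientGroup.mk w) = QuotientGroup.mk u
    · rw [if_pos h2, if_pos (h1.1 h2), eps_apply]
    · rw [if_neg h2, if_neg (mt h1.2 h2), map_zero]

variable [TopologicalSpace G] [IsTopologicalGroup G] [CompactSpace G]

theorem sh (hS : SH) (hU : IsOpen (U : Set G)) (hV : V ≤ U)
    (he : ∀ (q : U) m, e ((q : G) • m) = q • e m) {s : ℕ}
    {F : (Fin (s + 1) → G) → Fn (G ⧸ V) M} (hF : F ∈ ZZ G _ s)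
    (h : res U (eps U V e) s F ∈ BB U _ s) : F ∈ BB G _ s :=
  hS G U hU _ _ (eps U V e) eps_inj (eps_surj hV he) (eps_smul he) s F hF h

theorem fin_ind (hS : SH) (hU : IsOpen (U : Set G)) (hV : V ≤ U)
    (he : ∀ (q : U) m, e ((q : G) • m) = q • e m) {s : ℕ}
    (h : HFin U (Fn (U ⧸ V.subgroupOf U) M₀) s) : HFin G (Fn (G ⧸ V) M) s := by
  obtain ⟨n, S, -, h⟩ := h
  obtain ⟨T, -, hT⟩ := reps (fun F => F ∈ ZZ G (Fn (G ⧸ V) M) s)
    (fun F z => res U (eps U V e) s F - z ∈ BB U _ s) S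
    fun F hF => h _ (res_mem _ (eps_smul he) hF)
  refine ⟨_, T, le_rfl, fun F hF => ?_⟩
  obtain ⟨t, ht, h1, z, h2, h3⟩ := hT F hF
  refine ⟨t, ht, sh hS hU hV he (sub_mem hF h1) ?_⟩
  have := sub_mem h2 h3
  rwa [sub_sub_sub_cancel_right, ← map_sub] at this

end ind

section shift

variable {G : Type} [Group G] [TopologicalSpace G] [IsTopologicalGroup G] {A B C : Type}
  [AddCommGroup A] [DistribMulAction G A] [AddCommGroup B] [DistribMulAction G B]
  [AddCommGroup C] [DistribMulAction G C] {s : ℕ}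

theorem delta_inj [DiscMod G B] (i : A →+[G] B) (q : B →+[G] C) (hi : Function.Injective i)
    (hq : Function.Surjective q) (hex : ∀ b, q b = 0 → ∃ a, i a = b)
    {Y : (Fin (s + 1) → G) → B} (hY : IsCoch G Y) {F : (Fin (s + 1 + 1) → G) → A}
    (e : dd Y = i ∘ F) (h0 : q ∘ Y ∈ BB G C s) : F ∈ BB G A (s + 1) := by
  have key : ∃ X ∈ BB G B s, q ∘ X = q ∘ Y := by
    cases s with
    | zero => exact ⟨0, zero_mem _, by rw [mem_BB_zero.1 h0, comp_zero_G]⟩
    | succ s =>
      obtain ⟨Z, hZ, e⟩ := h0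
      obtain ⟨Y', hY', e'⟩ := hZ.lift q hq
      exact ⟨dd Y', dd_mem_BB hY', by rw [← dd_comp_G, show q ∘ Y' = Z from funext e', e]⟩
  obtain ⟨X, hX, e1⟩ := key
  obtain ⟨X', h2, h3⟩ := IsCoch.of_inj i hi (hY.sub (BB_le_ZZ hX).1) fun x => hex _ (by
    rw [Pi.sub_apply, map_sub, sub_eq_zero]
    exact (congrFun e1 x).symm)
  refine ⟨X', h2, funext fun x => hi ?_⟩
  have h4 := congrFun (dd_comp_G i X') x
  rw [show i ∘ X' = Y - X from funext h3, dd_sub, (BB_le_ZZ hX).2, sub_zero, e] at h4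
  exact h4.symm

theorem fin_succ [DiscMod G B] (i : A →+[G] B) (hi : Function.Injective i)
    (hB : HFin G B (s + 1)) (hC : HFin G (Cok i) s) : HFin G A (s + 1) := by
  obtain ⟨n, hB⟩ := hB
  obtain ⟨n', S, -, hC⟩ := hC
  obtain ⟨T, -, hT⟩ := reps (fun F => F ∈ ZZ G A (s + 1) ∧ i ∘ F ∈ BB G B (s + 1))
    (fun F z => ∃ Y, IsCoch G Y ∧ dd Y = i ∘ F ∧ Cok.pr i ∘ Y - z ∈ BB G _ s) S (by
      rintro F ⟨-, Y, hY, e⟩
      obtain ⟨z, hz, h⟩ := hC (Cok.pr i ∘ Y) ⟨hY.map _, by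
        rw [dd_comp_G, e]
        exact funext fun x => (Cok.pr_eq_zero i _).2 ⟨_, rfl⟩⟩
      exact ⟨z, hz, Y, hY, e, h⟩)
  refine ⟨_, Bd.of_ker i (DistribMulActionHom.id G) (hB.comp_right i) T le_rfl fun F hF h => ?_⟩
  obtain ⟨t, ht, -, z, ⟨Y, hY, e, h2⟩, Y', hY', e', h3⟩ := hT F ⟨hF, h⟩
  refine ⟨t, ht, delta_inj i (Cok.pr i) hi (Cok.pr_surjective i)
    (fun b hb => (Cok.pr_eq_zero i b).1 hb) (hY.sub hY') ?_ ?_⟩
  · rw [dd_sub, e, e', ← comp_sub_G]
    rfl
  · have := sub_mem h2 h3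
    rwa [sub_sub_sub_cancel_right, ← comp_sub_G] at this

theorem fin_zero [Finite A] : HFin G A 0 := by
  classical
  have := Fintype.ofFinite A
  refine ⟨_, Finset.univ.image fun m : A => fun _ => m, le_rfl, fun F hF =>
    ⟨_, Finset.mem_image_of_mem _ (Finset.mem_univ (F 1)), mem_BB_zero.2 (funext fun x => ?_)⟩⟩
  exact sub_eq_zero.2 (ZZ.const hF x 1)

end shift

/-- the identification of the trivial modules -/
def tr (G H : Type) [Group G] [Group H] (p : ℕ) : Triv G p ≃+ Triv H p :=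
  (Tw.val _).trans (Tw.val _).symm

theorem tr_smul {G : Type} [Group G] (U : Subgroup G) (p : ℕ) (q : U) (m : Triv G p) :
    tr G U p ((q : G) • m) = q • tr G U p m := by
  rw [Triv.smul_eq, Triv.smul_eq]

end Glb

open Glb in
theorem glb : GLB := by
  intro hS p d _ G _ _ _ _ _ _ U _ hU
  refine ⟨fun h => ?_, fun h V _ hV hVU F hF F' hF' hn => ?_,
    fun h s hs V _ hV hVU => ?_⟩
  · have := Subgroup.quotient_finite_of_isOpen U hU
    have hW := Subgroup.subgroupOf_isOpen U U hU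
    have : Finite (U ⧸ U.subgroupOf U) := Finite.of_injective _ iota_inj
    suffices ∀ (s : ℕ) (M : Type) [AddCommGroup M] [DistribMulAction G M] [DiscMod G M]
      [Finite M], (∀ m : M, p • m = 0) → HFin G M s from fun M _ _ _ _ hM s => this s M hM
    intro s
    induction s with
    | zero => exact fun M _ _ _ _ _ => fin_zero
    | succ s ih =>
      intro M _ _ _ _ hM
      have : DiscMod G (Fn (G ⧸ U) M) := discMod_FnQ hU
      have : DiscMod U M :=
        ⟨fun m => (DiscMod.isOpen_stab (G := G) m).preimage continuous_subtype_val⟩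
      have : DiscMod U (Fn (U ⧸ U.subgroupOf U) M) := discMod_FnQ hW
      refine fin_succ (cst G (G ⧸ U) M)
        (fun a b e => congrArg (fun f : Fn (G ⧸ U) M => f (QuotientGroup.mk 1)) e)
        (fin_ind (e := AddEquiv.refl M) hS hU le_rfl (fun _ _ => rfl)
          (h _ (Fn.nsmul_eq_zero hM) _)) (ih _ (Cok.nsmul_eq_zero _ (Fn.nsmul_eq_zero hM)))
  · obtain ⟨n, h1⟩ := h (V.subgroupOf U) (Subgroup.subgroupOf_isOpen U V hV) le_top
      _ (res_mem _ (eps_smul (tr_smul U p)) hF) _ (res_mem _ (eps_smul (tr_smul U p)) hF')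
      fun h2 => hn (sh hS hU hVU (tr_smul U p) hF' h2)
    refine ⟨n, sh hS hU hVU (tr_smul U p) (sub_mem hF (nsmul_mem hF' n)) ?_⟩
    rwa [map_sub, map_nsmul]
  · obtain ⟨W', _, hW', _, hle, hz⟩ :=
      h s hs (V.subgroupOf U) (Subgroup.subgroupOf_isOpen U V hV) le_top
    obtain ⟨V', hV'⟩ := ProfiniteGrp.exist_openNormalSubgroup_sub_open_nhds_of_one
      (hU.isOpenMap_subtype_val _ hW') ⟨1, W'.one_mem, rfl⟩
    have h1 : V'.toSubgroup.subgroupOf U ≤ W' := fun u hu => by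
      obtain ⟨w, hw, e⟩ := hV' (show (u : G) ∈ V' from hu)
      rwa [← Subtype.val_injective e]
    have h2 : V'.toSubgroup ≤ V := fun g hg => by
      obtain ⟨w, hw, rfl⟩ := hV' hg
      exact hle hw
    have := Subgroup.quotient_finite_of_isOpen V'.toSubgroup V'.isOpen'
    have : Finite (U ⧸ V'.toSubgroup.subgroupOf U) := Finite.of_injective _ iota_inj
    refine ⟨V'.toSubgroup, inferInstance, V'.isOpen', inferInstance, h2, fun F hF =>
      sh hS hU hVU (tr_smul U p) (ZZ.map hF _) ?_⟩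
    have h3 := (hz.comp_right (pushQ h1 (Triv U p))) _ (res_mem _ (eps_smul (tr_smul U p)) hF)
    convert h3 using 1
    funext x
    exact (eps_push h2 hVU (h1.trans hle) _).trans (pushQ_pushQ h1 hle _).symm

end Vale.Agent.P261Z.D
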