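import Vale.Agent.P261Z.D.Sk
import Vale.Agent.P261Z.D.Basic

/-!
# P261, block D: the tower step
-/

namespace Vale.Agent.P261Z.D

open Vale.Agent.P251 Vale.Agent.P251.C

namespace Step

variable {G : Type} [Group G] [TopologicalSpace G] [IsTopologicalGroup G] {A A₀ B C : Type}
  [AddCommGroup A] [DistribMulAction G A] [AddCommGroup A₀] [DistribMulAction G A₀]
  [AddCommGroup B] [DistribMulAction G B] [AddCommGroup C] [DistribMulAction G C] {s : ℕ}

/-- Exactness in the middle, where `v` is injective only up to the kernel of `ρ`. -/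
theorem mid [DiscMod G B] (v : A →+[G] B) (q : B →+[G] C) (ρ : A →+[G] A₀)
    (hv : ∀ y, v y = 0 → ρ y = 0) (hq : Function.Surjective q) (hex : ∀ b, q b = 0 → ∃ a, v a = b)
    {F : (Fin (s + 1) → G) → B} (hF : F ∈ ZZ G B s) (h0 : q ∘ F ∈ BB G C s) :
    ∃ X ∈ BB G B s, ∃ Y, v ∘ Y = F - X ∧ ρ ∘ Y ∈ ZZ G A₀ s := by
  have key : ∃ X ∈ BB G B s, q ∘ X = q ∘ F := by
    cases s with
    | zero => exact ⟨0, zero_mem _, by rw [mem_BB_zero.1 h0, comp_zero_G]⟩
    | succ s =>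
      obtain ⟨Y, hY, e⟩ := h0
      obtain ⟨Y', hY', e'⟩ := hY.lift q hq
      exact ⟨dd Y', dd_mem_BB hY', by rw [← dd_comp_G, show q ∘ Y' = Y from funext e', e]⟩
  obtain ⟨X, hX, e⟩ := key
  have h1 : F - X ∈ ZZ G B s := sub_mem hF (BB_le_ZZ hX)
  choose Y hY using fun x => hex ((F - X) x) (by
    rw [Pi.sub_apply, map_sub, sub_eq_zero]
    exact (congrFun e x).symm)
  have e' : v ∘ Y = F - X := funext hY
  have hw : ∀ y y', v y = v y' → ρ y = ρ y' := fun y y' h => by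
    rw [← sub_eq_zero, ← map_sub] at h ⊢
    exact hv _ h
  refine ⟨X, hX, Y, e', ⟨?_, fun g x => ?_⟩, ?_⟩
  · rw [IsLocallyConstant.iff_eventually_eq]
    intro x
    filter_upwards [h1.1.lc.eventually_eq x] with y hy
    exact hw _ _ (by rw [hY, hY, hy])
  · rw [Function.comp_apply, Function.comp_apply, ← map_smul]
    exact hw _ _ (by rw [map_smul, hY, hY, h1.1.equi])
  · funext x
    rw [dd_comp_G]
    refine hv _ ?_
    have := congrFun (dd_comp_G v Y) x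
    rw [e', h1.2] at this
    exact this.symm

theorem down {P : ℕ → Prop} (h : ∀ i, P (i + 1) → P i) (n : ℕ) (hn : P n) : P 0 := by
  induction n with
  | zero => exact hn
  | succ n ih => exact ih (h n hn)

end Step

theorem step : STEP := by
  intro p d G _ _ _ χ hPD hF M M' D _ _ _ _ _ _ _ _ _ _ hM hD r r' π v V ι W β rr πr vr πs πk vi
    V0 Vs ιι βs βb βa s b hsb ⟨A, hA⟩ hP
  have key := Step.down (P := fun i => ∃ n, ∀ k, ∃ k', ∃ h : k ≤ k',
    Bd G s ((V i k).comp (r i h)) n) ?_ A ⟨1, fun k => ?_⟩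
  · obtain ⟨n, hn⟩ := key
    refine ⟨n, fun k => ?_⟩
    obtain ⟨k', h, h1⟩ := hn k
    refine ⟨k', h, ?_⟩
    rwa [show ⇑((V 0 k).comp (r 0 h)) = r 0 h from funext fun x => V0 k _] at h1
  · rintro i ⟨n₁, h₁⟩
    obtain ⟨n₂, h₂⟩ := hP i
    refine ⟨n₂ * n₁, fun k => ?_⟩
    obtain ⟨k₀, e₀, S, hS, hS'⟩ := h₁ k
    obtain ⟨k₂, e₂, hB⟩ := h₂ (k₀ + 1)
    have e₁ : k ≤ k₀ + 1 := e₀.trans (Nat.le_succ k₀)
    refine ⟨k₂, e₁.trans e₂, Bd.of_ker ((r' i e₂).comp (π i k₂)) _ (hB.comp_right (π i k₂)) S hS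
      fun F hF0 h0 => ?_⟩
    obtain ⟨X, hX, Y, h1, h2⟩ := Step.mid (v i (k₀ + 1)) (π i (k₀ + 1))
      (r (i + 1) (Nat.le_succ k₀)) (vi i k₀) (πs i _) (πk i _) (ZZ.map hF0 (r i e₂))
      (by convert h0 using 1; exact funext fun x => πr i _ _ e₂ _)
    obtain ⟨z, hz, h3⟩ := hS' _ h2
    refine ⟨z, hz, ?_⟩
    convert add_mem h3 (BB.map hX ((V i k).comp (r i e₁))) using 1
    funext x
    have h4 : v i (k₀ + 1) (Y x) = r i e₂ (F x) - X x := congrFun h1 x
    change V i k (r i _ (F x)) - z x =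
      V (i + 1) k (r (i + 1) e₀ (r (i + 1) _ (Y x))) - z x + V i k (r i e₁ (X x))
    rw [rr, Vs, vr, h4, map_sub, map_sub, rr]
    abel
  · obtain ⟨n, hn⟩ := hF (D 0 k) (hD 0 k) b
    obtain ⟨S, -, h1, h2⟩ := hn.reps
    choose! c hc hc' using hA k
    have e : k ≤ max k (S.sup c) := le_max_left _ _
    refine ⟨_, e, HZ.bd (hPD _ _ _ _ (hM 0 k) (β 0 k) (β A _) (βs 0 k) (βs A _) (βb k)
      ((V A k).comp (r A e)) ((ι A e).comp (W A k)) (βa A k _ e) s b hsb fun Z hZ => ?_)⟩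
    obtain ⟨z, hz, h3⟩ := h2 Z hZ
    have e' : c z ≤ max k (S.sup c) := (Finset.le_sup hz).trans (le_max_right _ _)
    convert add_mem (BB.map h3 ((ι A e).comp (W A k))) (BB.map (hc' z (h1 z hz)) (ι A e'))
      using 1
    funext x
    change ι A e (W A k (Z x)) = ι A e (W A k (Z x - z x)) + ι A e' (ι A _ (W A k (z x)))
    rw [ιι, map_sub, map_sub, sub_add_cancel]

end Vale.Agent.P261Z.D
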