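import Vale.Agent.P261Z.D.SaStep
import Vale.Agent.P261Z.D.Step
import Vale.Agent.P261Z.Ser.RGsa
import Vale.Agent.P261Z.N.All
import Vale.Agent.P261Z.T1.DefsG

/-!
# P261, block D: descending induction on the height, comparison with the rings `E_j`
-/

open MvPowerSeries

namespace Vale.Agent.P261Z.D

open Vale.Agent.P251 Vale.Agent.P251.C Vale.Agent.P251.F Vale.Agent.P261Z.Ev _root_.P261.Ser
  _root_.P261.Ser.SA

section sa

variable {G K : Type} [TopologicalSpace G] [Group G] [Field K] {c : ℕ}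

/-- the constant term of a cocycle -/
noncomputable def ccoc (S : SA G K c) (l : S.Coc) : S.Coc :=
  ⟨fun g => Units.map ((C : K →+* RR K c).comp constantCoeff).toMonoidHom (l.1 g), fun g g' => by
    change C (constantCoeff (val l (g * g'))) =
      C (constantCoeff (val l g)) * S.φ g (C (constantCoeff (val l g')))
    rw [val_coc, map_mul, cc_φ, map_mul]
    exact congrArg _ ((S.φ g).commutes _).symm, fun N =>
      ((lCm_iff _).1 (S.val_lc l) 0).comp fun a => Ideal.Quotient.mk _ (C a : RR K c)⟩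

theorem val_ccoc (S : SA G K c) (l : S.Coc) (g : G) :
    val (ccoc S l) g = C (constantCoeff (val l g)) := rfl

theorem val_zpow (S : SA G K c) (l : S.Coc) (w : ℤ) (g : G) :
    val (l ^ w) g = ((l.1 g ^ w : (RR K c)ˣ) : RR K c) := rfl

theorem map_val_zpow {S : SA G K c} {l : S.Coc} {E : Type} [CommRing E] (f : RR K c →+* E) {g : G}
    {u : Eˣ} (h : f (val l g) = u) (w : ℤ) : f (val (l ^ w) g) = ((u ^ w : Eˣ) : E) := by
  rw [← show Units.map (f : RR K c →* E) (l.1 g) = u from Units.ext h, ← map_zpow]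
  rfl

variable {p : ℕ} [hp : Fact p.Prime] [CharP K p]

theorem bd_of_le (S : SA G K c) {I I' I'' : S.SI} (h : I.1 ≤ I'.1) (h' : I'.1 ≤ I''.1)
    {s n : ℕ} (l : S.Coc) (hn : Bd G s (id : S.Tw I' l → S.Tw I' l) n) {u : S.Tw I l → S.Tw I'' l}
    (hu : ∀ x, u (cl _ _ x) = cl _ _ x) : Bd G s u n := by
  have h1 : ∀ y ∈ I.1, 1 * y ∈ I'.1 := fun y hy => I'.1.mul_mem_left _ (h hy)
  have h2 : ∀ y ∈ I'.1, 1 * y ∈ I''.1 := fun y hy => I''.1.mul_mem_left _ (h' hy)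
  convert (hn.comp_left (eqv (mul _ _ l l 1 h2) (mul_equi h2 fun g => by simp))).comp_right
    (eqv (mul _ _ l l 1 h1) (mul_equi h1 fun g => by simp)) using 1
  funext x
  obtain ⟨x, rfl⟩ := cl_surj _ _ x
  simp only [Function.comp_apply, id, eqv_apply, hu, mul_cl, one_mul]

theorem pft_zero (hF : FinG G p) [Finite K] (S : SA G K 0) (s : ℕ) (l : S.Coc) : PFT p S s l := by
  obtain ⟨n, hn⟩ := hF (S.T p 0 l) (nsmul_Tw p _ _) s
  exact ⟨n, fun k => ⟨k, le_rfl, bd_of_le S ((IN_zero _).trans_le bot_le)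
    ((IN_zero _).trans_le bot_le) l hn (S.pr_cl p 0 le_rfl l)⟩⟩

theorem pft_of_hzero (S : SA G K c) {s : ℕ} (l : S.Coc) (h : ∀ e, HZero G (S.T p e l) (s + 1)) :
    PFT p S (s + 1) l := ⟨1, fun k => ⟨k, le_rfl, HZ.bd fun _ hF =>
  BB.map (mem_BB_of_hzero (h k) hF) (eqv (S.pr c le_rfl l) (S.pr_equi _ _ l))⟩⟩

theorem pf_of_sigma (S : SA G K c) {E : ℕ → Type} [∀ j, CommRing (E j)] (T : ∀ j, TwAct G (E j))
    (R : ∀ {j j' : ℕ}, j ≤ j' → TwAct.Hom (T j') (T j)) (σ : ∀ j, RR K c →+* E j)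
    (hs : ∀ j, Function.Surjective (σ j)) (hk : ∀ j x, σ j x = 0 ↔ x ∈ IX (Fin c) K ^ (j + 1))
    (h1 : ∀ j g x, σ j (S.φ g x) = (T j).phi g (σ j x)) {t : S.Coc}
    (h2 : ∀ j g, σ j (val t g) = (T j).a g)
    (h3 : ∀ j j' (hj : j ≤ j') x, (R hj).r (σ j' x) = σ j x) {s : ℕ} {w : ℤ}
    (h : PFT p S s (t ^ w)) : PF G s (fun j => (T j).Wt w) fun hj => (R hj).map w := by
  have hg : ∀ j g x, (T j).of w (σ j (val (t ^ w) g * S.φ g x)) = g • (T j).of w (σ j x) :=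
    fun j g x => ((T j).val w).injective (by
      rw [TwAct.smul_def, TwAct.val_of, TwAct.val_of, map_mul, h1, map_val_zpow _ (h2 j g)])
  obtain ⟨m, h⟩ := h
  refine ⟨m, fun j => ?_⟩
  obtain ⟨e', he, h⟩ := h (j + 1)
  have hj : j ≤ j + c * p ^ e' := Nat.le_add_right _ _
  let u : S.T p (j + 1) (t ^ w) →+ (T j).Wt w :=
    QuotientAddGroup.lift (S.II p c (j + 1)).1.toAddSubgroup (σ j).toAddMonoidHom
      fun x hx => (hk j x).2 (Ideal.pow_le_pow_right (Nat.lt_pow_self hp.out.one_lt).le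
        (IN_le_pow _ _ hx))
  have hu : ∀ x, u (cl _ _ x) = (T j).of w (σ j x) := fun _ => rfl
  let v : (T (j + c * p ^ e')).Wt w →+ S.T p e' (t ^ w) :=
    (σ (j + c * p ^ e')).toAddMonoidHom.liftOfSurjective (hs _)
      ⟨(cl _ _).toAddMonoidHom, fun x hx => (cl_eq_zero _ _).2
        (pow_le_IN _ (Ideal.pow_le_pow_right (by omega) ((hk _ x).1 hx)))⟩
  have hv : ∀ x, v ((T _).of w (σ _ x)) = cl _ _ x := fun x =>
    AddMonoidHom.liftOfRightInverse_comp_apply _ _ (Function.rightInverse_surjInv (hs _)) _ x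
  refine ⟨_, hj, ?_⟩
  convert (h.comp_left (eqa u fun g a => ?_)).comp_right (eqa v fun g a => ?_) using 1
  · funext y
    obtain ⟨x, hx⟩ := hs _ ((T _).val w y)
    obtain rfl : (T _).of w (σ _ x) = y := hx
    change _ = u (S.pr c he _ (v _))
    rw [hv, pr_cl, hu]
    exact h3 _ _ hj x
  · obtain ⟨x, rfl⟩ := cl_surj _ _ a
    rw [g_cl, hu, hu, hg]
  · obtain ⟨x, hx⟩ := hs _ ((T _).val w a)
    obtain rfl : (T _).of w (σ _ x) = a := hx
    rw [hv, g_cl, ← hv, hg]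

end sa

variable {p : ℕ} [hp : Fact p.Prime] {n : ℕ} {k : Type} [Field k] [CharP k p]

/-- (BV) for the lines `ω ^ a ⊗ J ^ b ⊗ ν ^ i` -/
def BVL (D : LTD p n k) : Prop :=
  ∀ (h c : ℕ) (hh : 1 ≤ h) (hc : 0 < c), h + c = n → ∀ A : N.RG p h c D.GG k,
    N.IsT D (RingHom.id k) A → ∀ l : (sa A hh).Coc, (∃ (a b : ℤ) (i : ℕ), ∀ g,
      val l g = ((A.t g ^ a * (sa A hh).J.1 g ^ b : (RR k c)ˣ) : RR k c) *
        C (RingHom.id k (g.cf 1 ^ (i * ((p ^ n - 1) / (p - 1)))))) →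
    (sa A hh).BV p (X ⟨0, hc⟩) ((sa A hh).bc ⟨0, hc⟩) l

theorem kf_X (h c : ℕ) (j : Fin (c + 1)) : kf k c (X j) = N.exh (h + 1) X (h + j) := by
  refine Fin.cases ?_ (fun j => ?_) j
  · rw [kf_zero, N.exh_lt _ (by simp)]
  · rw [kf_succ, Fin.val_succ, show h + (j + 1) = h + 1 + j by omega, N.exh_add]

omit [CharP k p] in
theorem kf_chg {D : LTD p n k} (hD : N.IsHz p D) {h c : ℕ} (hh : 1 ≤ h) (e : h + (c + 1) = n)
    {A : N.RG p h (c + 1) D.GG k} {A' : N.RG p (h + 1) c D.GG k}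
    (hA : N.IsT D (RingHom.id k) A) (hA' : N.IsT D (RingHom.id k) A') (g : D.GG) :
    (∀ r, kf k c (A.phi g r) = A'.phi g (kf k c r)) ∧
      ∀ i, kf k c ((A.ser g).c i) = (A'.ser g).c i := by
  obtain ⟨h1, h2⟩ := N.All.chg p n k D hD h (c + 1) (h + 1) c hh e (by omega) (by omega) k k _ _
    A A' hA hA' (RingHom.id k) (kf k c : RR k (c + 1) →+* RR k c) rfl kf_C (kf_X h c)
    (Nat.le_succ h) g
  exact ⟨fun r => RingHom.congr_fun h1 r, fun i => by rw [← h2, InvSeries.c_map]; rfl⟩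

theorem ind {D : LTD p n k} (hD : N.IsHz p D) (hB : BVL D) {d : ℕ} {χ : D.GG →* (ZMod p)ˣ}
    (hPD : PDM d χ) (hF : FinG D.GG p) {i : ℕ}
    (hχ : ∀ g, ZMod.castHom (dvd_refl p) k (χ g) = g.cf 1 ^ (i * ((p ^ n - 1) / (p - 1))))
    {s : ℕ} (hs : s ≤ d) (c : ℕ) : ∀ (h : ℕ) (hh : 1 ≤ h), h + c = n →
      ∀ A : N.RG p h c D.GG k, N.IsT D (RingHom.id k) A → ∀ w : ℤ,
        PFT p (sa A hh) s (tc A hh ^ w) := by
  have := D.finite
  induction c with
  | zero => exact fun h hh _ A _ w => pft_zero hF _ s _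
  | succ c ih =>
    intro h hh e A hA w
    have hh' : 1 ≤ h + 1 := by omega
    obtain ⟨A', hA'⟩ := N.All.rgex p n k D hD (h + 1) c hh' (by omega) k (RingHom.id k)
    have h1 : ∀ g, val (ccoc _ (tc A hh) ^ (i * ((p ^ n - 1) / (p - 1)))) g =
        C (g.cf 1 ^ (i * ((p ^ n - 1) / (p - 1)))) := fun g => by
      rw [val_pow, val_ccoc, map_pow]
      exact congrArg (fun z => C z ^ _) (hA g 0)
    refine sa_step p step hPD hF (sa A hh) (sa A' hh') (fun g => (kf_chg hD hh e hA hA' g).1) _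
      (fun j => tc A' hh' ^ (w + ((p ^ (h + 0) - 1) * j : ℕ))) (fun j g => ?_)
      ((tc A hh ^ w)⁻¹ * ((sa A hh).J * ccoc _ (tc A hh) ^ (i * ((p ^ n - 1) / (p - 1))))) _
      (fun g => (h1 g).trans (congrArg C (hχ g).symm)) (mul_inv_cancel_left _ _)
      (hB h (c + 1) hh c.succ_pos e A hA _ ⟨-w, 1, i, fun g => ?_⟩) hs
      fun j => ih (h + 1) hh' (by omega) A' hA' _
    · rw [sa_bc, ← pow_mul, ← zpow_natCast, ← zpow_add, Fin.val_zero, val_zpow]
      exact map_val_zpow (l := tc A hh) (u := (tc A' hh').1 g) (kf k c : RR k (c + 1) →+* RR k c)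
        ((kf_chg hD hh e hA hA' g).2 0) _
    · rw [val_mul, val_mul, h1, ← zpow_neg, val_zpow, zpow_one, Units.val_mul, mul_assoc]
      rfl

omit [CharP k p] in
theorem tw_phi (D : LTD p n k) (j : ℕ) (g : D.GG) : (T1.tw D j).phi g = N.phi D j g := rfl

omit [CharP k p] in
theorem tw_a (D : LTD p n k) (j : ℕ) (g : D.GG) :
    ((T1.tw D j).a g : D.EJ j) = (N.ser D j g).c 0 := rfl

omit [CharP k p] in
/-- the reductions `R → E_j` -/
theorem exists_sigma {D : LTD p n k} (hD : N.IsHz p D) {c : ℕ} (e : 1 + c = n)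
    {A : N.RG p 1 c D.GG k} (hA : N.IsT D (RingHom.id k) A) : ∃ σ : ∀ j, RR k c →+* D.EJ j,
      (∀ j, Function.Surjective (σ j)) ∧ (∀ j x, σ j x = 0 ↔ x ∈ IX (Fin c) k ^ (j + 1)) ∧
      (∀ j g x, σ j (A.phi g x) = N.phi D j g (σ j x)) ∧
      (∀ j g i, σ j ((A.ser g).c i) = (N.ser D j g).c i) ∧
      ∀ j j' (hj : j ≤ j') x, EE.red k (n - 1) hj (σ j' x) = σ j x := by
  have hT := fun j => N.All.tree p n k D hD 1 c le_rfl e k (RingHom.id k) j
  choose r hr using fun j => (hT j).1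
  have hb := fun j => ((hT j).2 _ (hr j)).1 rfl Function.surjective_id
  have h1 := fun j g => ((hT j).2 _ (hr j)).2 A hA g
  obtain ⟨σ, hσ⟩ : ∃ σ : ∀ j, RR k c →+* D.EJ j, ∀ j x, r j (σ j x) = Ideal.Quotient.mk _ x :=
    ⟨fun j => (RingEquiv.ofBijective (r j) (hb j)).symm.toRingHom.comp (Ideal.Quotient.mk _),
      fun j x => (RingEquiv.ofBijective (r j) (hb j)).apply_symm_apply _⟩
  refine ⟨σ, fun j y => ?_, fun j x => ?_, fun j g x => (hb j).1 ?_, fun j g i => (hb j).1 ?_,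
    fun j j' hj x => ?_⟩
  · obtain ⟨x, hx⟩ := Ideal.Quotient.mk_surjective (r j y)
    exact ⟨x, (hb j).1 ((hσ j x).trans hx)⟩
  · rw [← Ideal.Quotient.eq_zero_iff_mem, ← hσ, map_eq_zero_iff _ (hb j).1]
  · rw [hσ, (h1 j g).1 _ _ (hσ j x)]
  · rw [hσ, (h1 j g).2]
  · have h3 : (r j).comp (EE.red k (n - 1) hj : D.EJ j' →+* D.EJ j) =
        (Ideal.Quotient.factor (Ideal.pow_le_pow_right (Nat.succ_le_succ hj))).comp (r j') :=
      N.Un.ee_ext (fun a => by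
        rw [RingHom.comp_apply, RingHom.comp_apply, (hr j').1, RingHom.coe_coe, AlgHom.commutes,
          (hr j).1]
        rfl) fun i => by
        rw [RingHom.comp_apply, RingHom.comp_apply, (hr j').2, RingHom.coe_coe, EE.red_mk,
          (hr j).2]
        rfl
    refine (hb j).1 ((RingHom.congr_fun h3 _).trans ?_)
    rw [RingHom.comp_apply, hσ, hσ]
    rfl

/-- comparison with the tower of the rings `E_j` -/
theorem pf_EJ {D : LTD p n k} (hD : N.IsHz p D) {c : ℕ} (e : 1 + c = n) {A : N.RG p 1 c D.GG k}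
    (hA : N.IsT D (RingHom.id k) A) {s : ℕ} {w : ℤ} (h : PFT p (sa A le_rfl) s (tc A le_rfl ^ w)) :
    PF D.GG s (fun j => (T1.tw D j).Wt w) fun hj => (T1.twR D hj).map w := by
  obtain ⟨σ, h1, h2, h3, h4, h5⟩ := exists_sigma hD e hA
  exact pf_of_sigma (sa A le_rfl) (T1.tw D) (fun hj => T1.twR D hj) σ h1 h2
    (fun j g x => (tw_phi D j g).symm ▸ h3 j g x) (t := tc A le_rfl)
    (fun j g => (h4 j g 0).trans (tw_a D j g).symm) h5 h

end Vale.Agent.P261Z.D
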