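import Vale.Agent.P261Z.D.Sk

/-!
# P261, block D: duality for the Koszul complex at a finite level
-/

namespace Vale.Agent.P261Z.D

open Vale.Agent.P251 Vale.Agent.P251.C

namespace Kos

variable {p d : ℕ} {U : Type} [Group U] (Φ : Finset (Fin d) → VV p d U →ₗ[ZMod p] ZMod p)
  {W W' : Subgroup U}

/-- the components of the functionals -/
def ph (T S : Finset (Fin d)) : (U → ZMod p) →ₗ[ZMod p] ZMod p :=
  Φ T ∘ₗ LinearMap.single (ZMod p) (fun _ : Finset (Fin d) => U → ZMod p) S

omit [Group U] in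
theorem Phi_eq (T : Finset (Fin d)) (G : VV p d U) : Φ T G = ∑ S, ph Φ T S (G S) := by
  conv_lhs => rw [← Finset.univ_sum_single G, map_sum]
  rfl

/-- the adjoint of the differential -/
def adj (g : Finset (Fin d) → U ⧸ W → ZMod p) : Finset (Fin d) → U ⧸ W → ZMod p :=
  fun S c => ∑ T, ph Φ T S fun x => g T (x • c)

/-- the dot product -/
def dot {X : Type} [Fintype X] (a g : Finset (Fin d) → X → ZMod p) : ZMod p :=
  ∑ T, ∑ c, a T c * g T c

theorem dot_KA [Fintype (U ⧸ W)] (a g : Finset (Fin d) → U ⧸ W → ZMod p) :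
    dot (KA Φ W a) g = dot a (adj Φ g) := by
  have key : ∀ T S, ∑ c, ph Φ T S (fun x => a S (x⁻¹ • c)) * g T c =
      ∑ c, a S c * ph Φ T S fun x => g T (x • c) := fun T S => by
    have h1 : ∑ c, g T c • (fun x : U => a S (x⁻¹ • c)) =
        ∑ c, a S c • fun x : U => g T (x • c) := by
      funext x
      simp only [Finset.sum_apply, Pi.smul_apply, smul_eq_mul]
      rw [← Equiv.sum_comp (MulAction.toPerm x)]
      simp only [MulAction.toPerm_apply, inv_smul_smul, mul_comm]
    have h2 := congrArg (ph Φ T S) h1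
    simp only [map_sum, map_smul, smul_eq_mul] at h2
    rw [← h2]
    simp only [mul_comm]
  calc _ = ∑ T, ∑ S, ∑ c, ph Φ T S (fun x => a S (x⁻¹ • c)) * g T c := by
        refine Finset.sum_congr rfl fun T _ => ?_
        rw [Finset.sum_comm]
        simp only [KA, Phi_eq, Finset.sum_mul]
    _ = ∑ S, ∑ T, ∑ c, a S c * ph Φ T S fun x => g T (x • c) := by
        rw [Finset.sum_comm]
        simp only [key]
    _ = _ := by
        refine Finset.sum_congr rfl fun S _ => ?_
        rw [Finset.sum_comm]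
        simp only [adj, Finset.mul_sum]

variable (W) in
/-- the differential as a linear map -/
def KL : (Finset (Fin d) → U ⧸ W → ZMod p) →ₗ[ZMod p] (Finset (Fin d) → U ⧸ W → ZMod p) where
  toFun := KA Φ W
  map_add' _ _ := funext fun T => funext fun _ => (Φ T).map_add _ _
  map_smul' r _ := funext fun T => funext fun _ => (Φ T).map_smul r _

variable (p d) in
/-- the families that are concentrated in one degree -/
def DG (X : Type) (n : ℕ) : Submodule (ZMod p) (Finset (Fin d) → X → ZMod p) where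
  carrier := {a | Dg n a}
  add_mem' := fun {a b} ha hb S hS => by rw [Pi.add_apply, ha S hS, hb S hS, add_zero]
  zero_mem' := fun _ _ => rfl
  smul_mem' := fun r a ha S hS => by rw [Pi.smul_apply, ha S hS, smul_zero]

theorem eta_sq (T : Finset (Fin d)) : eta' p T * eta' p T = 1 := by
  rw [eta', ← Finset.prod_mul_distrib]
  refine Finset.prod_eq_one fun i _ => ?_
  rw [neg_mul_neg, ← mul_pow]
  simp

/-- the dictionary -/
def dic (g : Finset (Fin d) → U ⧸ W → ZMod p) : VV p d U :=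
  fun Q z => eta' p Q * g Qᶜ (z⁻¹ : U)

theorem op_dic (g : Finset (Fin d) → U ⧸ W → ZMod p) :
    op (trp Φ) (dic g) = dic (adj Φ g) := by
  funext T y
  rw [op_apply, trp, LinearMap.sum_apply, dic, adj, Finset.mul_sum,
    ← Equiv.sum_comp (Function.Involutive.toPerm (compl : Finset (Fin d) → _) compl_compl)
      fun S => eta' p T * ph Φ S Tᶜ fun x => g S (x • ((y⁻¹ : U) : U ⧸ W))]
  refine Finset.sum_congr rfl fun S _ => ?_
  have h : (fun x : U => dic g S (y⁻¹⁻¹ * x⁻¹)) =
      eta' p S • fun x : U => g Sᶜ (x • ((y⁻¹ : U) : U ⧸ W)) := by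
    funext x
    rw [dic, inv_inv, mul_inv_rev, inv_inv]
    rfl
  change eta' p T * eta' p S * ph Φ Sᶜ Tᶜ (fun x : U => dic g S (y⁻¹⁻¹ * x⁻¹)) = _
  rw [h, map_smul, smul_eq_mul, mul_assoc, ← mul_assoc (eta' p S), eta_sq, one_mul]
  rfl

theorem dic_inj {g g' : Finset (Fin d) → U ⧸ W → ZMod p} (h : dic g = dic g') : g = g' := by
  funext T c
  obtain ⟨z, rfl⟩ := QuotientGroup.mk_surjective c
  have h1 := congrArg (eta' p Tᶜ * ·) (congrFun (congrFun h Tᶜ) z⁻¹)
  simpa only [dic, ← mul_assoc, eta_sq, one_mul, compl_compl, inv_inv] using h1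

theorem dic_zero : dic (0 : Finset (Fin d) → U ⧸ W → ZMod p) = 0 :=
  funext fun _ => funext fun _ => mul_zero _

theorem dic_hom {m n : ℕ} (h : m + n = d + 2) {g : Finset (Fin d) → U ⧸ W → ZMod p}
    (hg : Dg n g) : Hom m (dic g) := by
  intro S hS
  funext z
  have h1 := Finset.card_add_card_compl S
  rw [Fintype.card_fin] at h1
  rw [dic, hg Sᶜ (by omega)]
  exact mul_zero _

variable {D : NpData p d U}

theorem dic_inv {M : ℕ} (h : D.P M ≤ W) (g : Finset (Fin d) → U ⧸ W → ZMod p)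
    (T : Finset (Fin d)) : D.Inv M (dic g T) := by
  intro u hu x
  have : (((u * x)⁻¹ : U) : U ⧸ W) = (x⁻¹ : U) := QuotientGroup.eq.2 (by simpa using h hu)
  rw [dic, dic, this]

theorem exists_dic {M : ℕ} (h : W ≤ D.P M) {H : VV p d U} (hH : ∀ T, D.Inv M (H T)) :
    ∃ g : Finset (Fin d) → U ⧸ W → ZMod p, dic g = H := by
  refine ⟨fun T c => eta' p Tᶜ * H Tᶜ c.out⁻¹, funext fun Q => funext fun z => ?_⟩
  obtain ⟨w, hw⟩ := QuotientGroup.mk_out_eq_mul W z⁻¹
  rw [dic, compl_compl, ← mul_assoc, eta_sq, one_mul, hw, mul_inv_rev, inv_inv]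
  exact hH Q _ (inv_mem (h w.2)) z

variable [Fact p.Prime] {Φ}

theorem ph_zero (hΦ : D.Good d Φ) {T S : Finset (Fin d)} (h : S.card + 1 ≠ T.card)
    (f : U → ZMod p) : ph Φ T S f = 0 := by
  have h1 : pr p d U T.card (Pi.single S f) = 0 := by
    funext Q
    rw [pr_apply]
    split_ifs with h2
    · exact Pi.single_eq_of_ne (M := fun _ => U → ZMod p) (fun e : Q = S => h (e ▸ h2)) f
    · rfl
  change Φ T (Pi.single S f) = 0
  rw [← hΦ.loc, h1, map_zero]

/-- separation by a functional -/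
theorem sep (hΦ : D.Good d Φ) [Fintype (U ⧸ W)] {s : ℕ} {a : Finset (Fin d) → U ⧸ W → ZMod p}
    (ha : Dg (s + 1) a) (h : ∀ g, Dg (s + 1) g → adj Φ g = 0 → dot a g = 0) :
    ∃ b, Dg s b ∧ KA Φ W b = a := by
  classical
  by_contra hc
  obtain ⟨f, h1, h2⟩ := Submodule.exists_le_ker_of_notMem
    (p := (DG p d (U ⧸ W) s).map (KL Φ W)) (v := a) hc
  obtain ⟨g, hg⟩ : ∃ g, ∀ b, f b = dot b g := by
    refine ⟨fun T c => f (Pi.single T (Pi.single c 1)), fun b => ?_⟩
    have h3 : b = ∑ T, ∑ c, b T c • Pi.single T (Pi.single c (1 : ZMod p)) := by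
      funext T c
      simp [Finset.sum_apply, Pi.single_apply, ite_apply]
    conv_lhs => rw [h3]
    simp only [map_sum, map_smul, smul_eq_mul, dot]
  refine h1 ?_
  have h3 := h (fun T => if T.card = s then g T else 0) (fun T hT => if_neg (by omega)) (by
    funext S c
    by_cases hS : S.card + 1 = s
    · have h4 := h2 ⟨Pi.single S (Pi.single c 1), fun Q hQ =>
        Pi.single_eq_of_ne (fun e : Q = S => hQ (e ▸ hS)) _, rfl⟩
      rw [LinearMap.mem_ker, hg] at h4
      have h5 := (dot_KA Φ _ g).symm.trans h4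
      have h6 : adj Φ g S c = 0 := by
        simpa [dot, Pi.single_apply, ite_apply] using h5
      refine Eq.trans (Finset.sum_congr rfl fun T _ => ?_) h6
      by_cases h7 : T.card = s
      · simp only [if_pos h7]
      · rw [ph_zero hΦ (by omega), ph_zero hΦ (by omega)]
    · refine Finset.sum_eq_zero fun T _ => ?_
      by_cases h7 : T.card = s
      · exact ph_zero hΦ (by omega) _
      · simp only [if_neg h7]
        exact map_zero _)
  rw [hg, ← h3]
  refine Finset.sum_congr rfl fun T _ => ?_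
  by_cases h7 : T.card = s
  · simp only [if_pos h7]
  · simp [ha T (by omega)]

theorem exact (hΦ : D.Good d (trp Φ)) {M n s : ℕ} (hM : D.P M ≤ W) (h : n + s = d)
    {g : Finset (Fin d) → U ⧸ W → ZMod p} (hg : Dg (s + 1) g) (h0 : adj Φ g = 0) :
    ∃ G ∈ D.NN, Hom n G ∧ dic g - op (trp Φ) G ∈ D.Fil 0 := by
  obtain ⟨m, hm⟩ := D.exists_Fil (F := dic g) ⟨M, dic_inv hM g⟩
  exact hΦ.exact (by omega) m (Or.inr le_rfl) _ hm (dic_hom (by omega) hg)
    (by rw [op_dic, h0, dic_zero])

open Classical in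
theorem dot_push [Fintype (U ⧸ W)] [Fintype (U ⧸ W')] (h : W' ≤ W)
    (a : Finset (Fin d) → U ⧸ W' → ZMod p) (g : Finset (Fin d) → U ⧸ W → ZMod p) :
    dot (fun S c => ∑ᶠ y : U ⧸ W', if Subgroup.quotientMapOfLE h y = c then a S y else 0) g =
      dot a fun T y => g T (Subgroup.quotientMapOfLE h y) := by
  refine Finset.sum_congr rfl fun T _ => ?_
  simp only [finsum_eq_sum_of_fintype, Finset.sum_mul]
  rw [Finset.sum_comm]
  simp

end Kos

open Kos in
theorem kos : KOS := by
  intro p d _ U _ _ _ _ D Φ hD hΦ hΦ'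
  have hP : ∀ W : Subgroup U, IsOpen (W : Set U) → ∃ M, D.P M ≤ W := fun W hW =>
    hD.basis W (hW.mem_nhds W.one_mem)
  constructor
  · intro W _ hW a ha h0
    have := Subgroup.quotient_finite_of_isOpen W hW
    have := Fintype.ofFinite (U ⧸ W)
    obtain ⟨M, hM⟩ := hP W hW
    refine sep hΦ ha fun g hg h1 => ?_
    obtain ⟨G, -, h2, h3⟩ := Kos.exact hΦ' hM (zero_add d) hg h1
    rw [show G = 0 from funext fun S => h2 S (by omega), map_zero, sub_zero] at h3
    have h4 : ∀ c, g Finset.univ c = dic g ∅ 1 := fun c => by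
      obtain ⟨z, rfl⟩ := QuotientGroup.mk_surjective c
      have h5 := congrFun (congrFun (NpData.eq_cst_of_Fil_zero h3) ∅) z⁻¹
      simpa [dic, eta', NpData.cst] using h5
    rw [finsum_eq_sum_of_fintype] at h0
    rw [dot, Finset.sum_eq_single Finset.univ]
    · simp only [h4]
      rw [← Finset.sum_mul, h0, zero_mul]
    · intro T _ hT
      have h5 : T.card ≠ d := fun e => hT (Finset.eq_univ_of_card T (by rw [e, Fintype.card_fin]))
      simp [ha T (by omega)]
    · exact fun h => absurd (Finset.mem_univ _) h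
  · intro s hs W _ hW
    have := Subgroup.quotient_finite_of_isOpen W hW
    have := Fintype.ofFinite (U ⧸ W)
    obtain ⟨M, hM⟩ := hP W hW
    have key : ∀ g : Finset (Fin d) → U ⧸ W → ZMod p, ∃ N, Dg (s + 1) g → adj Φ g = 0 →
        ∃ H, (∀ T, D.Inv N (H T)) ∧ dic g = op (trp Φ) H := fun g => by
      by_cases hg : Dg (s + 1) g ∧ adj Φ g = 0
      · obtain ⟨H, ⟨N, hN⟩, h2, h3⟩ := Kos.exact hΦ' hM (Nat.sub_add_cancel hs.le) hg.1 hg.2
        refine ⟨N, fun _ _ => ⟨H, hN, sub_eq_zero.1 ?_⟩⟩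
        have h4 : (dic g - op (trp Φ) H) ∅ = 0 := by
          rw [Pi.sub_apply, dic_hom (m := d - s + 1) (by omega) hg.1 ∅ (by simp; omega),
            hΦ'.op_hom h2 ∅ (by simp; omega), sub_self]
        rw [NpData.eq_cst_of_Fil_zero h3, h4]
        funext T x
        exact ite_self _
      · exact ⟨0, fun h1 h2 => absurd ⟨h1, h2⟩ hg⟩
    choose N hN using key
    obtain ⟨M', hM'⟩ := (Set.finite_range N).bddAbove
    have := D.normal M'
    have hW' : IsOpen ((W ⊓ D.P M' : Subgroup U) : Set U) := hW.inter (hD.isOpen M')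
    refine ⟨W ⊓ D.P M', inferInstance, hW', inf_le_left, fun a ha h0 => ?_⟩
    have := Subgroup.quotient_finite_of_isOpen _ hW'
    have := Fintype.ofFinite (U ⧸ (W ⊓ D.P M'))
    refine sep hΦ (fun S hS => funext fun c => by simp [ha S hS]) fun g hg h1 => ?_
    obtain ⟨H, h2, h3⟩ := hN g hg h1
    obtain ⟨h, rfl⟩ := exists_dic (W := W ⊓ D.P M') inf_le_right
      fun T => (h2 T).mono (hM' ⟨g, rfl⟩)
    rw [op_dic] at h3
    have h4 : (fun T y => g T (Subgroup.quotientMapOfLE (inf_le_left : W ⊓ D.P M' ≤ W) y)) =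
        adj Φ h := dic_inj h3
    rw [dot_push, h4, ← dot_KA, h0]
    simp [dot]

end Vale.Agent.P261Z.D
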