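import Vale.Agent.P261Z.D.Sk
import Vale.Agent.P261Z.D.Basic

/-!
# P261, block D: dimension shifting
-/

namespace Vale.Agent.P261Z.D

open Vale.Agent.P251 Vale.Agent.P251.C

namespace NdH

variable {G : Type} [Group G] {p : ℕ} (χ : G →* (ZMod p)ˣ) {A B C : Type}
  [AddCommGroup A] [DistribMulAction G A] [AddCommGroup B] [DistribMulAction G B]
  [AddCommGroup C] [DistribMulAction G C]

/-- the transpose of an equivariant map -/
def dl (u : A →+[G] B) : Dl χ B →+[G] Dl χ A where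
  toFun φ := (Dl.val χ A).symm ((Dl.val χ B φ).comp (u : A →+ B))
  map_smul' g φ := Dl.ext χ fun a => by
    change (χ g : ZMod p) * Dl.val χ B φ (g⁻¹ • u a) = (χ g : ZMod p) * Dl.val χ B φ (u (g⁻¹ • a))
    rw [map_smul u]
  map_zero' := rfl
  map_add' _ _ := rfl

theorem dl_inj {q : A →+[G] B} (hq : Function.Surjective q) : Function.Injective (dl χ q) :=
  fun φ ψ h => Dl.ext χ fun b => by
    obtain ⟨a, rfl⟩ := hq b
    exact DFunLike.congr_fun (congrArg (Dl.val χ A) h) a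

theorem dl_surj [Fact p.Prime] {i : A →+[G] B} (hi : Function.Injective i) (hA : ∀ a : A, p • a = 0)
    (hB : ∀ b : B, p • b = 0) : Function.Surjective (dl χ i) := fun φ => by
  let _ := AddCommGroup.zmodModule hA
  let _ := AddCommGroup.zmodModule hB
  obtain ⟨r, hr⟩ := ((i : A →+ B).toZModLinearMap p).exists_leftInverse_of_injective
    (LinearMap.ker_eq_bot.2 hi)
  exact ⟨(Dl.val χ B).symm ((Dl.val χ A φ).comp r.toAddMonoidHom),
    Dl.ext χ fun a => congrArg (Dl.val χ A φ) (LinearMap.congr_fun hr a)⟩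

theorem dl_ex {i : A →+[G] B} {q : B →+[G] C} (hq : Function.Surjective q)
    (h : ∀ b, q b = 0 → ∃ a, i a = b) (φ : Dl χ B) (h0 : dl χ i φ = 0) : ∃ ψ, dl χ q ψ = φ := by
  have k : (q : B →+ C).ker ≤ (Dl.val χ B φ).ker := fun b hb => by
    obtain ⟨a, rfl⟩ := h b hb
    exact DFunLike.congr_fun (congrArg (Dl.val χ A) h0) a
  exact ⟨(Dl.val χ C).symm ((q : B →+ C).liftOfSurjective hq ⟨_, k⟩),
    Dl.ext χ fun b => (q : B →+ C).liftOfRightInverse_comp_apply _
      (Function.rightInverse_surjInv hq) ⟨_, k⟩ b⟩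

variable [TopologicalSpace G]

theorem coch {β : A →+ B →+ C} (hβ : ∀ (g : G) m y, β (g • m) (g • y) = g • β m y) {a b n : ℕ}
    (h : a + b = n) {F : (Fin (a + 1) → G) → A} {Z : (Fin (b + 1) → G) → B} (hF : IsCoch G F)
    (hZ : IsCoch G Z) : IsCoch G (cup β h F Z) := by
  refine ⟨(hF.lc.comp_continuous (by fun_prop)).comp₂ (hZ.lc.comp_continuous (by fun_prop))
    fun m y => β m y, fun g x => ?_⟩
  unfold cup
  rw [hF.equi, hZ.equi, hβ]

theorem cup_bb (hc : CUP) {β : A →+ B →+ C} (hβ : ∀ (g : G) m y, β (g • m) (g • y) = g • β m y)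
    {a b n : ℕ} (h : a + b = n) {F : (Fin (a + 1) → G) → A} {Z : (Fin (b + 1) → G) → B}
    (hF : F ∈ ZZ G A a) (hZ : Z ∈ BB G B b) : cup β h F Z ∈ BB G C n := by
  cases b with
  | zero =>
    rw [mem_BB_zero.1 hZ, show cup β h F 0 = 0 from funext fun _ => map_zero _]
    exact zero_mem _
  | succ b =>
    obtain ⟨X, hX, rfl⟩ := hZ
    obtain rfl : n = a + b + 1 := h.symm
    have k := zsmul_mem (dd_mem_BB (coch hβ rfl hF.1 hX)) ((-1) ^ a)
    rw [hc, hF.2, show cup β _ 0 X = 0 from funext fun _ => by simp [cup], zero_add, smul_smul,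
      ← mul_pow, neg_mul_neg, one_mul, one_pow, one_smul] at k
    exact k

variable [IsTopologicalGroup G] [Fact p.Prime] {χ}

/-- the cup product pairing is nondegenerate -/
theorem ndg (hc : CUP) {d : ℕ} (hχ : IsOpen (χ.ker : Set G)) (hB : Base d χ) (hL : LowM G p d)
    (b : ℕ) : ∀ (s : ℕ) (h : s + b = d) (M : Type) [AddCommGroup M] [DistribMulAction G M]
      [DiscMod G M] [Finite M], (∀ m : M, p • m = 0) → ∀ F ∈ ZZ G M s,
      (∀ Z ∈ ZZ G (Dl χ M) b, cup (ev χ M) h F Z ∈ BB G (Tw χ) d) → F ∈ BB G M s := by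
  induction b with
  | zero =>
    intro s h M _ _ _ _ hM F hF k
    obtain rfl : s = d := h
    refine hB M hM F hF fun φ => k _ (const_mem_ZZ
      (m := (Dl.val χ M).symm ((Tw.val χ).toAddMonoidHom.comp (φ : M →+ Tw χ))) fun g => ?_)
    exact Dl.ext χ fun m => congrArg (Tw.val χ)
      ((map_smul φ g _).symm.trans (congrArg φ (smul_inv_smul g m)))
  | succ b ih =>
    intro s h M _ _ _ _ hM F hF k
    obtain ⟨V, _, hV, _, hz⟩ := hL s (by omega) M hM
    have := discMod_FnQ (M := M) hV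
    have := discMod_Dl (M := Fn (G ⧸ V) M) χ hχ
    have h1 := Fn.nsmul_eq_zero (X := G ⧸ V) hM
    have h2 := tot_surjective (G := G) (X := G ⧸ V) (M := M)
    generalize tot G (G ⧸ V) M = t at hz h2
    have h3 := Ker.nsmul_eq_zero t h1
    obtain ⟨Y, hY, rfl, F₁, h4, e⟩ :=
      exists_delta (Ker.inc t) t (Ker.inc_injective t) h2 (Ker.exact t) hF
    obtain ⟨X, hX, rfl⟩ := ih (s + 1) (by omega) (Ker t) h3 F₁ h4 fun Z hZ => by
      obtain ⟨W, hW, rfl, Z₁, h5, e'⟩ := exists_delta (dl χ t) (dl χ (Ker.inc t)) (dl_inj χ h2)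
        (dl_surj χ (Ker.inc_injective t) h3 h1) (dl_ex χ h2 (Ker.exact t)) hZ
      obtain rfl : d = s + b + 1 := h.symm
      have k' := dd_mem_BB (coch (ev_smul χ) rfl hY hW)
      rw [hc, ← e, ← e'] at k'
      exact (add_mem_cancel_right (zsmul_mem (k Z₁ h5) _)).1 k'
    have h6 := hz (Y - Ker.inc t ∘ X)
      ⟨hY.sub (hX.map _), by rw [dd_sub, dd_comp_G, e, sub_self]⟩
    rwa [comp_sub_G, show t ∘ Ker.inc t ∘ X = 0 from funext fun x => Ker.map_inc t _,
      sub_zero] at h6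

end NdH

open NdH

theorem nd : ND := by
  intro hc p d _ G _ _ _ _ χ hχ hB hL M' M D D' _ _ _ _ _ _ _ _ _ _ hM β β' hβ hβ' hb u w e s b h
    hw F hF
  refine ndg hc hχ hB hL b s h M hM _ (ZZ.map hF u) fun Z hZ => ?_
  let j : D →+[G] Dl χ M :=
    { toFun := fun y => (Dl.val χ M).symm (β.flip y)
      map_smul' := fun g y => Dl.ext χ fun m =>
        (congrArg (fun x => β x (g • y)) (smul_inv_smul g m).symm).trans (hβ g _ y)
      map_zero' := map_zero β.flip
      map_add' := map_add β.flip }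
  obtain ⟨Z₀, h1, h2⟩ := IsCoch.of_inj j hb.1 hZ.1 fun x => hb.2 _
  obtain rfl : j ∘ Z₀ = Z := funext h2
  have h3 := cup_bb hc (β := β'.compr₂ (Tw.val χ).symm.toAddMonoidHom) hβ' h hF
    (hw Z₀ ⟨h1, funext fun x => hb.1
      ((congrFun ((dd_comp_G j Z₀).symm.trans hZ.2) x).trans (map_zero β.flip).symm)⟩)
  exact (show _ = cup (ev χ M) h (u ∘ F) (j ∘ Z₀) from funext fun x => e _ _) ▸ h3

end Vale.Agent.P261Z.D
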