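import Vale.Agent.P261Z.D.Sk
import Vale.Agent.P261Z.D.Basic

/-!
# P261, block D: Shapiro's lemma, injectivity
-/

namespace Vale.Agent.P261Z.D

open Vale.Agent.P251 Vale.Agent.P251.C

namespace Sh

variable {G : Type} [Group G] [TopologicalSpace G] [CompactSpace G] (P : Subgroup G)
  {M : Type} [AddCommGroup M] [DistribMulAction P M]

theorem aux {ρ : G → P} (hρ : Continuous ρ) (hρ' : ∀ (p : P) (g : G), ρ (p * g) = p * ρ g)
    {s : ℕ} (f : (Fin (s + 1) → G) → M) (hf : IsLocallyConstant f)
    (hf' : ∀ (p : P) (x : Fin (s + 1) → G), f (fun i => p * x i) = p • f x) (hd : dd f = 0)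
    {Y : (Fin s → P) → M} (hY : IsCoch P Y) (hY2 : dd Y = fun x => f fun i => (x i : G)) :
    ∃ y : (Fin s → G) → M, IsLocallyConstant y ∧
      (∀ (p : P) (x : Fin s → G), y (fun i => p * x i) = p • y x) ∧ dd y = f := by
  set r : G → G := fun g => (ρ g : G) with hr
  have hrc : Continuous r := continuous_subtype_val.comp hρ
  refine ⟨fun x => Y (ρ ∘ x) - prism r f x, ?_, fun p x => ?_, ?_⟩
  · exact (hY.lc.comp_continuous (continuous_pi fun j => hρ.comp (continuous_apply j))).sub
      (isLocallyConstant_prism hrc hf)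
  · have e1 : Y (ρ ∘ fun i => (p : G) * x i) = p • Y (ρ ∘ x) := by
      rw [← hY.equi p (ρ ∘ x)]
      congr 1
      funext i
      exact hρ' p (x i)
    have h1 := prism_comp r (fun g => (p : G) * g) (fun g => by simp [hr, hρ']) f x
    have h2 : (fun y : Fin (s + 1) → G => f ((fun g => (p : G) * g) ∘ y)) =
        fun y => DistribSMul.toAddMonoidHom M p (f y) := funext fun y => hf' p y
    rw [h2, prism_map] at h1
    exact (congrArg₂ (· - ·) e1 h1).trans (smul_sub _ _ _).symm
  · have h1 : dd (fun x : Fin s → G => Y (ρ ∘ x) - prism r f x) =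
        dd (fun x : Fin s → G => Y (ρ ∘ x)) - dd (prism r f) := dd_sub _ _
    rw [h1]
    funext x
    have h2 := prism_homotopy r f x
    rw [hd, prism_zero, add_zero] at h2
    have h4 : dd (fun x : Fin s → G => Y (ρ ∘ x)) x = f (r ∘ x) := by
      rw [dd_comp ρ Y x, hY2]
      rfl
    rw [Pi.sub_apply, h4, h2, sub_sub_cancel]

end Sh

theorem sh : SH := by
  intro G _ _ _ _ P hP B B₀ _ _ _ _ ε h1 h2 h3 s F hF h0
  cases s with
  | zero =>
    refine mem_BB_zero.2 (funext fun x => h1 _ fun γ => ?_)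
    rw [ZZ.inv hF, ZZ.const hF x fun _ => ((1 : P) : G)]
    exact congrFun (mem_BB_zero.1 h0) fun _ => 1
  | succ s =>
    obtain ⟨Y, hY, hY2⟩ := h0
    obtain ⟨ρ, hρ, hρ'⟩ := exists_retraction_of_open P hP
    obtain ⟨y, a1, a2, a3⟩ := Sh.aux P hρ hρ' (ε ∘ F) (hF.1.lc.comp ε)
      (fun p x => (congrArg ε (hF.1.equi p x)).trans (h3 p _))
      (by rw [dd_map', hF.2]; exact funext fun _ => map_zero ε) hY hY2
    choose Y' hY' using fun x : Fin (s + 1) → G => h2 (fun γ => y fun i => γ * x i) fun q γ => by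
      rw [← a2]
      simp only [mul_assoc]
    have ext : ∀ b b' : B, (∀ γ : G, ε (γ • b) = ε (γ • b')) → b = b' := fun b b' h =>
      sub_eq_zero.1 (h1 _ fun γ => by rw [smul_sub, map_sub, h, sub_self])
    refine ⟨Y', ⟨(IsLocallyConstant.iff_exists_open _).2 fun x => ?_, fun g x => ext _ _ fun γ => ?_⟩,
      funext fun x => ext _ _ fun γ => ?_⟩
    · have h5 : IsLocallyConstant fun z : (Fin (s + 1) → G) × G => y fun i => z.2 * z.1 i :=
        a1.comp_continuous (continuous_pi fun i =>
          continuous_snd.mul ((continuous_apply i).comp continuous_fst))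
      exact ⟨_, isOpen_curry h5 x, fun _ => rfl, fun x' hx' => ext _ _ fun γ => by
        rw [hY', hY']
        exact hx' γ⟩
    · rw [← mul_smul, hY', hY']
      simp only [mul_assoc]
    · have h6 := congrFun (dd_map (ε.comp (DistribSMul.toAddMonoidHom B γ)) Y') x
      have h7 : (fun x => (ε.comp (DistribSMul.toAddMonoidHom B γ)) (Y' x)) =
          fun x => y ((fun g => γ * g) ∘ x) := funext fun x => hY' x γ
      rw [h7, dd_comp, a3] at h6
      exact h6.symm.trans (congrArg ε (hF.1.equi γ x))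

end Vale.Agent.P261Z.D
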