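import Vale.Agent.P261Z.D.TopA

/-!
# P261, block D: the dualizing character
-/

set_option linter.unusedSectionVars false

namespace Vale.Agent.P261Z.D

open Vale.Agent.P251 Vale.Agent.P251.C

namespace TopH

variable {G : Type} [Group G] {P A C : Type} [AddCommGroup P] [DistribMulAction G P]
  [AddCommGroup A] [DistribMulAction G A] [AddCommGroup C] [DistribMulAction G C]

/-- a map into a kernel -/
def toKer (σ : P →+[G] A) (q : A →+[G] C) (h : ∀ x, q (σ x) = 0) : P →+[G] Ker q where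
  toFun x := (⟨σ x, h x⟩ : (q : A →+ C).ker)
  map_smul' g x := Ker.inc_injective q (map_smul σ g x)
  map_zero' := Ker.inc_injective q (map_zero σ)
  map_add' x y := Ker.inc_injective q (map_add σ x y)

/-- a coordinate -/
def prj (G : Type) [Group G] {ι : Type} (A : Type) [AddCommGroup A] [DistribMulAction G A] (i : ι) :
    (ι → A) →+[G] A where
  toFun f := f i
  map_smul' _ _ := rfl
  map_zero' := rfl
  map_add' _ _ := rfl

/-- the relations of the sum of the values -/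
noncomputable def sig (V : Subgroup G) [V.Normal] [Fintype (G ⧸ V)] (A : Type) [AddCommGroup A]
    [DistribMulAction G A] : (G ⧸ V → Fn (G ⧸ V) A) →+[G] Fn (G ⧸ V) A where
  toFun f := ∑ c, (rho V A c.out (f c) - f c)
  map_smul' g f := by
    simp only [Pi.smul_apply, map_smul, Finset.smul_sum, smul_sub, MonoidHom.id_apply]
  map_zero' := by simp
  map_add' f f' := by
    simp only [Pi.add_apply, map_add, ← Finset.sum_add_distrib, add_sub_add_comm]

theorem sig_ap (V : Subgroup G) [V.Normal] [Fintype (G ⧸ V)] (f : G ⧸ V → Fn (G ⧸ V) A) :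
    sig V A f = ∑ c, (rho V A c.out (f c) - f c) := rfl

theorem tot_sig (V : Subgroup G) [V.Normal] [Fintype (G ⧸ V)] (f : G ⧸ V → Fn (G ⧸ V) A) :
    tot G (G ⧸ V) A (sig V A f) = 0 := by
  simp only [sig_ap, map_sum, map_sub, tot_rho, sub_self, Finset.sum_const_zero]

theorem sig_onto (V : Subgroup G) [V.Normal] [Fintype (G ⧸ V)] (F : Fn (G ⧸ V) A)
    (h : tot G (G ⧸ V) A F = 0) : ∃ f, sig V A f = F := by
  classical
  refine ⟨fun c => Fn.mk fun x => if x = c then -F c else 0, Fn.ext fun x => ?_⟩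
  rw [tot_apply] at h
  simp only [sig_ap, Fn.sum_apply, Fn.sub_apply, rho_ap, QuotientGroup.out_eq', mul_eq_right,
    Finset.sum_sub_distrib, Finset.sum_ite_eq, Finset.mem_univ, if_true]
  split_ifs <;> simp [h]

variable [TopologicalSpace G] [IsTopologicalGroup G] {p d : ℕ}

theorem discMod_pi {ι : Type} [Finite ι] [DiscMod G A] : DiscMod G (ι → A) := ⟨fun f => by
  have : {g : G | g • f = f} = ⋂ i, {g : G | g • f i = f i} := by
    ext g
    simp [funext_iff]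
  rw [this]
  exact isOpen_iInter_of_finite fun i => DiscMod.isOpen_stab _⟩

theorem lift (hcd : CD G p d) [DiscMod G A] (hA : ∀ a : A, p • a = 0) (q : A →+[G] C)
    (hq : Function.Surjective q) {F : (Fin (d + 1) → G) → C} (hF : F ∈ ZZ G C d) :
    ∃ Y ∈ ZZ G A d, q ∘ Y = F :=
  lift_cocycle (Ker.inc q) q (Ker.inc_injective q) hq (Ker.map_inc q) (Ker.exact q)
    (hcd _ (Ker.nsmul_eq_zero q hA)) hF

/-- if the translations act trivially, the sum of the values is injective in the top degree -/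
theorem key (hcd : CD G p d) [DiscMod G A] (hA : ∀ a : A, p • a = 0) {V : Subgroup G} [V.Normal]
    [Finite (G ⧸ V)] (hV : IsOpen (V : Set G))
    (h : ∀ Y ∈ ZZ G (Fn (G ⧸ V) A) d, ∀ g, rho V A g ∘ Y - Y ∈ BB G _ d)
    {Y : (Fin (d + 1) → G) → Fn (G ⧸ V) A} (hY : Y ∈ ZZ G _ d)
    (h0 : tot G (G ⧸ V) A ∘ Y ∈ BB G A d) : Y ∈ BB G _ d := by
  have := Fintype.ofFinite (G ⧸ V)
  have : DiscMod G (Fn (G ⧸ V) A) := discMod_FnQ hV
  have : DiscMod G (G ⧸ V → Fn (G ⧸ V) A) := discMod_pi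
  obtain ⟨y, h1, h2⟩ := exact_mid (Ker.inc _) _ (Ker.inc_injective _) tot_surjective (Ker.exact _)
    hY h0
  obtain ⟨X, h3, rfl⟩ := lift hcd (fun f => funext fun c => Fn.nsmul_eq_zero hA (f c))
    (toKer (sig V A) _ (tot_sig V)) (fun z => by
      obtain ⟨f, hf⟩ := sig_onto V _ (Ker.map_inc _ z)
      exact ⟨f, Ker.inc_injective _ hf⟩) h1
  have h4 : Ker.inc _ ∘ (toKer (sig V A) _ (tot_sig V) ∘ X) =
      ∑ c, (rho V A c.out ∘ (prj G _ c ∘ X) - prj G _ c ∘ X) := funext fun x => by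
    rw [Finset.sum_apply]
    rfl
  have h5 := add_mem h2 (h4 ▸ sum_mem fun c _ => h _ (ZZ.map h3 _) _)
  rwa [sub_add_cancel] at h5

variable [Fact p.Prime]

theorem uniq [Module (ZMod p) A] {w : (Fin (d + 1) → G) → A} (hw : w ∉ BB G A d)
    {F : (Fin (d + 1) → G) → A} {a a' : ZMod p} (h : F - a • w ∈ BB G A d)
    (h' : F - a' • w ∈ BB G A d) : a = a' := by
  by_contra hne
  have h1 := ZMod.smul_mem (sub_mem h' h) (a - a')⁻¹
  rw [sub_sub_sub_cancel_left, ← sub_smul, inv_smul_smul₀ (sub_ne_zero.2 hne)] at h1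
  exact hw h1

theorem dim [Module (ZMod p) A] (h : Dim1 G A d) {w : (Fin (d + 1) → G) → A} (h1 : w ∈ ZZ G A d)
    (hw : w ∉ BB G A d) : ∀ F ∈ ZZ G A d, ∃ a : ZMod p, F - a • w ∈ BB G A d := fun F hF => by
  obtain ⟨n, hn⟩ := h F hF w h1 hw
  exact ⟨n, by rwa [Nat.cast_smul_eq_nsmul]⟩

variable {V : Subgroup G} [Module (ZMod p) A] {w : (Fin (d + 1) → G) → Fn (G ⧸ V) (Triv G p)}

theorem rep [Finite A] (h : Tr V A)
    (hw : ∀ F ∈ ZZ G (Fn (G ⧸ V) (Triv G p)) d, ∃ a : ZMod p, F - a • w ∈ BB G _ d)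
    {Y : (Fin (d + 1) → G) → Fn (G ⧸ V) A} (hY : Y ∈ ZZ G _ d) :
    ∃ m, Y - JJ h w m ∈ BB G _ d := by
  obtain ⟨n, ⟨b⟩⟩ := ex_basis p A
  choose a ha using fun i => hw _ (ZZ.map hY (kap h (b.coord i)))
  refine ⟨∑ i, a i • b i, ?_⟩
  have h1 := sum_mem fun i (_ : i ∈ Finset.univ) => BB.map (ha i) (jm h (b i))
  simp only [comp_sub_G, comp_sc, Finset.sum_sub_distrib, ← comp_dec h b Y] at h1
  simpa only [map_sum, map_smul, JJ_ap] using h1

theorem rho_JJ [V.Normal] (h : Tr V A) {g : G} {a : ZMod p}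
    (hw : rho V (Triv G p) g ∘ w - a • w ∈ BB G _ d) (m : A) :
    rho V A g ∘ JJ h w m - JJ h w (a • g • m) ∈ BB G _ d := by
  have h1 := BB.map hw (jm h (g • m))
  rw [comp_sub_G, comp_sc] at h1
  rw [map_smul, JJ_ap, JJ_ap]
  exact (funext fun x => rho_jm h g m (w x) : rho V A g ∘ jm h m ∘ w = _) ▸ h1

end TopH

open TopH

theorem top : TOP := by
  intro p d _ G _ _ _ _ _ _ U hU hcd hT
  by_cases hA : ∀ (V : Subgroup G) [V.Normal], IsOpen (V : Set G) → V ≤ U →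
      ZZ G (Fn (G ⧸ V) (Triv G p)) d ≤ BB G _ d
  · refine ⟨1, by simp, fun M _ _ _ _ hM F hF _ => ?_⟩
    obtain ⟨_⟩ : Nonempty (Module (ZMod p) M) := ⟨AddCommGroup.zmodModule hM⟩
    obtain ⟨V, _, h1, h2, h3⟩ := exists_normal_triv U hU M
    have : Finite (G ⧸ V) := Subgroup.quotient_finite_of_isOpen _ h1
    have : DiscMod G (Fn (G ⧸ V) M) := discMod_FnQ h1
    obtain ⟨Y, hY, rfl⟩ := lift hcd (Fn.nsmul_eq_zero hM) (tot G (G ⧸ V) M) tot_surjective hF
    obtain ⟨n, ⟨b⟩⟩ := ex_basis p M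
    refine BB.map ?_ _
    rw [comp_dec h3 b Y]
    exact sum_mem fun i _ => BB.map (hA V h1 h2 (ZZ.map hY _)) _
  push Not at hA
  obtain ⟨V₀, _, o₀, u₀, hA⟩ := hA
  obtain ⟨w₀, z₀, n₀⟩ := SetLike.not_le_iff_exists.1 hA
  choose c hc using fun g => dim (p := p) (hT V₀ o₀ u₀) z₀ n₀ _ (ZZ.map z₀ (rho V₀ (Triv G p) g))
  have c1 : ∀ g ∈ V₀, c g = 1 := fun g hg => uniq n₀ (hc g) (by
    rw [show rho V₀ (Triv G p) g ∘ w₀ = w₀ from funext fun x => rho_mem hg _, one_smul, sub_self]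
    exact zero_mem _)
  let χ₀ : G →* ZMod p :=
    { toFun := c
      map_one' := c1 1 V₀.one_mem
      map_mul' := fun g g' => uniq n₀ (hc (g * g')) (by
        have h1 := add_mem (BB.map (hc g') (rho V₀ (Triv G p) g)) (ZMod.smul_mem (hc g) (c g'))
        rw [comp_sub_G, comp_sc, smul_sub, sub_add_sub_cancel, smul_smul, mul_comm] at h1
        exact (funext fun x => rho_mul g g' (w₀ x) : rho V₀ (Triv G p) (g * g') ∘ w₀ = _) ▸ h1) }
  let χ : G →* (ZMod p)ˣ := χ₀.toHomUnits⁻¹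
  have hχ : ∀ g, c g * (χ g : ZMod p) = 1 := fun g => (χ₀.toHomUnits g).mul_inv
  have hk : V₀ ≤ χ.ker := fun g hg => Units.ext (by simpa [c1 g hg] using hχ g)
  have oχ : IsOpen (χ.ker : Set G) := Subgroup.isOpen_mono hk o₀
  refine ⟨χ, oχ, fun M _ _ _ _ hM F hF hφ => ?_⟩
  obtain ⟨_⟩ : Nonempty (Module (ZMod p) M) := ⟨AddCommGroup.zmodModule hM⟩
  obtain ⟨V, _, h1, h2, h3⟩ := exists_normal_triv V₀ o₀ M
  have : Finite (G ⧸ V) := Subgroup.quotient_finite_of_isOpen _ h1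
  have : DiscMod G (Fn (G ⧸ V) M) := discMod_FnQ h1
  have : DiscMod G (Fn (G ⧸ V) (Triv G p)) := discMod_FnQ h1
  have := discMod_Tw χ oχ
  obtain ⟨w, z, e⟩ := lift hcd (Fn.nsmul_eq_zero (Tw.nsmul_eq_zero _)) (pushQ h2 (Triv G p))
    (pushQ_surjective h2) z₀
  have n : w ∉ BB G _ d := fun h => n₀ (e ▸ BB.map h _)
  have dm := dim (p := p) (hT V h1 (h2.trans u₀)) z n
  have hw : ∀ g, rho V (Triv G p) g ∘ w - c g • w ∈ BB G _ d := fun g => by
    obtain ⟨a, ha⟩ := dm _ (ZZ.map z (rho V (Triv G p) g))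
    have h4 := BB.map ha (pushQ h2 (Triv G p))
    rw [comp_sub_G, comp_sc, e, show pushQ h2 (Triv G p) ∘ rho V (Triv G p) g ∘ w =
      rho V₀ (Triv G p) g ∘ pushQ h2 (Triv G p) ∘ w from funext fun x => push_rho h2 g _, e] at h4
    rwa [uniq n₀ (hc g) h4]
  obtain ⟨Y, hY, rfl⟩ := lift hcd (Fn.nsmul_eq_zero hM) (tot G (G ⧸ V) M) tot_surjective hF
  obtain ⟨m, hm⟩ := rep h3 dm hY
  let N : Submodule (ZMod p) M :=
    { carrier := {m | tot G (G ⧸ V) M ∘ JJ h3 w m ∈ BB G M d}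
      zero_mem' := by simp only [Set.mem_ofPred_eq, map_zero, comp_zero_G, zero_mem]
      add_mem' := fun k k' => by
        simpa only [Set.mem_ofPred_eq, map_add, comp_add_G] using add_mem k k'
      smul_mem' := fun a _ k => by
        simpa only [Set.mem_ofPred_eq, map_smul, comp_sc] using ZMod.smul_mem k a }
  have hm' := BB.map hm (tot G (G ⧸ V) M)
  rw [comp_sub_G] at hm'
  by_cases hN : m ∈ N
  · simpa using add_mem hm' hN
  exfalso
  obtain ⟨l, l1, l2⟩ := N.exists_dual_map_eq_bot_of_notMem hN inferInstance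
  have l3 : ∀ (g : G) (x : M), l (g • x) = χ g * l x := fun g x => by
    have h4 := BB.map (rho_JJ h3 (hw g) x) (tot G (G ⧸ V) M)
    rw [comp_sub_G, show tot G (G ⧸ V) M ∘ rho V M g ∘ JJ h3 w x = tot G (G ⧸ V) M ∘ JJ h3 w x from
      funext fun y => tot_rho g _, ← comp_sub_G, ← map_sub] at h4
    have h5 : l (x - c g • g • x) = 0 := (Submodule.eq_bot_iff _).1 l2 _ ⟨_, h4, rfl⟩
    rw [map_sub, map_smul, smul_eq_mul, sub_eq_zero] at h5
    rw [h5, ← mul_assoc, mul_comm _ (c g), hχ, one_mul]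
  let φ : M →+[G] Tw χ :=
    { toFun := fun x => (valL χ).symm (l x)
      map_smul' := l3
      map_zero' := map_zero l
      map_add' := map_add l }
  have hI : Tr V (Tw χ) := fun v hv a => (Tw.val χ).injective (by
    rw [Tw.val_smul, MonoidHom.mem_ker.1 (hk (h2 hv)), Units.val_one, one_mul])
  have k1 : tot G (G ⧸ V) (Tw χ) ∘ JJ hI w (φ m) ∈ BB G _ d := by
    have h4 := sub_mem (hφ φ) (BB.map hm' φ)
    rw [comp_sub_G, sub_sub_cancel] at h4
    have h5 : tot G (G ⧸ V) (Tw χ) ∘ JJ hI w (φ m) = φ ∘ tot G (G ⧸ V) M ∘ JJ h3 w m :=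
      funext fun y => (congrArg _ (map_jm h3 hI φ m (w y)).symm).trans (tot_map φ _)
    rwa [h5]
  have k2 := key hcd (Tw.nsmul_eq_zero χ) h1 (fun X hX g => by
    obtain ⟨a, ha⟩ := rep hI dm hX
    have h4 := rho_JJ hI (hw g) a
    rw [show c g • g • a = a from (valL χ).injective (by
      change c g * (χ g * valL χ a) = _
      rw [← mul_assoc, hχ, one_mul])] at h4
    have h5 := sub_mem (add_mem (BB.map ha (rho V (Tw χ) g)) h4) ha
    rwa [comp_sub_G, sub_add_sub_cancel, sub_sub_sub_cancel_right] at h5)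
    (ZZ.map z (jm hI (φ m))) k1
  have k3 := BB.map k2 (kap hI ((l m)⁻¹ • (valL χ).toLinearMap))
  have k4 : kap hI ((l m)⁻¹ • (valL χ).toLinearMap) ∘ jm hI (φ m) ∘ w = w :=
    funext fun y => kap_jm hI ((l m)⁻¹ • (valL χ).toLinearMap) (m := φ m) (inv_mul_cancel₀ l1) (w y)
  exact n (k4 ▸ k3)

end Vale.Agent.P261Z.D
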