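import Vale.Agent.P261Z.D.Sk

/-!
# P261, block D: the transposed differential
-/

set_option linter.unusedSectionVars false

namespace Vale.Agent.P261Z.D

open Vale.Agent.P251 Vale.Agent.P251.C MonoidAlgebra NpData

namespace TrH

variable {p d : ℕ} {U : Type} [Group U]

theorem trp_apply (Φ : Finset (Fin d) → VV p d U →ₗ[ZMod p] ZMod p) (T : Finset (Fin d))
    (F : VV p d U) : trp Φ T F =
      ∑ S, eta' p T * eta' p S * Φ Sᶜ (Pi.single Tᶜ fun x => F S x⁻¹) := by
  unfold trp
  rw [LinearMap.sum_apply]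
  rfl

/-- the functional on one component -/
noncomputable def phi (Φ : Finset (Fin d) → VV p d U →ₗ[ZMod p] ZMod p) (T S : Finset (Fin d)) :
    (U → ZMod p) →ₗ[ZMod p] ZMod p :=
  Φ T ∘ₗ LinearMap.single (ZMod p) (fun _ : Finset (Fin d) => U → ZMod p) S

theorem phi_apply (Φ : Finset (Fin d) → VV p d U →ₗ[ZMod p] ZMod p) (T S : Finset (Fin d))
    (f : U → ZMod p) : Φ T (Pi.single S f) = phi Φ T S f := rfl

theorem fubini {k C : Type} [CommRing k] [Finite C] (π : U → C) (h : C → U → k)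
    (l m : (U → k) →ₗ[k] k) :
    l (fun x => m (h (π x))) = m fun y => l fun x => h (π x) y := by
  classical
  have := Fintype.ofFinite C
  obtain ⟨w, hw⟩ : ∃ w : C → k, ∀ g : C → k, l (fun x => g (π x)) = ∑ c, g c * w c :=
    ⟨_, fun g => LinearMap.pi_apply_eq_sum_univ (l ∘ₗ LinearMap.funLeft k k π) g⟩
  have e : (fun y => l fun x => h (π x) y) = ∑ c, w c • h c := by
    funext y
    rw [hw fun c => h c y, Finset.sum_apply]
    exact Finset.sum_congr rfl fun c _ => mul_comm _ _
  rw [hw fun c => m (h c), e, map_sum]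
  exact Finset.sum_congr rfl fun c _ => by rw [map_smul, smul_eq_mul, mul_comm]

/-! ### signs -/

theorem eta_sq (T : Finset (Fin d)) : eta' p T * eta' p T = 1 := by
  unfold eta'
  rw [← Finset.prod_mul_distrib]
  exact Finset.prod_eq_one fun i _ => by rw [neg_mul_neg, ← mul_pow]; simp

theorem sign {T : Finset (Fin d)} {i : Fin d} (hi : i ∈ T) :
    eta' p T * eta' p (T.erase i) * sg (ZMod p) i (T.erase i)ᶜ = -sg (ZMod p) i T := by
  have h1 : eta' p T = -(-1) ^ (i : ℕ) * eta' p (T.erase i) :=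
    (Finset.mul_prod_erase T (fun i : Fin d => -(-1 : ZMod p) ^ (i : ℕ)) hi).symm
  have h2 : (T.filter (· < i)).card + ((T.erase i)ᶜ.filter (· < i)).card = i := by
    rw [← Fin.card_Iio i, ← Finset.card_union_of_disjoint]
    · congr 1
      ext j
      simp only [Finset.mem_union, Finset.mem_filter, Finset.mem_compl, Finset.mem_erase,
        Finset.mem_Iio]
      tauto
    · refine Finset.disjoint_left.2 fun j h h' => ?_
      simp only [Finset.mem_filter, Finset.mem_compl, Finset.mem_erase] at h h'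
      exact h'.1 ⟨h.2.ne, h.1⟩
  rw [h1, mul_assoc (-_), eta_sq, mul_one, ← h2, pow_add, sg, sg, neg_mul, mul_assoc, ← mul_pow]
  simp

/-! ### the antipode -/

/-- the antipode with values in the opposite algebra -/
noncomputable def ant (p : ℕ) (U : Type) [Group U] : A p U →ₐ[ZMod p] (A p U)ᵐᵒᵖ :=
  MonoidAlgebra.lift (ZMod p) (A p U)ᵐᵒᵖ U
    { toFun := fun g => MulOpposite.op (of (ZMod p) U g⁻¹)
      map_one' := by rw [inv_one, map_one, MulOpposite.op_one]
      map_mul' := fun g h => by rw [mul_inv_rev, map_mul, MulOpposite.op_mul] }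

theorem ant_of (g : U) : (ant p U (of (ZMod p) U g)).unop = of (ZMod p) U g⁻¹ := by
  unfold ant
  rw [MonoidAlgebra.lift_of]
  rfl

theorem ant_dl (g : U) : (ant p U (dl p g)).unop = dl p g⁻¹ := by
  unfold NpData.dl
  rw [map_sub, map_one, MulOpposite.unop_sub, ant_of, MulOpposite.unop_one]

theorem pair_inv (f : U → ZMod p) (a : A p U) :
    pair (fun x => f x⁻¹) a = pair f (ant p U a).unop := by
  induction a using MonoidAlgebra.induction_on with
  | of g => rw [ant_of, pair_of, pair_of]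
  | add a b ha hb => rw [map_add, map_add, MulOpposite.unop_add, map_add, ha, hb]
  | smul r a ha => rw [map_smul, map_smul, MulOpposite.unop_smul, map_smul, ha]

variable (D : NpData p d U)

theorem g_mem (i : Fin d) : D.g i ∈ D.P (D.wt i) := by simpa using D.g_mem i 0

theorem ant_gword (l : List (Fin d)) : (ant p U (D.gword l)).unop ∈ D.I (D.lwt l) := by
  induction l with
  | nil => simpa [gword, lwt] using D.one_mem
  | cons i l ih =>
    have h1 : D.gword (i :: l) = dl p (D.g i) * D.gword l := by simp [gword, X]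
    have h2 : D.lwt (i :: l) = D.lwt l + D.wt i := by simp [lwt, add_comm]
    rw [h1, h2, map_mul, MulOpposite.unop_mul, ant_dl]
    exact D.mul_mem ih (D.dl_mem (inv_mem (g_mem D i)))

theorem ant_mono (α : Fin d → ℕ) : (ant p U (D.mono α)).unop ∈ D.I (D.mwt α) :=
  D.lwt_can α ▸ ant_gword D _

theorem mono_eps (i : Fin d) : D.mono (eps i) = dl p (D.g i) := by
  have h4 : can (eps i) = [i] := by
    rw [← List.perm_singleton, List.perm_iff_count]
    intro j
    rw [count_can, List.count_singleton]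
    by_cases h : i = j
    · subst h; simp
    · simp [h, Ne.symm h]
  unfold mono gword
  rw [h4]
  simp [X]

variable {D}

theorem inv_single {M : ℕ} {f : U → ZMod p} (hf : D.Inv M f) (T R : Finset (Fin d)) :
    D.Inv M ((Pi.single T fun x => f x⁻¹ : VV p d U) R) := by
  by_cases h : R = T
  · rw [h, Pi.single_eq_same]
    exact fun u hu x => (congrArg f (mul_inv_rev u x)).trans (Inv.right D hf (inv_mem hu) _)
  · rw [Pi.single_eq_of_ne h]
    exact fun _ _ _ => rfl

variable [Fact p.Prime] {Φ : Finset (Fin d) → VV p d U →ₗ[ZMod p] ZMod p}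

theorem single_zero (h : D.Good d Φ) {T S : Finset (Fin d)} (e : S.card + 1 ≠ T.card)
    (f : U → ZMod p) : Φ T (Pi.single S f) = 0 := by
  have : pr p d U T.card (Pi.single S f) = 0 := by
    funext R
    rw [pr_apply]
    split_ifs with h1
    · exact Pi.single_eq_of_ne (fun e' : R = S => e (e' ▸ h1)) _
    · rfl
  rw [← h.loc, this, map_zero]

theorem swt_compl (T : Finset (Fin d)) : D.swt T + D.swt Tᶜ = ∑ i, D.wt i :=
  Finset.sum_add_sum_compl T _

theorem single_Fil {T : Finset (Fin d)} {F : VV p d U} (hF : F ∈ D.Fil (D.swt T))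
    (S : Finset (Fin d)) : (Pi.single Tᶜ fun x => F S x⁻¹ : VV p d U) ∈ D.Fil (D.swt Sᶜ) := by
  obtain ⟨M, hM⟩ := hF.1
  refine ⟨⟨M, inv_single (hM S) _⟩, fun R α h => ?_⟩
  by_cases e : R = Tᶜ
  · rw [e, Pi.single_eq_same, pair_inv]
    have h1 := swt_compl (D := D) T
    have h2 := swt_compl (D := D) S
    rw [e] at h
    exact D.pair_eq_zero_of_Fil hF (by omega) (ant_mono D α)
  · rw [Pi.single_eq_of_ne e, pair_zero_left]

theorem pair_eps {T : Finset (Fin d)} {F : VV p d U} (hF : F ∈ D.Fil (D.swt T)) {i : Fin d}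
    (hi : i ∈ T) : pair (fun x => F (T.erase i) x⁻¹) (D.mono (eps i)) =
      -pair (F (T.erase i)) (D.mono (eps i)) := by
  have h1 : dl p (D.g i)⁻¹ = -dl p (D.g i) - dl p (D.g i)⁻¹ * dl p (D.g i) := by
    have : of (ZMod p) U (D.g i)⁻¹ * of (ZMod p) U (D.g i) = 1 := by
      rw [← map_mul, inv_mul_cancel, map_one]
    simp only [NpData.dl, sub_mul, mul_sub, one_mul, mul_one, this]
    abel
  have h2 := D.swt_erase hi
  have h3 := D.wt_pos i
  rw [pair_inv, mono_eps, ant_dl, h1, map_sub, map_neg, D.pair_eq_zero_of_Fil hF (by omega)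
    (D.mul_mem (D.dl_mem (inv_mem (g_mem D i))) (D.dl_mem (g_mem D i))), sub_zero]

theorem symb (h : D.Good d Φ) (T : Finset (Fin d)) {F : VV p d U} (hF : F ∈ D.Fil (D.swt T)) :
    trp Φ T F = theta D T F := by
  have hd : ∀ S : Finset (Fin d), S.card ≤ d := fun S => by simpa using S.card_le_univ
  rw [trp_apply, theta_apply]
  simp only [fun S => h.symb _ (hd _) _ (single_Fil hF S), theta_apply, Finset.mul_sum]
  rw [Finset.sum_comm' (t' := Finset.univ) (s' := fun i => Finset.univ.filter (i ∉ ·))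
    (fun S i => by simp), ← Finset.sum_subset (Finset.subset_univ T)]
  · refine Finset.sum_congr rfl fun i hi => ?_
    rw [Finset.sum_eq_single (T.erase i)]
    · have e : (T.erase i)ᶜ.erase i = Tᶜ := by
        rw [Finset.compl_erase, Finset.erase_insert (by simpa using hi)]
      rw [e, Pi.single_eq_same, pair_eps hF hi, ← mul_assoc, sign hi, neg_mul_neg]
    · intro S hS e
      rw [Pi.single_eq_of_ne, pair_zero_left, mul_zero, mul_zero]
      intro e'
      apply e
      rw [← Finset.compl_insert, compl_inj_iff] at e'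
      rw [← e', Finset.erase_insert (Finset.mem_filter.1 hS).2]
    · intro e
      exact absurd (by simp) e
  · intro i _ hi
    refine Finset.sum_eq_zero fun S _ => ?_
    rw [Pi.single_eq_of_ne, pair_zero_left, mul_zero, mul_zero]
    intro e'
    exact Finset.notMem_erase i Sᶜ (e' ▸ Finset.mem_compl.2 hi)

theorem swap {M : ℕ} [Finite (U ⧸ D.P M)] {f : U → ZMod p} (hf : D.Inv M f)
    (l m : (U → ZMod p) →ₗ[ZMod p] ZMod p) :
    l (fun x => m fun y => f (x⁻¹ * y⁻¹)) = m fun y => l fun x => f (x⁻¹ * y⁻¹) := by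
  have e : ∀ x y : U, f (x⁻¹ * y⁻¹) = f ((x : U ⧸ D.P M).out⁻¹ * y⁻¹) := fun x y => by
    obtain ⟨u, hu⟩ := QuotientGroup.mk_out_eq_mul (D.P M) x
    rw [hu, mul_inv_rev, mul_assoc, hf _ (inv_mem u.2)]
  simpa only [← e] using
    fubini (fun x : U => (x : U ⧸ D.P M)) (fun c y => f (c.out⁻¹ * y⁻¹)) l m

theorem sq (hfin : ∀ M, Finite (U ⧸ D.P M)) (h : D.Good d Φ) (T : Finset (Fin d)) {F : VV p d U}
    (hF : F ∈ D.NN) : trp Φ T (op (trp Φ) F) = 0 := by
  obtain ⟨M, hM⟩ := hF
  have := hfin M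
  have h1 : ∀ S, (fun x => op (trp Φ) F S x⁻¹) = ∑ Q, (eta' p S * eta' p Q) •
      fun x => phi Φ Qᶜ Sᶜ fun y => F Q (x⁻¹ * y⁻¹) := fun S => by
    funext x
    rw [op_apply, trp_apply, Finset.sum_apply]
    simp only [tau_apply, inv_inv, phi_apply, Pi.smul_apply, smul_eq_mul]
  have h2 : ∀ Q, ∑ S, phi Φ Sᶜ Tᶜ (fun x => phi Φ Qᶜ Sᶜ fun y => F Q (x⁻¹ * y⁻¹)) = 0 := by
    intro Q
    have h3 := h.sq Qᶜ _ ⟨M, inv_single (hM Q) Tᶜ⟩
    rw [← Finset.univ_sum_single (op Φ _), map_sum, ← compl_bijective.sum_comp] at h3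
    rw [← h3]
    refine Finset.sum_congr rfl fun S _ => ?_
    rw [swap (hM Q), phi_apply]
    congr 1
    funext y
    rw [op_apply, ← phi_apply]
    congr 1
    funext R x
    by_cases e : R = Tᶜ
    · rw [tau_apply, e, Pi.single_eq_same, Pi.single_eq_same, inv_inv, mul_inv_rev]
    · rw [tau_apply, Pi.single_eq_of_ne e, Pi.single_eq_of_ne e]
      rfl
  rw [trp_apply]
  simp only [h1, phi_apply, map_sum, map_smul, smul_eq_mul, Finset.mul_sum]
  rw [Finset.sum_comm]
  refine Finset.sum_eq_zero fun Q _ => ?_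
  rw [← mul_zero (eta' p T * eta' p Q), ← h2 Q, Finset.mul_sum]
  refine Finset.sum_congr rfl fun S _ => ?_
  linear_combination (eta' p T * eta' p Q *
    phi Φ Sᶜ Tᶜ fun x => phi Φ Qᶜ Sᶜ fun y => F Q (x⁻¹ * y⁻¹)) * eta_sq (p := p) S

end TrH

open TrH

theorem tr : TR := by
  intro p d _ U _ D Φ hfin h
  have hd : ∀ S : Finset (Fin d), S.card ≤ d := fun S => by simpa using S.card_le_univ
  refine ⟨fun T hT => absurd (hd T) hT.not_ge, fun T F => ?_, fun T _ F hF => symb h T hF,
    fun T F hF => sq hfin h T hF⟩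
  rw [trp_apply, trp_apply]
  refine Finset.sum_congr rfl fun S _ => ?_
  by_cases e : S.card + 1 = T.card
  · rw [pr_of_eq e]
  · have e' : Tᶜ.card + 1 ≠ Sᶜ.card := by
      have h1 := hd S
      have h2 := hd T
      rw [Finset.card_compl, Finset.card_compl, Fintype.card_fin]
      omega
    rw [single_zero h e', single_zero h e']

end Vale.Agent.P261Z.D
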