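import Vale.Agent.P261Z.D.Basic

/-!
# P261, block D: zigzags through an acyclic resolution

A resolution in total form (`Cx`), the relation `Zz` between a cocycle of degree `n` and an
invariant element of degree `n` of the resolution, and its properties.
-/

set_option linter.unusedSectionVars false

namespace Vale.Agent.P261Z.D.Zig

open Vale.Agent.P251 Vale.Agent.P251.C

/-- A complex of acyclic modules in total form, exact in positive degrees. -/
structure Cx (G J : Type) [Group G] [TopologicalSpace G] [AddCommGroup J]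
    [DistribMulAction G J] where
  /-- the differential -/
  del : J →+[G] J
  /-- the homogeneous parts -/
  Dgr : ℕ → AddSubgroup J
  stable : ∀ i (g : G) x, x ∈ Dgr i → g • x ∈ Dgr i
  del_del : ∀ x, del (del x) = 0
  del_mem : ∀ i x, x ∈ Dgr i → del x ∈ Dgr (i + 1)
  exa : ∀ i x, x ∈ Dgr (i + 1) → del x = 0 → ∃ y ∈ Dgr i, del y = x
  acyc : ∀ i n (X : (Fin (n + 1 + 1) → G) → J), IsCoch G X → dd X = 0 → (∀ x, X x ∈ Dgr i) →
    ∃ L : (Fin (n + 1) → G) → J, IsCoch G L ∧ dd L = X ∧ ∀ x, L x ∈ Dgr i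

variable {G : Type} [Group G] [TopologicalSpace G] {J J' M : Type} [AddCommGroup J]
  [DistribMulAction G J] [AddCommGroup J'] [DistribMulAction G J'] [AddCommGroup M]
  [DistribMulAction G M]

/-- The zigzag from a cochain of degree `n` with values in degree `i` to an element `z`. -/
def Cx.Zz (C : Cx G J) : ∀ (n : ℕ) (_ : ℕ), ((Fin (n + 1) → G) → J) → J → Prop
  | 0, _, X, z => ∀ x, X x = z
  | n + 1, i, X, z => ∃ L : (Fin (n + 1) → G) → J, IsCoch G L ∧ dd L = X ∧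
      (∀ x, L x ∈ C.Dgr i) ∧ C.Zz n (i + 1) (C.del ∘ L) z

theorem zig_zero (C : Cx G J) (i : ℕ) (X : (Fin (0 + 1) → G) → J) (z : J) :
    C.Zz 0 i X z ↔ ∀ x, X x = z := Iff.rfl

theorem zig_succ (C : Cx G J) (n i : ℕ) (X : (Fin (n + 1 + 1) → G) → J) (z : J) :
    C.Zz (n + 1) i X z ↔ ∃ L : (Fin (n + 1) → G) → J, IsCoch G L ∧ dd L = X ∧
      (∀ x, L x ∈ C.Dgr i) ∧ C.Zz n (i + 1) (C.del ∘ L) z := Iff.rfl

theorem dd_mem (A : AddSubgroup J) {n : ℕ} {Y : (Fin n → G) → J} (h : ∀ x, Y x ∈ A)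
    (x : Fin (n + 1) → G) : dd Y x ∈ A :=
  A.sum_mem fun _ _ => A.zsmul_mem (h _) _

/-- Existence of the zigzag. -/
theorem exists_zig (C : Cx G J) (n : ℕ) : ∀ (i : ℕ) (X : (Fin (n + 1) → G) → J),
    X ∈ ZZ G J n → (∀ x, X x ∈ C.Dgr i) → (∀ x, C.del (X x) = 0) →
    ∃ z, (∀ g : G, g • z = z) ∧ z ∈ C.Dgr (i + n) ∧ C.del z = 0 ∧ C.Zz n i X z := by
  induction n with
  | zero =>
    intro i X hX h1 h2
    exact ⟨X fun _ => 1, fun g => ZZ.inv hX g _, h1 _, h2 _, fun x => ZZ.const hX _ _⟩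
  | succ n ih =>
    intro i X hX h1 h2
    obtain ⟨L, hL, hdL, hLi⟩ := C.acyc i n X hX.1 hX.2 h1
    have h3 : C.del ∘ L ∈ ZZ G J n := by
      refine ⟨hL.map C.del, ?_⟩
      rw [dd_comp_G, hdL]
      exact funext h2
    obtain ⟨z, hz1, hz2, hz3, hz4⟩ := ih (i + 1) (C.del ∘ L) h3
      (fun x => C.del_mem i _ (hLi x)) (fun x => C.del_del _)
    refine ⟨z, hz1, ?_, hz3, L, hL, hdL, hLi, hz4⟩
    rwa [show i + (n + 1) = i + 1 + n by omega]

theorem zig_sub (C : Cx G J) (n : ℕ) : ∀ (i : ℕ) (X X' : (Fin (n + 1) → G) → J) (z z' : J),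
    C.Zz n i X z → C.Zz n i X' z' → C.Zz n i (X - X') (z - z') := by
  induction n with
  | zero =>
    intro i X X' z z' h h' x
    rw [Pi.sub_apply, h x, h' x]
  | succ n ih =>
    rintro i X X' z z' ⟨L, hL, hdL, hLi, hz⟩ ⟨L', hL', hdL', hLi', hz'⟩
    refine ⟨L - L', hL.sub hL', by rw [dd_sub, hdL, hdL'], fun x => sub_mem (hLi x) (hLi' x), ?_⟩
    rw [comp_sub_G]
    exact ih _ _ _ _ _ hz hz'

theorem zig_null (C : Cx G J) (n : ℕ) : ∀ i : ℕ, C.Zz n i 0 0 := by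
  induction n with
  | zero => exact fun _ _ => rfl
  | succ n ih =>
    intro i
    refine ⟨0, IsCoch.zero, dd_zero, fun _ => zero_mem _, ?_⟩
    rw [comp_zero_G]
    exact ih _

theorem zig_nsmul (C : Cx G J) {n i : ℕ} {X : (Fin (n + 1) → G) → J} {z : J}
    (h : C.Zz n i X z) (k : ℕ) : C.Zz n i (k • X) (k • z) := by
  induction k with
  | zero =>
    rw [zero_smul, zero_smul]
    exact zig_null C n i
  | succ k ih =>
    have h1 := zig_sub C n i _ _ _ _ ih (zig_sub C n i _ _ _ _ (zig_null C n i) h)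
    rwa [zero_sub, zero_sub, sub_neg_eq_add, sub_neg_eq_add, ← succ_nsmul, ← succ_nsmul] at h1

/-- Naturality. -/
theorem zig_map (C' : Cx G J') (C : Cx G J) (w : J' →+[G] J)
    (hw : ∀ x, w (C'.del x) = C.del (w x)) (hw' : ∀ i x, x ∈ C'.Dgr i → w x ∈ C.Dgr i) (n : ℕ) :
    ∀ (i : ℕ) (X : (Fin (n + 1) → G) → J') (z : J'), C'.Zz n i X z →
      C.Zz n i (w ∘ X) (w z) := by
  induction n with
  | zero =>
    intro i X z h x
    exact congrArg w (h x)
  | succ n ih =>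
    rintro i X z ⟨L, hL, hdL, hLi, hz⟩
    refine ⟨w ∘ L, hL.map w, by rw [dd_comp_G, hdL], fun x => hw' i _ (hLi x), ?_⟩
    have h1 : C.del ∘ w ∘ L = w ∘ C'.del ∘ L := funext fun x => (hw (L x)).symm
    rw [h1]
    exact ih _ _ _ hz

variable [IsTopologicalGroup G]

/-- Lifting of cochains with values in a stable subset. -/
theorem lift_mem [DiscMod G J] (q : J →+[G] J') (A : AddSubgroup J)
    (hA : ∀ (g : G) x, x ∈ A → g • x ∈ A) {n : ℕ} {Y : (Fin (n + 1) → G) → J'}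
    (hY : IsCoch G Y) (h : ∀ x, ∃ y ∈ A, q y = Y x) :
    ∃ Y' : (Fin (n + 1) → G) → J, IsCoch G Y' ∧ q ∘ Y' = Y ∧ ∀ x, Y' x ∈ A := by
  let _ : DistribMulAction G A := subAct A hA
  let ι : A →+[G] J :=
    { toFun := fun z => z.1
      map_smul' := fun _ _ => rfl
      map_zero' := rfl
      map_add' := fun _ _ => rfl }
  have : DiscMod G A := discMod_of_injective ι Subtype.val_injective
  let B : AddSubgroup J' := A.map (q : J →+ J')
  have hB : ∀ (g : G) x, x ∈ B → g • x ∈ B := by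
    rintro g _ ⟨y, hy, rfl⟩
    exact ⟨g • y, hA g y hy, map_smul q g y⟩
  let _ : DistribMulAction G B := subAct B hB
  let κ : B →+[G] J' :=
    { toFun := fun z => z.1
      map_smul' := fun _ _ => rfl
      map_zero' := rfl
      map_add' := fun _ _ => rfl }
  let q' : A →+[G] B :=
    { toFun := fun z => ⟨q z.1, z.1, z.2, rfl⟩
      map_smul' := fun g z => Subtype.ext (map_smul q g z.1)
      map_zero' := Subtype.ext (map_zero q)
      map_add' := fun a b => Subtype.ext (map_add q a.1 b.1) }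
  have hq' : Function.Surjective q' := by
    rintro ⟨_, y, hy, rfl⟩
    exact ⟨⟨y, hy⟩, rfl⟩
  obtain ⟨Y₁, h1, h2⟩ := IsCoch.of_inj κ Subtype.val_injective hY (fun x => by
    obtain ⟨y, hy, e⟩ := h x
    exact ⟨⟨Y x, y, hy, e⟩, rfl⟩)
  obtain ⟨Y₂, h3, h4⟩ := h1.lift q' hq'
  refine ⟨ι ∘ Y₂, h3.map ι, funext fun x => ?_, fun x => (Y₂ x).2⟩
  rw [← h2 x, ← h4 x]
  rfl

/-- If the end of the zigzag is the boundary of an invariant element, the cocycle is a
coboundary. -/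
theorem zig_bdry [DiscMod G J] (C : Cx G J) (n : ℕ) :
    ∀ (i : ℕ) (X : (Fin (n + 1 + 1) → G) → J) (y : J), (∀ g : G, g • y = y) →
      y ∈ C.Dgr (i + n) → C.Zz (n + 1) i X (C.del y) →
      ∃ Y : (Fin (n + 1) → G) → J, IsCoch G Y ∧ dd Y = X ∧ (∀ x, Y x ∈ C.Dgr i) ∧
        ∀ x, C.del (Y x) = 0 := by
  induction n with
  | zero =>
    rintro i X y hy hyi ⟨L, hL, hdL, hLi, hz⟩
    have h1 := const_mem_ZZ hy
    refine ⟨L - fun _ => y, hL.sub h1.1, by rw [dd_sub, hdL, h1.2, sub_zero],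
      fun x => sub_mem (hLi x) hyi, fun x => ?_⟩
    rw [Pi.sub_apply, map_sub, sub_eq_zero]
    exact hz x
  | succ n ih =>
    rintro i X y hy hyi ⟨L, hL, hdL, hLi, hz⟩
    obtain ⟨Y', h1, h2, h3, h4⟩ := ih (i + 1) (C.del ∘ L) y hy
      (by rwa [show i + 1 + n = i + (n + 1) by omega]) hz
    obtain ⟨Y'', h5, h6, h7⟩ := lift_mem C.del (C.Dgr i) (C.stable i) h1
      (fun x => C.exa i _ (h3 x) (h4 x))
    refine ⟨L - dd Y'', hL.sub h5.dd, by rw [dd_sub, dd_dd, hdL, sub_zero],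
      fun x => sub_mem (hLi x) (dd_mem _ h7 x), fun x => ?_⟩
    have h8 := congrFun (dd_comp_G C.del Y'') x
    rw [h6, h2] at h8
    rw [Pi.sub_apply, map_sub, sub_eq_zero]
    exact h8

/-- An augmentation of the complex. -/
structure Aug (C : Cx G J) (ε : M →+[G] J) : Prop where
  inj : Function.Injective ε
  mem : ∀ m, ε m ∈ C.Dgr 0
  del : ∀ m, C.del (ε m) = 0
  exa : ∀ x ∈ C.Dgr 0, C.del x = 0 → ∃ m, ε m = x

theorem Aug.exists_zig {C : Cx G J} {ε : M →+[G] J} (h : Aug C ε) {n : ℕ}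
    {F : (Fin (n + 1) → G) → M} (hF : F ∈ ZZ G M n) :
    ∃ z, (∀ g : G, g • z = z) ∧ z ∈ C.Dgr n ∧ C.del z = 0 ∧ C.Zz n 0 (ε ∘ F) z := by
  have := Zig.exists_zig C n 0 (ε ∘ F) (ZZ.map hF ε) (fun x => h.mem _) (fun x => h.del _)
  rwa [zero_add] at this

theorem Aug.mem_BB [DiscMod G J] {C : Cx G J} {ε : M →+[G] J} (h : Aug C ε) {n : ℕ}
    {F : (Fin (n + 1) → G) → M} {y : J} (hy : ∀ g : G, g • y = y) (h0 : n = 0 → y = 0)
    (h1 : ∀ m, n = m + 1 → y ∈ C.Dgr m) (hz : C.Zz n 0 (ε ∘ F) (C.del y)) : F ∈ BB G M n := by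
  cases n with
  | zero =>
    rw [mem_BB_zero]
    funext x
    apply h.inj
    have h2 : ε (F x) = C.del y := hz x
    rw [h2, h0 rfl, map_zero, Pi.zero_apply, map_zero]
  | succ n =>
    obtain ⟨Y, h2, h3, h4, h5⟩ := zig_bdry C n 0 (ε ∘ F) y hy
      (by rw [zero_add]; exact h1 n rfl) hz
    obtain ⟨Y', h6, h7⟩ := IsCoch.of_inj ε h.inj h2 (fun x => h.exa _ (h4 x) (h5 x))
    refine ⟨Y', h6, funext fun x => h.inj ?_⟩
    have h8 := congrFun (dd_comp_G ε Y') x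
    rw [show ε ∘ Y' = Y from funext h7, h3] at h8
    exact h8.symm

/-- The cohomology is finite if the invariants of the resolution are. -/
theorem Aug.hfin [DiscMod G J] {C : Cx G J} {ε : M →+[G] J} (h : Aug C ε)
    (hfin : Set.Finite {z : J | ∀ g : G, g • z = z}) (n : ℕ) : HFin G M n := by
  classical
  have key : ∀ z : J, ∃ F₀ : (Fin (n + 1) → G) → M,
      (∃ F, C.Zz n 0 (ε ∘ F) z) → C.Zz n 0 (ε ∘ F₀) z := by
    intro z
    by_cases hz : ∃ F, C.Zz n 0 (ε ∘ F) z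
    · obtain ⟨F, hF⟩ := hz
      exact ⟨F, fun _ => hF⟩
    · exact ⟨0, fun h => absurd h hz⟩
  choose c hc using key
  refine ⟨_, hfin.toFinset.image c, le_rfl, fun F hF => ?_⟩
  obtain ⟨z, hz1, -, -, hz⟩ := h.exists_zig hF
  refine ⟨c z, Finset.mem_image_of_mem _ (hfin.mem_toFinset.2 hz1), ?_⟩
  have h1 := zig_sub C n 0 _ _ _ _ hz (hc z ⟨F, hz⟩)
  rw [sub_self, ← comp_sub_G, ← map_zero C.del] at h1
  exact h.mem_BB (fun g => smul_zero g) (fun _ => rfl) (fun _ _ => zero_mem _) h1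

end Vale.Agent.P261Z.D.Zig
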