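import Vale.Agent.P261Z.D.Sk
import Vale.Agent.P261Z.D.Zig

/-!
# P261, block D: the cohomology of a uniform group (`UNIF`)
-/

set_option linter.unusedSectionVars false

namespace Vale.Agent.P261Z.D

open Vale.Agent.P251 Vale.Agent.P251.C Vale.Agent.P251.C.NpData

namespace Unif

open Zig

/-! ### the resolution attached to `Φ` -/

section res

variable {p d : ℕ} [Fact p.Prime] {U : Type} [Group U] [TopologicalSpace U]
  [IsTopologicalGroup U] [CompactSpace U] {D : NpData p d U}

theorem exists_res (hD : D.IsTop) {Φ : Finset (Fin d) → VV p d U →ₗ[ZMod p] ZMod p}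
    (hΦ : D.Good d Φ) : ∃ ρ : ResData (ZMod p) (KX d U),
    Equi ρ U ∧ (∀ x, ρ.deg x = x.1.card) ∧ ρ.d = hD.opL Φ := by
  have hπD : ∀ n f, cmpL p d U (n + 1) (hD.opL Φ f) = hD.opL Φ (cmpL p d U n f) := by
    intro n f
    apply toV_injective
    rw [toV_cmpL, IsTop.toV_opL, IsTop.toV_opL, toV_cmpL, hΦ.op_pr]
  have hπ : ∀ m n (f : LocallyConstant (KX d U) (ZMod p)),
      cmpL p d U m (cmpL p d U n f) = if m = n then cmpL p d U n f else 0 := by
    intro m n f
    ext x
    rw [cmpL_apply, cmpL_apply]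
    split_ifs with h1 h2 h3 h4 h5
    · rw [cmpL_apply, if_pos h2]
    · omega
    · omega
    · rfl
    · subst h5
      rw [cmpL_apply, if_neg h1]
    · rfl
  have hπ0 : ∀ f, cmpL p d U 0 (hD.opL Φ f) = 0 := by
    intro f
    apply toV_injective
    rw [toV_cmpL, IsTop.toV_opL, ← hΦ.op_pr]
    have : pr p d U 0 (toV f) = 0 := by
      funext S
      rw [pr_apply, if_neg (Nat.succ_ne_zero _)]
      rfl
    rw [this, map_zero]
    rfl
  have hDone : hD.opL Φ (oneL p d U) = 0 := by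
    apply toV_injective
    rw [IsTop.toV_opL, toV_oneL, hΦ.op_cst]
    rfl
  have hDD : ∀ f, hD.opL Φ (hD.opL Φ f) = 0 := by
    intro f
    apply toV_injective
    rw [IsTop.toV_opL, IsTop.toV_opL, hΦ.op_op (hD.toV_mem f)]
    rfl
  obtain ⟨h, hh1, hh2, hh3⟩ := exists_contraction (d + 1) (cmpL p d U) (hD.opL Φ) (epsL p d U)
    (oneL p d U) hπ sum_cmpL hπD hπ0 (fun f => rfl) (by
      ext x
      rw [cmpL_apply]
      show (if x.1.card = 0 then (if x.1.card = 0 then (1 : ZMod p) else 0) else 0) =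
        if x.1.card = 0 then (1 : ZMod p) else 0
      split_ifs <;> rfl) hDone rfl hDD (hD.exact hΦ)
  have hcmp : ∀ n (f : LocallyConstant (KX d U) (ZMod p)), (∀ x, x.1.card ≠ n → f x = 0) →
      cmpL p d U n f = f := by
    intro n f hf
    ext x
    rw [cmpL_apply]
    split_ifs with h1
    · rfl
    · exact (hf x h1).symm
  let ρ : ResData (ZMod p) (KX d U) :=
    { deg := ⟨fun x => x.1.card, isLC_card d U⟩
      d := hD.opL Φ
      h := h
      ε := epsL p d U
      d_deg := by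
        intro n f hf x hx
        rw [← hcmp n f hf, ← hπD, cmpL_apply]
        exact if_neg hx
      h_deg := by
        intro n f hf x hx
        rw [← hcmp n f hf]
        match n, hx with
        | 0, hx => rw [hh3]; rfl
        | n + 1, hx =>
          rw [← hh2, cmpL_apply]
          exact if_neg fun h1 => hx (congrArg (· + 1) h1)
      ε_deg := by
        intro n f hn hf
        exact hf ⟨∅, 1⟩ (by
          show Finset.card (∅ : Finset (Fin d)) ≠ n
          rw [Finset.card_empty]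
          exact Ne.symm hn)
      dd := hDD
      homotopy := hh1
      d_one := hDone
      ε_one := rfl }
  refine ⟨ρ, ⟨fun _ _ => rfl, ?_⟩, fun _ => rfl, rfl⟩
  intro u f
  apply toV_injective
  have h1 : ∀ g : LocallyConstant (KX d U) (ZMod p),
      toV (g.comap ⟨fun z => u • z, continuous_const_smul u⟩) = tau p d U u⁻¹ (toV g) := by
    intro g
    funext T x
    rw [tau_apply, inv_inv]
    rfl
  rw [h1]
  show toV (hD.opL Φ (f.comap ⟨fun z => u • z, continuous_const_smul u⟩)) =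
    tau p d U u⁻¹ (toV (hD.opL Φ f))
  rw [IsTop.toV_opL, IsTop.toV_opL, h1, op_tau]

end res

/-! ### the complex with coefficients -/

section cx

variable {p : ℕ} {U : Type} [Group U] [TopologicalSpace U] [IsTopologicalGroup U]
  [CompactSpace U] [T2Space U] [TotallyDisconnectedSpace U]
  {X : Type} [TopologicalSpace X] [CompactSpace X] [T2Space X] [TotallyDisconnectedSpace X]
  [MulAction U X] [ContinuousSMul U X] {ρ : ResData (ZMod p) X}
  {M N : Type} [AddCommGroup M] [DistribMulAction U M] [Module (ZMod p) M]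
  [AddCommGroup N] [DistribMulAction U N] [Module (ZMod p) N]

/-- the differential -/
noncomputable def del (hρ : Equi ρ U) (M : Type) [AddCommGroup M] [DistribMulAction U M]
    [Module (ZMod p) M] : LC X M →+[U] LC X M where
  toFun f := opA (A := M) ρ.d f
  map_smul' g f := by
    have : SMulCommClass U (ZMod p) M := smulComm_zmod
    let L : M →ₗ[ZMod p] M :=
      { toFun := fun m => g • m
        map_add' := smul_add g
        map_smul' := fun r m => smul_comm g r m }
    let a : C(X, X) := ⟨fun z => g⁻¹ • z, continuous_const_smul g⁻¹⟩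
    have h1 : ∀ f : LocallyConstant X M, opA ρ.d ((f.comap a).map L) =
        ((opA ρ.d f).comap a).map L := by
      intro f
      rw [opA_mapL, opA_comap ρ.d ρ.d a a (hρ.d g⁻¹)]
    exact h1 f
  map_zero' := opA_zero ρ.d
  map_add' f g := opA_add (A := M) ρ.d f g

/-- the homogeneous parts -/
def dgr (ρ : ResData (ZMod p) X) (M : Type) [AddCommGroup M] (i : ℕ) : AddSubgroup (LC X M) where
  carrier := {f | ∀ x, ρ.deg x ≠ i → f x = 0}
  add_mem' := fun {a b} ha hb x hx => by rw [LC.add_apply, ha x hx, hb x hx, add_zero]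
  zero_mem' := fun _ _ => rfl
  neg_mem' := fun {a} ha x hx => by rw [LC.neg_apply, ha x hx, neg_zero]

/-- the projection to degree `i` -/
def prj (hρ : Equi ρ U) (M : Type) [AddCommGroup M] [DistribMulAction U M] (i : ℕ) :
    LC X M →+[U] LC X M where
  toFun f := LC.mk (fun x => if ρ.deg x = i then f x else 0)
    (ρ.deg.isLocallyConstant.comp₂ f.isLocallyConstant fun k r => if k = i then r else 0)
  map_smul' g f := LC.ext fun x => by
    change (if ρ.deg x = i then g • f (g⁻¹ • x) else 0) =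
      g • (if ρ.deg (g⁻¹ • x) = i then f (g⁻¹ • x) else 0)
    rw [hρ.deg]
    split_ifs
    · rfl
    · rw [smul_zero]
  map_zero' := LC.ext fun x => ite_self _
  map_add' f g := LC.ext fun x => by
    change (if ρ.deg x = i then f x + g x else 0) =
      (if ρ.deg x = i then f x else 0) + (if ρ.deg x = i then g x else 0)
    split_ifs
    · rfl
    · rw [add_zero]

theorem prj_apply (hρ : Equi ρ U) (i : ℕ) (f : LC X M) (x : X) :
    prj hρ M i f x = if ρ.deg x = i then f x else 0 := rfl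

theorem homot (ρ : ResData (ZMod p) X) (f : LocallyConstant X M) :
    opA ρ.h (opA ρ.d f) + opA ρ.d (opA ρ.h f) + opA ρ.e f = f := by
  rw [opA_comp, opA_comp, ← add_opA, ← add_opA, ρ.homotopy_eq, opA_id]

/-- the complex -/
noncomputable def cx (hρ : Equi ρ U) (hfree : ∀ (u : U) (z : X), u • z = z → u = 1) (M : Type)
    [AddCommGroup M] [DistribMulAction U M] [Module (ZMod p) M] [DiscMod U M] :
    Cx U (LC X M) where
  del := del hρ M
  Dgr := dgr ρ M
  stable i g f hf x hx := by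
    rw [LC.smul_apply, hf _ (by rwa [hρ.deg]), smul_zero]
  del_del f := by
    have h1 : ∀ f : LocallyConstant X M, opA ρ.d (opA ρ.d f) = 0 := fun f => by
      rw [opA_comp, ρ.dd_eq, zero_opA]
    exact h1 f
  del_mem i f hf x hx := opA_d_deg (A := M) ρ hf x hx
  exa i f hf h0 := by
    refine ⟨opA (A := M) ρ.h f, fun x hx => opA_h_deg (A := M) ρ hf x (by omega), ?_⟩
    have h1 := homot (M := M) ρ f
    have h2 : opA (A := M) ρ.d f = 0 := h0
    rw [h2, opA_zero, zero_add, opA_e_deg (A := M) ρ (Nat.succ_ne_zero i) hf, add_zero] at h1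
    exact h1
  acyc i n F hF h0 hi := by
    obtain ⟨Y, hY, e⟩ := lemmaX_free (X := X) (s := n) (DistribMulActionHom.id U : M →+[U] M)
      hfree F hF h0
    refine ⟨prj hρ M i ∘ Y, hY.map _, ?_, fun x y hy => if_neg hy⟩
    rw [dd_comp_G, e]
    funext x
    refine LC.ext fun y => ?_
    change (if ρ.deg y = i then F x y else 0) = F x y
    split_ifs with h
    · rfl
    · exact (hi x y h).symm

/-- the augmentation -/
def eps (hρ : Equi ρ U) (M : Type) [AddCommGroup M] [DistribMulAction U M] : M →+[U] LC X M where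
  toFun m := LC.mk (fun x => if ρ.deg x = 0 then m else 0)
    (ρ.deg.isLocallyConstant.comp fun k => if k = 0 then m else 0)
  map_smul' g m := LC.ext fun x => by
    change (if ρ.deg x = 0 then g • m else 0) = g • (if ρ.deg (g⁻¹ • x) = 0 then m else 0)
    rw [hρ.deg]
    split_ifs
    · rfl
    · rw [smul_zero]
  map_zero' := LC.ext fun x => ite_self _
  map_add' a b := LC.ext fun x => by
    change (if ρ.deg x = 0 then a + b else 0) =
      (if ρ.deg x = 0 then a else 0) + (if ρ.deg x = 0 then b else 0)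
    split_ifs
    · rfl
    · rw [add_zero]

theorem eps_apply (hρ : Equi ρ U) (m : M) (x : X) :
    eps hρ M m x = if ρ.deg x = 0 then m else 0 := rfl

theorem aug (hρ : Equi ρ U) (hfree : ∀ (u : U) (z : X), u • z = z → u = 1) [DiscMod U M]
    {x₀ : X} (hx₀ : ρ.deg x₀ = 0) : Aug (cx hρ hfree M) (eps hρ M) where
  inj a b h := by
    have h1 : eps hρ M a x₀ = eps hρ M b x₀ := by rw [h]
    rwa [eps_apply, eps_apply, if_pos hx₀, if_pos hx₀] at h1
  mem m x hx := if_neg hx
  del m := by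
    have h1 : (eps hρ M m : LocallyConstant X M) = ten ρ.one₀ m := by
      refine LC.ext fun x => ?_
      change (if ρ.deg x = 0 then m else 0) = (if ρ.deg x = 0 then (1 : ZMod p) else 0) • m
      split_ifs
      · rw [one_smul]
      · rw [zero_smul]
    have h2 : opA ρ.d (ten ρ.one₀ m) = 0 := by
      have h3 : ρ.d ρ.one₀ = 0 := ρ.d_one
      rw [opA_ten, h3, zero_ten]
    rw [← h1] at h2
    exact h2
  exa f hf h0 := by
    have h1 := homot (M := M) ρ f
    have h2 : opA (A := M) ρ.d f = 0 := h0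
    have h3 : opA (A := M) ρ.h f = 0 :=
      LocallyConstant.ext fun x => opA_h_deg (A := M) ρ hf x (Nat.succ_ne_zero _)
    rw [h2, h3, opA_zero, opA_zero, zero_add, zero_add] at h1
    refine ⟨opA (A := M) ρ.e f x₀, LC.ext fun x => ?_⟩
    rw [eps_apply]
    split_ifs with h
    · rw [opA_e_apply (A := M) ρ f hx₀ h, h1]
      rfl
    · exact (hf x h).symm

theorem map_del (hρ : Equi ρ U) (u : M →+[U] N) (f : LC X M) :
    LC.mapG X u (del hρ M f) = del hρ N (LC.mapG X u f) :=
  (opA_mapL ρ.d (linOf (p := p) u) f).symm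

theorem map_eps (hρ : Equi ρ U) (u : M →+[U] N) (m : M) :
    LC.mapG X u (eps hρ M m) = eps hρ N (u m) := by
  refine LC.ext fun x => ?_
  rw [LC.mapG_apply, eps_apply, eps_apply]
  split_ifs
  · rfl
  · exact map_zero u

theorem val_del (hρ : Equi ρ U) (L : M →+ ZMod p) (f : LC X M) (x : X) :
    L (del hρ M f x) = ρ.d (LocallyConstant.map L f) x := by
  have h1 : ∀ g : LocallyConstant X (ZMod p), ten g (1 : ZMod p) = g := fun g =>
    LocallyConstant.ext fun x => by rw [ten_apply, smul_eq_mul, mul_one]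
  have h2 : ∀ g : LocallyConstant X (ZMod p), opA ρ.d g = ρ.d g := fun g => by
    rw [← h1 g, opA_ten, h1, h1]
  have h3 := opA_mapL (A := M) ρ.d (L.toZModLinearMap p) f
  rw [h2] at h3
  exact (DFunLike.congr_fun h3 x).symm

end cx

/-! ### invariants -/

section inv

variable {p d : ℕ} {U : Type} [Group U] [TopologicalSpace U] [IsTopologicalGroup U]
  {M : Type} [AddCommGroup M] [DistribMulAction U M]

theorem inv_apply {z : LC (KX d U) M} (hz : ∀ g : U, g • z = z) (S : Finset (Fin d)) (x : U) :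
    z ⟨S, x⟩ = x • z ⟨S, 1⟩ := by
  conv_lhs => rw [← hz x]
  rw [LC.smul_apply, smul_KX, inv_mul_cancel]

theorem inv_ext {z z' : LC (KX d U) M} (hz : ∀ g : U, g • z = z) (hz' : ∀ g : U, g • z' = z')
    (h : ∀ S, z ⟨S, 1⟩ = z' ⟨S, 1⟩) : z = z' :=
  LC.ext fun x => by
    obtain ⟨S, x⟩ := x
    rw [inv_apply hz, inv_apply hz', h]

theorem finite_inv [Finite M] : Set.Finite {z : LC (KX d U) M | ∀ g : U, g • z = z} :=
  Set.Finite.of_finite_image (f := fun z (S : Finset (Fin d)) => z ⟨S, 1⟩) (Set.toFinite _)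
    fun _ hz _ hz' h => inv_ext hz hz' (congrFun h)

/-- the invariant function with given values at the base points -/
def ofv [DiscMod U M] (a : Finset (Fin d) → M) : LC (KX d U) M :=
  LC.mk (fun x => x.2 • a x.1) (isLC_sigma _ fun T => smul_lc (a T))

theorem ofv_apply [DiscMod U M] (a : Finset (Fin d) → M) (x : KX d U) :
    (ofv a : LC (KX d U) M) x = x.2 • a x.1 := rfl

theorem ofv_inv [DiscMod U M] (a : Finset (Fin d) → M) (g : U) :
    g • (ofv a : LC (KX d U) M) = ofv a :=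
  LC.ext fun x => by
    rw [LC.smul_apply, smul_KX, ofv_apply, ofv_apply, smul_smul, mul_inv_cancel_left]

/-- the coefficients of a function with values in the functions on `U ⧸ W` -/
def cf {W : Subgroup U} (z : LC (KX d U) (Fn (U ⧸ W) (Triv U p))) :
    Finset (Fin d) → U ⧸ W → ZMod p := fun S c => Tw.val _ (z ⟨S, 1⟩ c)

theorem cf_zero {W : Subgroup U} : cf (0 : LC (KX d U) (Fn (U ⧸ W) (Triv U p))) = 0 := rfl

theorem cf_sub {W : Subgroup U} (z z' : LC (KX d U) (Fn (U ⧸ W) (Triv U p))) :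
    cf (z - z') = cf z - cf z' := rfl

theorem cf_nsmul {W : Subgroup U} (n : ℕ) (z : LC (KX d U) (Fn (U ⧸ W) (Triv U p))) :
    cf (n • z) = n • cf z := by
  funext S c
  have h1 : (n • z) ⟨S, 1⟩ = n • z ⟨S, 1⟩ := map_nsmul (LC.ev (⟨S, 1⟩ : KX d U)) n z
  change Tw.val _ ((n • z) ⟨S, 1⟩ c) = n • Tw.val _ (z ⟨S, 1⟩ c)
  rw [h1, Fn.nsmul_apply, map_nsmul]

end inv

/-! ### coefficients in the functions on a finite quotient -/

section fin

variable {p d : ℕ} [Fact p.Prime] {U : Type} [Group U] [TopologicalSpace U]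
  [IsTopologicalGroup U] [CompactSpace U] [T2Space U] [TotallyDisconnectedSpace U]
  {D : NpData p d U} {hD : D.IsTop} {Φ : Finset (Fin d) → VV p d U →ₗ[ZMod p] ZMod p}
  {ρ : ResData (ZMod p) (KX d U)} {W : Subgroup U}
  [Module (ZMod p) (Fn (U ⧸ W) (Triv U p))]

theorem cf_del (hρ : Equi ρ U) (hd : ρ.d = hD.opL Φ) {z : LC (KX d U) (Fn (U ⧸ W) (Triv U p))}
    (hz : ∀ g : U, g • z = z) : cf (del hρ _ z) = KA Φ W (cf z) := by
  funext T c
  let L : Fn (U ⧸ W) (Triv U p) →+ ZMod p :=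
    (Tw.val (1 : U →* (ZMod p)ˣ)).toAddMonoidHom.comp (Fn.ev _ c)
  have h1 := val_del hρ L z ⟨T, 1⟩
  rw [hd] at h1
  refine h1.trans ?_
  change Φ T (tau p d U (1 : U)⁻¹ (toV (LocallyConstant.map L z))) = Φ T _
  refine congrArg (Φ T) (funext fun S => funext fun x => ?_)
  change Tw.val _ (z ⟨S, (1 : U)⁻¹⁻¹ * x⟩ c) = Tw.val _ (z ⟨S, 1⟩ (x⁻¹ • c))
  rw [inv_inv, one_mul, inv_apply hz, Fn.smul_apply, Triv.smul_eq]

theorem dg_cf (hdeg : ∀ x, ρ.deg x = x.1.card) {n : ℕ}
    {z : LC (KX d U) (Fn (U ⧸ W) (Triv U p))} (hz : z ∈ dgr ρ _ n) : Dg (n + 1) (cf z) := by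
  intro S hS
  funext c
  have h1 : z ⟨S, 1⟩ = 0 := hz ⟨S, 1⟩ (by rw [hdeg]; exact fun h => hS (congrArg (· + 1) h))
  change Tw.val _ (z ⟨S, 1⟩ c) = 0
  rw [h1]
  rfl

theorem mem_BB_of [DiscMod U (Fn (U ⧸ W) (Triv U p))] (hρ : Equi ρ U)
    (hdeg : ∀ x, ρ.deg x = x.1.card) (hd : ρ.d = hD.opL Φ) {n : ℕ}
    {F : (Fin (n + 1) → U) → Fn (U ⧸ W) (Triv U p)} {z : LC (KX d U) (Fn (U ⧸ W) (Triv U p))}
    (hz : ∀ g : U, g • z = z) (hF : (cx hρ free_KX _).Zz n 0 (eps hρ _ ∘ F) z)
    {b : Finset (Fin d) → U ⧸ W → ZMod p} (hb : Dg n b) (hb' : KA Φ W b = cf z) :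
    F ∈ BB U _ n := by
  let a : Finset (Fin d) → Fn (U ⧸ W) (Triv U p) := fun S => Fn.mk fun c => (Tw.val _).symm (b S c)
  have ha : ∀ S, S.card + 1 ≠ n → a S = 0 := fun S hS => Fn.ext fun c => by
    change (Tw.val _).symm (b S c) = 0
    rw [hb S hS]
    rfl
  have h1 : cf (ofv a : LC (KX d U) _) = b := by
    funext S c
    change Tw.val _ (((1 : U) • a S) c) = b S c
    rw [one_smul]
    rfl
  have h2 : del hρ _ (ofv a : LC (KX d U) _) = z := by
    refine inv_ext (fun g => by rw [← map_smul, ofv_inv]) hz fun S => Fn.ext fun c => ?_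
    have h3 := cf_del hρ hd (ofv_inv a)
    rw [h1, hb'] at h3
    exact (Tw.val _).injective (congrFun (congrFun h3 S) c)
  refine (aug hρ free_KX (x₀ := ⟨∅, 1⟩) (by rw [hdeg]; rfl)).mem_BB (ofv_inv a) (fun h => ?_)
    (fun m h x hx => ?_) (by rw [← h2] at hF; exact hF)
  · refine LC.ext fun x => ?_
    rw [ofv_apply, ha _ (by omega), smul_zero]
    rfl
  · rw [hdeg] at hx
    rw [ofv_apply, ha _ (by omega), smul_zero]

end fin

end Unif

open Unif Zig in
theorem unif : UNIF := by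
  intro p d _ U _ _ _ _ _ _ D Φ hD hΦ k1 k2
  obtain ⟨ρ, hρ, hdeg, hd⟩ := exists_res hD hΦ
  have hx₀ : ρ.deg ⟨∅, 1⟩ = 0 := by rw [hdeg]; rfl
  refine ⟨fun M _ _ _ _ hM s => ?_, fun V _ hV _ F hF F' hF' hn => ?_, fun s hs V _ hV _ => ?_⟩
  · let _ : Module (ZMod p) M := AddCommGroup.zmodModule hM
    exact (aug hρ free_KX hx₀).hfin finite_inv s
  · have : Finite (U ⧸ V) := Subgroup.quotient_finite_of_isOpen V hV
    have := Fintype.ofFinite (U ⧸ V)
    have : DiscMod U (Fn (U ⧸ V) (Triv U p)) := discMod_FnQ hV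
    let _ : Module (ZMod p) (Fn (U ⧸ V) (Triv U p)) :=
      AddCommGroup.zmodModule (Fn.nsmul_eq_zero (Tw.nsmul_eq_zero _))
    obtain ⟨z, hz1, hz2, -, hz⟩ := (aug hρ free_KX hx₀).exists_zig hF
    obtain ⟨z', hz1', hz2', -, hz'⟩ := (aug hρ free_KX hx₀).exists_zig hF'
    have h1 : ∑ c, cf z' Finset.univ c ≠ 0 := by
      intro h
      obtain ⟨b, hb, hb'⟩ := k1 V hV (cf z') (dg_cf hdeg hz2')
        (by rw [finsum_eq_sum_of_fintype]; exact h)
      exact hn (mem_BB_of hρ hdeg hd hz1' hz' hb hb')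
    let n : ℕ := ((∑ c, cf z Finset.univ c) / ∑ c, cf z' Finset.univ c).val
    refine ⟨n, ?_⟩
    have h2 := zig_sub _ _ _ _ _ _ _ hz (zig_nsmul _ hz' n)
    rw [← comp_nsmul_G, ← comp_sub_G] at h2
    have h3 : z - n • z' ∈ dgr ρ _ d := sub_mem hz2 (nsmul_mem hz2' n)
    obtain ⟨b, hb, hb'⟩ := k1 V hV (cf (z - n • z')) (dg_cf hdeg h3) (by
      rw [finsum_eq_sum_of_fintype, cf_sub, cf_nsmul]
      simp only [Pi.sub_apply, Pi.smul_apply]
      rw [Finset.sum_sub_distrib, ← Finset.smul_sum, nsmul_eq_mul, ZMod.natCast_zmod_val,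
        div_mul_cancel₀ _ h1, sub_self])
    exact mem_BB_of hρ hdeg hd (fun g => by rw [smul_sub, smul_comm, hz1, hz1']) h2 hb hb'
  · obtain ⟨W, hW, hWo, h, hk⟩ := k2 s hs V hV
    have : Finite (U ⧸ V) := Subgroup.quotient_finite_of_isOpen V hV
    have hf : Finite (U ⧸ W) := Subgroup.quotient_finite_of_isOpen W hWo
    have : DiscMod U (Fn (U ⧸ V) (Triv U p)) := discMod_FnQ hV
    have : DiscMod U (Fn (U ⧸ W) (Triv U p)) := discMod_FnQ hWo
    let _ : Module (ZMod p) (Fn (U ⧸ V) (Triv U p)) :=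
      AddCommGroup.zmodModule (Fn.nsmul_eq_zero (Tw.nsmul_eq_zero _))
    let _ : Module (ZMod p) (Fn (U ⧸ W) (Triv U p)) :=
      AddCommGroup.zmodModule (Fn.nsmul_eq_zero (Tw.nsmul_eq_zero _))
    refine ⟨W, hW, hWo, hf, h, fun F hF => ?_⟩
    obtain ⟨z, hz1, hz2, hz3, hz⟩ := (aug hρ free_KX hx₀).exists_zig hF
    have h1 : KA Φ W (cf z) = 0 := by
      have h2 : del hρ _ z = 0 := hz3
      rw [← cf_del hρ hd hz1, h2, cf_zero]
    obtain ⟨b, hb, hb'⟩ := hk (cf z) (dg_cf hdeg hz2) h1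
    have h3 := zig_map (cx hρ free_KX _) (cx hρ free_KX _)
      (LC.mapG (KX d U) (pushQ h (Triv U p))) (map_del hρ _)
      (fun i f hf x hx => by rw [LC.mapG_apply, hf x hx, map_zero]) s 0 _ _ hz
    have h4 : LC.mapG (KX d U) (pushQ h (Triv U p)) ∘ eps hρ _ ∘ F =
        eps hρ _ ∘ pushQ h (Triv U p) ∘ F := funext fun x => map_eps hρ _ (F x)
    rw [h4] at h3
    refine mem_BB_of hρ hdeg hd (fun g => by rw [← map_smul, hz1]) h3 hb (hb'.trans ?_)
    funext S c
    have := Fintype.ofFinite (U ⧸ W)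
    change _ = Tw.val _ (push U _ _ (quot_smul h) (z ⟨S, 1⟩) c)
    rw [push_apply, finsum_eq_sum_of_fintype, map_sum]
    refine Finset.sum_congr rfl fun y _ => ?_
    split_ifs
    · rfl
    · rfl

end Vale.Agent.P261Z.D
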