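import Vale.Agent.P261Z.D.Chi
import Vale.Agent.P261Z.D.Cup
import Vale.Agent.P261Z.D.Glb
import Vale.Agent.P261Z.D.Kos
import Vale.Agent.P261Z.D.Nd
import Vale.Agent.P261Z.D.Sh
import Vale.Agent.P261Z.D.Top
import Vale.Agent.P261Z.D.Tr
import Vale.Agent.P261Z.D.Unif

/-!
# P261, block D: Poincare duality for virtually uniform groups without `p`-torsion
-/

namespace Vale.Agent.P261Z.D

theorem pdall : PDALL := pdall_of cup_dd tr kos unif sh glb top low nd chi

end Vale.Agent.P261Z.D
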