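import Vale.Agent.P261Z.D.Ind
import Vale.Agent.P261Z.D.Pd
import Vale.Agent.P261Z.T1.Desc
import Vale.Agent.P261Z.Top.Spec

/-!
# P261, block D: finiteness of the cohomology of `E_j ω ^ w` from (BV)
-/

namespace Vale.Agent.P261Z.D

open Vale.Agent.P251 Vale.Agent.P251.C Vale.Agent.P251.F _root_.P261.Ser _root_.P261.Top

variable (p : ℕ) [hp : Fact p.Prime]

theorem stD1 : StD1 p := by
  intro hA hp2 n k _ D hD hn hd w s
  have := D.charP
  have := D.finite
  have hno := D.honda.eq_one_of_pow_p hd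
  let V := D.honda.virtUnif_sq D.card hn
  obtain ⟨hF, χ, h1, hPD⟩ := pdall p (n * n) D.GG V hp2 hno
  obtain ⟨i, hi⟩ := chi_norm D.honda D.card hn χ fun g hg =>
    h1 g (D.honda.mem_congr_iff.2 (D.honda.mem_prin_iff.1 hg))
  have e : 1 + (n - 1) = n := by omega
  obtain ⟨A, hT⟩ := N.All.rgex p n k D hD 1 (n - 1) le_rfl e k (RingHom.id k)
  refine T1.proBd_of_PF (fun _ _ h => map_sub _) (pf_EJ hD e hT ?_)
  rcases le_or_gt s (n * n) with hs | hs
  · exact ind hD (fun h c hh hc e A hT => hA n h c k k D hD _ hh hc e A hT) hPD hF hi hs _ 1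
      le_rfl e A hT w
  · obtain ⟨s, rfl⟩ := Nat.exists_eq_add_one_of_ne_zero (show s ≠ 0 by omega)
    exact pft_of_hzero _ _ fun e =>
      CV p (n * n) D.GG hp2 V hno _ (nsmul_Tw p _ _) _ hs

end Vale.Agent.P261Z.D
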