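import Vale.Agent.P261Z.D.SaStep
import Vale.Agent.P261Z.T3.GPd

/-!
# P261, block D with coefficients: matrix cocycles

`MC S ι`: continuous cocycles `G → GL_ι(R)`; `Mw ρ I l`: the module `(R / I) ^ ι` with
`(g • x) a = ∑ b, ρ g a b • g • x b`. Rows `STEPE`, `KMT`, `HGL`, `HGH`, `MCS`.
-/

open MvPowerSeries Matrix

set_option linter.unusedSectionVars false

namespace Vale.Agent.P261Z.D

open Vale.Agent.P251.C Vale.Agent.P261Z.Ev _root_.P261.Ser _root_.P261.Ser.SA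

variable {G K : Type} [TopologicalSpace G] [Group G] [Field K] {c : ℕ}

/-- continuous matrix cocycles -/
structure MC (S : SA G K c) (ι : Type) [Fintype ι] [DecidableEq ι] where
  /-- the matrices -/
  ρ : G → Matrix ι ι (RR K c)
  one : ρ 1 = 1
  mul : ∀ g g', ρ (g * g') = ρ g * (ρ g').map (S.φ g)
  lc : ∀ a b, LCm fun g => ρ g a b

variable {S : SA G K c} {ι : Type} [Fintype ι] [DecidableEq ι]

/-- the module `(R / I) ^ ι` twisted by `l` and `ρ` -/
structure Mw (_ρ : MC S ι) (I : S.SI) (l : S.Coc) : Type where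
  /-- the coordinates -/
  fn : ι → S.Tw I l

namespace Mw

variable {ρ : MC S ι} {I I' I'' : S.SI} {l l' l'' : S.Coc}

instance : CoeFun (Mw ρ I l) (fun _ => ι → S.Tw I l) := ⟨Mw.fn⟩

variable (ρ I l) in
/-- the coordinates, as an equivalence -/
def equiv : Mw ρ I l ≃ (ι → S.Tw I l) where
  toFun := Mw.fn
  invFun := Mw.mk
  left_inv _ := rfl
  right_inv _ := rfl

theorem ext {x y : Mw ρ I l} (h : ∀ a, x a = y a) : x = y := (equiv ρ I l).injective (funext h)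

instance [Finite (S.Tw I l)] : Finite (Mw ρ I l) := Finite.of_equiv _ (equiv ρ I l).symm

noncomputable instance : AddCommGroup (Mw ρ I l) := (equiv ρ I l).addCommGroup

theorem add_apply (x y : Mw ρ I l) (a : ι) : (x + y) a = x a + y a := rfl

theorem sub_apply (x y : Mw ρ I l) (a : ι) : (x - y) a = x a - y a := rfl

theorem zero_apply (a : ι) : (0 : Mw ρ I l) a = 0 := rfl

variable (ρ I l) in
/-- a coordinate -/
def co (a : ι) : Mw ρ I l →+ S.Tw I l where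
  toFun x := x a
  map_zero' := rfl
  map_add' _ _ := rfl

theorem co_apply (a : ι) (x : Mw ρ I l) : co ρ I l a x = x a := rfl

theorem sum_apply {κ : Type*} (s : Finset κ) (x : κ → Mw ρ I l) (a : ι) :
    (∑ i ∈ s, x i) a = ∑ i ∈ s, x i a := map_sum (co ρ I l a) x s

theorem g_sum (g : G) (r : ι → RR K c) (x : ι → S.Tw I l) :
    g • ∑ b, r b • x b = ∑ b, S.φ g (r b) • g • x b := by
  simp only [Finset.smul_sum, g_smul]

theorem sum_mul (A B : Matrix ι ι (RR K c)) (x : ι → S.Tw I l) (a : ι) :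
    ∑ b, (A * B) a b • x b = ∑ b, A a b • ∑ e, B b e • x e := by
  simp only [Matrix.mul_apply, Finset.sum_smul, Finset.smul_sum, mul_smul]
  exact Finset.sum_comm

theorem sum_one (x : ι → S.Tw I l) (a : ι) : ∑ b, (1 : Matrix ι ι (RR K c)) a b • x b = x a := by
  simp [Matrix.one_apply]

noncomputable instance : DistribMulAction G (Mw ρ I l) where
  smul g x := ⟨fun a => ∑ b, ρ.ρ g a b • g • x b⟩
  one_smul x := ext fun a => by
    change ∑ b, ρ.ρ 1 a b • (1 : G) • x b = x a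
    simp only [one_smul, ρ.one, sum_one]
  mul_smul g h x := ext fun a => by
    change ∑ b, ρ.ρ (g * h) a b • (g * h) • x b =
      ∑ b, ρ.ρ g a b • g • ∑ e, ρ.ρ h b e • h • x e
    simp only [ρ.mul, sum_mul, g_sum, mul_smul, Matrix.map_apply]
  smul_zero g := ext fun a => by
    change ∑ b, ρ.ρ g a b • g • (0 : S.Tw I l) = 0
    simp
  smul_add g x y := ext fun a => by
    change ∑ b, ρ.ρ g a b • g • (x b + y b) = ∑ b, ρ.ρ g a b • g • x b + ∑ b, ρ.ρ g a b • g • y b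
    simp only [smul_add, Finset.sum_add_distrib]

theorem smul_apply (g : G) (x : Mw ρ I l) (a : ι) : (g • x) a = ∑ b, ρ.ρ g a b • g • x b := rfl

theorem exists_rep (x : Mw ρ I l) : ∃ y : ι → RR K c, x = ⟨fun a => cl I l (y a)⟩ := by
  choose y hy using fun a => cl_surj I l (x a)
  exact ⟨y, ext fun a => (hy a).symm⟩

theorem discMod {N : ℕ} (h : IX (Fin c) K ^ N ≤ I.1) : DiscMod G (Mw ρ I l) where
  isOpen_stab x := by
    obtain ⟨y, rfl⟩ := exists_rep x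
    have h1 : {g : G | g • (⟨fun a => cl I l (y a)⟩ : Mw ρ I l) = ⟨fun a => cl I l (y a)⟩} =
        ⋂ a, {g : G | cl I l (∑ b, ρ.ρ g a b * (val l g * S.φ g (y b))) = cl I l (y a)} := by
      ext g
      simp only [Set.mem_iInter, Set.mem_ofPred_eq, map_sum, ← smul_cl]
      exact ⟨fun e a => congrArg (fun z : Mw ρ I l => z a) e, fun e => ext e⟩
    rw [h1]
    exact isOpen_iInter_of_finite fun a => ((LCm.sum _ fun b _ =>
      (ρ.lc a b).mul ((S.val_lc l).mul (S.φ_lc _))).quot h).isOpen_fiber (cl I l (y a))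

variable (ρ) in
/-- a linear map applied to the coordinates -/
noncomputable def lift (u : S.Tw I l →ₗ[RR K c] S.Tw I' l') : Mw ρ I l →+ Mw ρ I' l' where
  toFun x := ⟨fun a => u (x a)⟩
  map_zero' := ext fun _ => u.map_zero
  map_add' _ _ := ext fun _ => u.map_add _ _

theorem lift_apply (u : S.Tw I l →ₗ[RR K c] S.Tw I' l') (x : Mw ρ I l) (a : ι) :
    lift ρ u x a = u (x a) := rfl

variable (ρ) in
/-- the same for an equivariant map -/
noncomputable def map (u : S.Tw I l →ₗ[RR K c] S.Tw I' l') (h : ∀ (g : G) x, u (g • x) = g • u x) :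
    Mw ρ I l →+[G] Mw ρ I' l' :=
  eqa (lift ρ u) fun g x => ext fun a => by
    simp only [lift_apply, smul_apply, map_sum, map_smul, h]

theorem map_eq (u : S.Tw I l →ₗ[RR K c] S.Tw I' l') (h : ∀ (g : G) x, u (g • x) = g • u x)
    (x : Mw ρ I l) : map ρ u h x = lift ρ u x := rfl

variable (ρ I l) in
/-- multiplication by a matrix -/
noncomputable def mat (ε : Matrix ι ι (RR K c)) : Mw ρ I l →+ Mw ρ I l where
  toFun x := ⟨fun a => ∑ b, ε a b • x b⟩
  map_zero' := ext fun _ => by simp [zero_apply]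
  map_add' x y := ext fun _ => by simp only [add_apply, smul_add, Finset.sum_add_distrib]

theorem mat_apply (ε : Matrix ι ι (RR K c)) (x : Mw ρ I l) (a : ι) :
    mat ρ I l ε x a = ∑ b, ε a b • x b := rfl

theorem mat_mul (ε η : Matrix ι ι (RR K c)) (x : Mw ρ I l) :
    mat ρ I l (ε * η) x = mat ρ I l ε (mat ρ I l η x) := ext fun a => sum_mul ε η x.fn a

theorem lift_mat (u : S.Tw I l →ₗ[RR K c] S.Tw I' l') (ε : Matrix ι ι (RR K c)) (x : Mw ρ I l) :
    lift ρ u (mat ρ I l ε x) = mat ρ I' l' ε (lift ρ u x) := ext fun a => by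
  simp only [lift_apply, mat_apply, map_sum, map_smul]

variable (I l) in
/-- multiplication by an invariant matrix -/
noncomputable def eps {ε : Matrix ι ι (RR K c)} (h : ∀ g, ε * ρ.ρ g = ρ.ρ g * ε.map (S.φ g)) :
    Mw ρ I l →+[G] Mw ρ I l :=
  eqa (mat ρ I l ε) fun g x => ext fun a => by
    simp only [mat_apply, smul_apply, g_sum]
    rw [← sum_mul, h, sum_mul]
    rfl

theorem eps_eq {ε : Matrix ι ι (RR K c)} (h : ∀ g, ε * ρ.ρ g = ρ.ρ g * ε.map (S.φ g))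
    (x : Mw ρ I l) : eps I l h x = mat ρ I l ε x := rfl

variable (p : ℕ) [CharP K p]

theorem nsmul_eq_zero (x : Mw ρ I l) : p • x = 0 :=
  ext fun a => (map_nsmul (co ρ I l a) p x).trans (nsmul_Tw p I l _)

instance [Fact p.Prime] (e : ℕ) : DiscMod G (Mw ρ (S.II p c e) l) := discMod (pow_le_IN (p ^ e))

end Mw

variable (p : ℕ) [hp : Fact p.Prime] [CharP K p] (ρ : MC S ι)

/-- the summand cut out by `ε` has bounded stable images in cohomology -/
def PFM (ε : Matrix ι ι (RR K c)) (s : ℕ) (l : S.Coc) : Prop :=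
  PF G s (fun e => Mw ρ (S.II p c e) l) fun h x => Mw.mat ρ _ l ε (Mw.lift ρ (S.pr c h l) x)

/-- `SA.Kill` with coefficients -/
def KM (s : ℕ) (x : RR K c) (l l' : S.Coc) : Prop :=
  ∀ (e : ℕ), ∀ F ∈ ZZ G (Mw ρ (S.II p c e) (l * (S.B c ^ p ^ e)⁻¹)) s, ∃ e', ∃ h : e ≤ e',
    Mw.lift ρ (S.tr c h x _ _) ∘ F ∈ BB G (Mw ρ (S.II p c e') (l' * (S.B c ^ p ^ e')⁻¹)) s

/-- `SA.BV` with coefficients -/
def BVM (v : RR K c) (β l : S.Coc) : Prop := ∀ s, ∃ A, KM p ρ s (v ^ A) l (l * (β ^ A)⁻¹)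

/-- the cocycle is triangular with diagonal entries in `L` -/
def Tri (L : Subgroup S.Coc) : Prop :=
  ∃ (deg : ι → ℤ) (d : ι → S.Coc), (∀ a, d a ∈ L) ∧ (∀ g a, ρ.ρ g a a = val (d a) g) ∧
    ∀ g a b, a ≠ b → deg a ≤ deg b → ρ.ρ g a b = 0

/-- Higman's condition for matrices -/
def Hg (ε : Matrix ι ι (RR K c)) : Prop :=
  ∀ (P : Subgroup G) [Fintype P], IsPGroup p P → ∃ θ : Matrix ι ι (RR K c),
    ∑ g : P, ρ.ρ g * θ.map (S.φ g) * (ρ.ρ (g : G)⁻¹).map (S.φ g) = ε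

/-! ### rows -/

/-- The tower step for the summands cut out by idempotents. -/
def STEPE : Prop :=
  ∀ (p d : ℕ) [Fact p.Prime] (G : Type) [Group G] [TopologicalSpace G] [IsTopologicalGroup G]
    (χ : G →* (ZMod p)ˣ), T3.PDMc d χ → FinG G p →
    ∀ (M M' D : ℕ → ℕ → Type) [∀ i k, AddCommGroup (M i k)] [∀ i k, DistribMulAction G (M i k)]
      [∀ i k, AddCommGroup (M' i k)] [∀ i k, DistribMulAction G (M' i k)]
      [∀ i k, AddCommGroup (D i k)] [∀ i k, DistribMulAction G (D i k)]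
      [∀ i k, DiscMod G (M i k)] [∀ i k, Finite (M i k)]
      [∀ i k, DiscMod G (D i k)] [∀ i k, Finite (D i k)],
      (∀ i k (m : M i k), p • m = 0) → (∀ i k (y : D i k), p • y = 0) →
    ∀ (r : ∀ i {k k' : ℕ}, k ≤ k' → M i k' →+[G] M i k)
      (r' : ∀ i {k k' : ℕ}, k ≤ k' → M' i k' →+[G] M' i k)
      (π : ∀ i k, M i k →+[G] M' i k) (v : ∀ i k, M (i + 1) k →+[G] M i k)
      (V : ∀ A k, M A k →+[G] M 0 k)
      (ι : ∀ i {k k' : ℕ}, k ≤ k' → D i k →+[G] D i k') (W : ∀ A k, D 0 k →+[G] D A k)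
      (β : ∀ i k, M i k →+ D i k →+ ZMod p)
      (ε : ∀ i k, M i k →+[G] M i k) (ε' : ∀ i k, M' i k →+[G] M' i k),
      (∀ i k k' k'' (h : k ≤ k') (h' : k' ≤ k'') x, r i h (r i h' x) = r i (h.trans h') x) →
      (∀ i k k' (h : k ≤ k') x, π i k (r i h x) = r' i h (π i k' x)) →
      (∀ i k k' (h : k ≤ k') x, v i k (r (i + 1) h x) = r i h (v i k' x)) →
      (∀ i k, Function.Surjective (π i k)) →
      (∀ i k x, π i k x = 0 → ∃ y, v i k y = x) →
      (∀ i k y, v i (k + 1) y = 0 → r (i + 1) (Nat.le_succ k) y = 0) →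
      (∀ k x, V 0 k x = x) → (∀ A k x, V (A + 1) k x = V A k (v A k x)) →
      (∀ i k k' k'' (h : k ≤ k') (h' : k' ≤ k'') y, ι i h' (ι i h y) = ι i (h.trans h') y) →
      (∀ i k (g : G) m y, β i k (g • m) (g • y) = (χ g : ZMod p) * β i k m y) →
      (∀ k, Function.Bijective (β 0 k).flip) →
      (∀ A k k' (h : k ≤ k') m y, β A k' m (ι A h (W A k y)) = β 0 k (V A k (r A h m)) y) →
      (∀ i k x, ε i k (ε i k x) = ε i k x) → (∀ i k, T3.Hig p G (ε i k)) →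
      (∀ i k k' (h : k ≤ k') x, r i h (ε i k' x) = ε i k (r i h x)) →
      (∀ A k x, V A k (ε A k x) = ε 0 k (V A k x)) →
      (∀ i k x, π i k (ε i k x) = ε' i k (π i k x)) →
    ∀ s b : ℕ, s + b = d →
      (∃ A, ∀ k, ∀ Z ∈ ZZ G (D 0 k) b, ∃ k', ∃ h : k ≤ k',
        (fun y => ι A h (W A k y)) ∘ Z ∈ BB G (D A k') b) →
      (∀ i, PF G s (M' i) fun h x => ε' i _ (r' i h x)) →
      PF G s (M 0) fun h x => ε 0 _ (r 0 h x)

/-- (BV) for triangular cocycles, by induction on the size. -/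
def KMT : Prop :=
  ∀ (p : ℕ) [Fact p.Prime] (G K : Type) [TopologicalSpace G] [Group G] [IsTopologicalGroup G]
    [Field K] [CharP K p] (c : ℕ) (S : SA G K c) (L : Subgroup S.Coc) (v : RR K c) (β : S.Coc),
    β ∈ L → (∀ g, S.φ g v = val β g * v) →
    ∀ (ι : Type) [Fintype ι] [DecidableEq ι] (ρ : MC S ι), Tri ρ L →
    ∀ m : S.Coc, (∀ d ∈ L, S.BV p v β (m * d)) → BVM p ρ v β m

/-- Lifting of Higman's condition from the residue field. -/
def HGL : Prop :=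
  ∀ (E k P ι : Type) [CommRing E] [Field k] [Group P] [Fintype P] [Fintype ι] [DecidableEq ι]
    (π : E →+* k) (φ : P → E →+* E) (ρ : P → Matrix ι ι E) (ε : Matrix ι ι E)
    (θ : Matrix ι ι k), Function.Surjective π → (∀ x, π x ≠ 0 → IsUnit x) →
    (∀ x, φ 1 x = x) → (∀ g g' x, φ (g * g') x = φ g (φ g' x)) → (∀ g x, π (φ g x) = π x) →
    ρ 1 = 1 → (∀ g g', ρ (g * g') = ρ g * (ρ g').map (φ g)) → ε * ε = ε →
    (∀ g, ε * ρ g = ρ g * ε.map (φ g)) →
    ∑ g, (ρ g).map π * θ * (ρ g⁻¹).map π = ε.map π →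
    ∃ θ' : Matrix ι ι E, ∑ g, ρ g * θ'.map (φ g) * (ρ g⁻¹).map (φ g) = ε

/-- From matrices to modules. -/
def HGH : Prop :=
  ∀ (p : ℕ) (G K : Type) [TopologicalSpace G] [Group G] [Field K] (c : ℕ) (S : SA G K c)
    (ι : Type) [Fintype ι] [DecidableEq ι] (ρ : MC S ι) (ε : Matrix ι ι (RR K c)), Hg p ρ ε →
    ∀ (I : S.SI) (l : S.Coc), T3.Hig p G (Mw.mat ρ I l ε)

/-- The tower step with coefficients. -/
def MCS : Prop :=
  ∀ (p d : ℕ) [Fact p.Prime] (G K : Type) [TopologicalSpace G] [Group G] [IsTopologicalGroup G]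
    [Field K] [CharP K p] [Finite K] (χ : G →* (ZMod p)ˣ), T3.PDMc d χ → FinG G p →
    ∀ (c : ℕ) (S : SA G K (c + 1)) (S' : SA G K c),
    (∀ g r, kf K c (S.φ g r) = S'.φ g (kf K c r)) →
    ∀ (ι : Type) [Fintype ι] [DecidableEq ι] (ρ ρ' : MC S ι) (ρ₁ : MC S' ι)
      (ε : Matrix ι ι (RR K (c + 1))) (ε₁ : Matrix ι ι (RR K c)),
    (∀ g, (ρ.ρ g).map (kf K c) = ρ₁.ρ g) → (∀ g, (ρ'.ρ g)ᵀ * ρ.ρ g = 1) → ε.map (kf K c) = ε₁ →
    ε * ε = ε → (∀ g, ε * ρ.ρ g = ρ.ρ g * ε.map (S.φ g)) → Hg p ρ ε →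
    ∀ (l : S.Coc) (l' : ℕ → S'.Coc), (∀ i g, kf K c (val (l * S.bc 0 ^ i) g) = val (l' i) g) →
    ∀ m κ : S.Coc, (∀ g, val κ g = C (ZMod.castHom (dvd_refl p) K (χ g))) → l * m = S.J * κ →
    BVM p ρ' (X 0) (S.bc 0) m → ∀ s ≤ d, (∀ i, PFM p ρ₁ ε₁ s (l' i)) → PFM p ρ ε s l

end Vale.Agent.P261Z.D
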