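import Vale.Agent.P261Z.D.McS

/-!
# P261, block D with coefficients: base cases and change of the tower
-/

open MvPowerSeries Matrix

set_option linter.unusedSectionVars false

namespace Vale.Agent.P261Z.D

open Vale.Agent.P251 Vale.Agent.P251.C Vale.Agent.P261Z.Ev _root_.P261.Ser _root_.P261.Ser.SA

theorem hz_eps {p d : ℕ} [Fact p.Prime] {G : Type} [Group G] [TopologicalSpace G]
    [IsTopologicalGroup G] [CompactSpace G] [T2Space G] [TotallyDisconnectedSpace G]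
    (V : I.VirtUnif p d G) (hV : T3.IsUnifS p d V.U) {M : Type} [AddCommGroup M]
    [DistribMulAction G M] [DiscMod G M] (hM : ∀ m : M, p • m = 0) (ε : M →+[G] M)
    (h1 : ∀ x, ε (ε x) = ε x) (h2 : T3.Hig p G ε) {s : ℕ} (hs : d < s) : HZ G s ε := by
  obtain ⟨s, rfl⟩ := Nat.exists_eq_add_one_of_ne_zero (show s ≠ 0 by omega)
  let u : M →+[G] M := eqa ((ε : M →+ M) - AddMonoidHom.id M) fun g x => by
    simp [smul_sub]
  have hu : ∀ x, u x = ε x - x := fun _ => rfl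
  let q := TopH.toKer ε u fun x => by rw [hu, h1, sub_self]
  have hq : ∀ x, Ker.inc u (q x) = ε x := fun _ => rfl
  have hC : T3.Cl p G (Ker u) := fun P _ hP => by
    obtain ⟨θ, hθ⟩ := h2 P inferInstance hP
    refine ⟨(q : M →+ Ker u).comp (θ.comp (Ker.inc u : Ker u →+ M)), fun m => ?_⟩
    have h3 : ε (Ker.inc u m) = Ker.inc u m := sub_eq_zero.1 (Ker.map_inc u m)
    have h4 := congrArg q (hθ (Ker.inc u m))
    rw [finsum_eq_sum_of_fintype, map_sum, h3,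
      Ker.inc_injective u ((hq (Ker.inc u m)).trans h3)] at h4
    refine Eq.trans (Finset.sum_congr (by congr) fun g _ => ?_) h4
    rw [map_smul q, ← map_smul (Ker.inc u)]
    rfl
  exact fun F hF => BB.map (mem_BB_of_hzero
    (T3.hZero_cl V hV _ hs _ (Ker.nsmul_eq_zero u hM) hC) (ZZ.map hF q)) (Ker.inc u)

variable {G K : Type} [TopologicalSpace G] [Group G] [Field K] {c : ℕ} {p : ℕ} [hp : Fact p.Prime]
  [CharP K p] {ι : Type} [Fintype ι] [DecidableEq ι]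

theorem bdM_of_le {S : SA G K c} {ρ : MC S ι} {ε : Matrix ι ι (RR K c)}
    (hε : ∀ g, ε * ρ.ρ g = ρ.ρ g * ε.map (S.φ g)) {I I' I'' : S.SI} (h : I.1 ≤ I'.1)
    (h' : I'.1 ≤ I''.1) {s n : ℕ} (l : S.Coc) (hn : Bd G s (id : Mw ρ I' l → Mw ρ I' l) n)
    {u : S.Tw I l →ₗ[RR K c] S.Tw I'' l} (hu : ∀ x, u (cl _ _ x) = cl _ _ x) :
    Bd G s (fun x => Mw.mat ρ I'' l ε (Mw.lift ρ u x)) n := by
  have h1 : ∀ y ∈ I.1, 1 * y ∈ I'.1 := fun y hy => I'.1.mul_mem_left _ (h hy)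
  have h2 : ∀ y ∈ I'.1, 1 * y ∈ I''.1 := fun y hy => I''.1.mul_mem_left _ (h' hy)
  convert ((hn.comp_left (Mw.map ρ (mul _ _ l l 1 h2) (mul_equi h2 fun g => by simp))).comp_left
    (Mw.eps _ _ hε)).comp_right (Mw.map ρ (mul _ _ l l 1 h1) (mul_equi h1 fun g => by simp))
    using 1
  funext x
  obtain ⟨x, rfl⟩ := Mw.exists_rep x
  refine congrArg _ (Mw.ext fun a => ?_)
  simp only [Function.comp_apply, id, Mw.map_eq, Mw.lift_apply, hu, mul_cl, one_mul]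

theorem pfm_zero (hF : FinG G p) [Finite K] {S : SA G K 0} {ρ : MC S ι} {ε : Matrix ι ι (RR K 0)}
    (hε : ∀ g, ε * ρ.ρ g = ρ.ρ g * ε.map (S.φ g)) (s : ℕ) (l : S.Coc) : PFM p ρ ε s l := by
  obtain ⟨n, hn⟩ := hF (Mw ρ (S.II p 0 0) l) (Mw.nsmul_eq_zero p) s
  exact ⟨n, fun k => ⟨k, le_rfl, bdM_of_le hε ((IN_zero _).trans_le bot_le)
    ((IN_zero _).trans_le bot_le) l hn (S.pr_cl p 0 le_rfl l)⟩⟩

theorem pfm_of_hz {S : SA G K c} {ρ : MC S ι} {ε : Matrix ι ι (RR K c)} {s : ℕ} {l : S.Coc}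
    (h : ∀ e, HZ G s (Mw.mat ρ (S.II p c e) l ε)) : PFM p ρ ε s l :=
  ⟨1, fun k => ⟨k, le_rfl, ((h k).comp_right (Mw.map ρ (S.pr c le_rfl l) (S.pr_equi _ _ l))).bd⟩⟩

theorem pf_of_tau {S : SA G K c} {ρ : MC S ι} {ε : Matrix ι ι (RR K c)} {l : S.Coc}
    {W : ℕ → Type} [∀ j, AddCommGroup (W j)] [∀ j, DistribMulAction G (W j)]
    (E : ∀ j, W j → W j) (R : ∀ {j j' : ℕ}, j ≤ j' → W j' → W j)
    (τ : ∀ j, (ι → RR K c) →+ W j) (hs : ∀ j, Function.Surjective (τ j))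
    (hk : ∀ j x, τ j x = 0 ↔ ∀ a, x a ∈ IX (Fin c) K ^ (j + 1))
    (hg : ∀ j g x, τ j (fun b => ∑ a, ρ.ρ g b a * (val l g * S.φ g (x a))) = g • τ j x)
    (he : ∀ j x, τ j (fun b => ∑ a, ε b a * x a) = E j (τ j x))
    (hr : ∀ j j' (hj : j ≤ j') x, R hj (τ j' x) = τ j x) {s : ℕ} (h : PFM p ρ ε s l) :
    PF G s W fun hj x => E _ (R hj x) := by
  obtain ⟨κ, hκ⟩ : ∃ κ : ∀ I, (ι → RR K c) →+ Mw ρ I l, ∀ I x a, κ I x a = cl I l (x a) :=
    ⟨fun I => AddMonoidHom.mk' (fun x => ⟨fun a => cl I l (x a)⟩)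
      fun _ _ => Mw.ext fun _ => map_add (cl I l) _ _, fun _ _ _ => rfl⟩
  have ks : ∀ I, Function.Surjective (κ I) := fun I y => by
    obtain ⟨x, rfl⟩ := Mw.exists_rep y
    exact ⟨x, Mw.ext (hκ I x)⟩
  have kg : ∀ I g x, κ I (fun b => ∑ a, ρ.ρ g b a * (val l g * S.φ g (x a))) = g • κ I x :=
    fun I g x => Mw.ext fun b => by
      simp only [hκ, Mw.smul_apply, g_cl, smul_cl, map_sum]
  obtain ⟨m, h⟩ := h
  refine ⟨m, fun j => ?_⟩
  obtain ⟨e', he', h⟩ := h (j + 1)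
  have hj : j ≤ j + c * p ^ e' := Nat.le_add_right _ _
  obtain ⟨u, hu⟩ : ∃ u : Mw ρ (S.II p c (j + 1)) l →+ W j, ∀ x, u (κ _ x) = τ j x :=
    ⟨(κ _).liftOfSurjective (ks _) ⟨τ j, fun x hx => (hk j x).2 fun a =>
      Ideal.pow_le_pow_right (Nat.lt_pow_self hp.out.one_lt).le (IN_le_pow _ _
        ((cl_eq_zero _ _).1 ((hκ _ x a).symm.trans (congrArg (fun z => z a) hx))))⟩,
      AddMonoidHom.liftOfRightInverse_comp_apply _ _ (Function.rightInverse_surjInv (ks _)) _⟩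
  obtain ⟨v, hv⟩ : ∃ v : W (j + c * p ^ e') →+ Mw ρ (S.II p c e') l, ∀ x, v (τ _ x) = κ _ x :=
    ⟨(τ _).liftOfSurjective (hs _) ⟨κ _, fun x hx => Mw.ext fun a => (hκ _ x a).trans
      ((cl_eq_zero _ _).2 (pow_le_IN _ (Ideal.pow_le_pow_right (by omega) ((hk _ x).1 hx a))))⟩,
      AddMonoidHom.liftOfRightInverse_comp_apply _ _ (Function.rightInverse_surjInv (hs _)) _⟩
  refine ⟨_, hj, ?_⟩
  convert (h.comp_left (eqa u fun g a => ?_)).comp_right (eqa v fun g a => ?_) using 1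
  · funext y
    obtain ⟨x, rfl⟩ := hs _ y
    change E _ (R hj _) = u (Mw.mat ρ _ l ε (Mw.lift ρ (S.pr c he' l) (v _)))
    rw [hr, ← he, ← hu]
    refine congrArg u (Mw.ext fun b => ?_)
    simp only [hv, hκ, Mw.mat_apply, Mw.lift_apply, pr_cl, smul_cl, map_sum]
  · obtain ⟨x, rfl⟩ := ks _ a
    rw [← kg, hu, hu, hg]
  · obtain ⟨x, rfl⟩ := hs _ a
    rw [← hg, hv, hv, kg]

end Vale.Agent.P261Z.D
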