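import Vale.Agent.P261Z.D.Mc

/-!
# P261, block D with coefficients: the tower step
-/

open MvPowerSeries Matrix

set_option linter.unusedSectionVars false

namespace Vale.Agent.P261Z.D

open Vale.Agent.P251.C Vale.Agent.P261Z.Ev _root_.P261.Ser _root_.P261.Ser.SA

variable {G K : Type} [TopologicalSpace G] [Group G] [Field K] {c : ℕ} {p : ℕ} [hp : Fact p.Prime]
  [CharP K p] {ι : Type} [Fintype ι] [DecidableEq ι]

section pair

variable {S : SA G K c} (ρ ρ' : MC S ι) (e : ℕ) (l l' : S.Coc) (lam : K →+ ZMod p)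

/-- the pairing -/
noncomputable def pm : Mw ρ (S.II p c e) l →+ Mw ρ' (S.II p c e) l' →+ ZMod p :=
  AddMonoidHom.mk' (fun x => AddMonoidHom.mk' (fun y => lam (∑ a, S.pair p e l l' (x a) (y a)))
    fun y y' => by simp only [Mw.add_apply, map_add, Finset.sum_add_distrib])
    fun x x' => AddMonoidHom.ext fun y => by
      simp only [Mw.add_apply, map_add, LinearMap.add_apply, Finset.sum_add_distrib,
        AddMonoidHom.mk'_apply, AddMonoidHom.add_apply]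

theorem pm_apply (x : Mw ρ (S.II p c e) l) (y : Mw ρ' (S.II p c e) l') :
    pm ρ ρ' e l l' lam x y = lam (∑ a, S.pair p e l l' (x a) (y a)) := rfl

theorem pair_mat (A B : Matrix ι ι (RR K c)) (h : Bᵀ * A = 1) (x : ι → S.T p e l)
    (y : ι → S.T p e l') : ∑ a, S.pair p e l l' (∑ b, A a b • x b) (∑ b, B a b • y b) =
      ∑ a, S.pair p e l l' (x a) (y a) := by
  have h1 : ∀ a, S.pair p e l l' (∑ b, A a b • x b) (∑ b, B a b • y b) =
      ∑ b, S.pair p e l l' (Bᵀ b a • ∑ b', A a b' • x b') (y b) := fun a => by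
    simp only [map_sum (S.pair p e l l' _), S.pair_smul, transpose_apply]
  simp only [h1]
  rw [Finset.sum_comm]
  refine Finset.sum_congr rfl fun b _ => ?_
  rw [← LinearMap.sum_apply, ← map_sum, ← Mw.sum_mul, h, Mw.sum_one]

theorem pm_inv (h : ∀ g, (ρ'.ρ g)ᵀ * ρ.ρ g = 1) {κ : S.Coc}
    (hl : l * l' * S.B c ^ p ^ e = S.J * κ) {g : G} {a : ZMod p}
    (hκ : val κ g = C (ZMod.castHom (dvd_refl p) K a))
    (hlam : ∀ (a : ZMod p) z, lam (ZMod.castHom (dvd_refl p) K a * z) = a * lam z)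
    (x : Mw ρ (S.II p c e) l) (y : Mw ρ' (S.II p c e) l') :
    pm ρ ρ' e l l' lam (g • x) (g • y) = a * pm ρ ρ' e l l' lam x y := by
  rw [pm_apply, pm_apply, ← hlam, Finset.mul_sum]
  simp only [Mw.smul_apply]
  rw [pair_mat e l l' _ _ (h g)]
  simp only [pair_tw p S e hl hκ]

theorem pm_bij [Finite K] (h1 : lam 1 = 1) : Function.Bijective (pm ρ ρ' e l l' lam).flip := by
  have : Finite (Mw ρ (S.II p c e) l →+ ZMod p) := DFunLike.finite _
  refine (Nat.bijective_iff_injective_and_card _).2 ⟨(injective_iff_map_eq_zero _).2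
    fun y hy => Mw.ext fun a => (S.pair_bij p e l' l).1 ?_, ?_⟩
  · rw [Mw.zero_apply, map_zero]
    refine LinearMap.ext fun x => by_contra fun hx => ?_
    have h := DFunLike.congr_fun hy ⟨Pi.single a ((S.pair p e _ _ (y a) x)⁻¹ • x)⟩
    rw [AddMonoidHom.flip_apply, pm_apply] at h
    dsimp only at h
    rw [Finset.sum_eq_single a, Pi.single_eq_same, S.pair_comm, map_smul, smul_eq_mul,
      inv_mul_cancel₀ hx, h1] at h
    · exact one_ne_zero h
    · intro b _ hb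
      rw [Pi.single_eq_of_ne hb, map_zero, LinearMap.zero_apply]
    · exact fun h => absurd (Finset.mem_univ a) h
  · rw [card_dual _ (Mw.nsmul_eq_zero p)]
    exact (Nat.card_congr (Mw.equiv ρ' _ l')).trans (Nat.card_congr (Mw.equiv ρ _ l)).symm

end pair

section pi

variable {S : SA G K (c + 1)} {S' : SA G K c} {ρ : MC S ι} {ρ₁ : MC S' ι} {l : S.Coc}
  {l' : S'.Coc} {I : S.SI} {I' : S'.SI}

theorem pi_sum {π : S.Tw I l →+[G] S'.Tw I' l'} (hπ : ∀ x, π (cl _ _ x) = cl _ _ (kf K c x))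
    (r : ι → RR K (c + 1)) (x : ι → S.Tw I l) :
    π (∑ b, r b • x b) = ∑ b, kf K c (r b) • π (x b) := by
  rw [map_sum]
  refine Finset.sum_congr rfl fun b _ => ?_
  obtain ⟨y, hy⟩ := cl_surj _ _ (x b)
  rw [← hy, smul_cl, hπ, hπ, smul_cl, map_mul]

theorem exists_piM (h : ∀ g, (ρ.ρ g).map (kf K c) = ρ₁.ρ g) {π : S.Tw I l →+[G] S'.Tw I' l'}
    (hπ : ∀ x, π (cl _ _ x) = cl _ _ (kf K c x)) :
    ∃ q : Mw ρ I l →+[G] Mw ρ₁ I' l', ∀ x a, q x a = π (x a) :=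
  ⟨eqa (AddMonoidHom.mk' (fun x => ⟨fun a => π (x a)⟩) fun _ _ => Mw.ext fun _ => map_add π _ _)
    fun g x => Mw.ext fun a => by
      simp only [AddMonoidHom.mk'_apply, Mw.smul_apply, pi_sum hπ, ← h, map_smul,
        Matrix.map_apply], fun _ _ => rfl⟩

end pi

theorem mcs (h1 : STEPE) (h2 : HGH) : MCS := by
  intro p d hp G K _ _ _ _ _ _ χ hPD hF c S S' hφ ι _ _ ρ ρ' ρ₁ ε ε₁ hρ hd hε e2 eρ hH l l' hl m κ
    hκ hm hBV s hs h'
  obtain ⟨lam, hlam, hlam1⟩ := exists_lam (p := p) K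
  obtain ⟨b, hb⟩ := Nat.exists_eq_add_of_le hs
  obtain ⟨A, hA⟩ := hBV b
  have hv := phi_X0 S
  have eρ₁ : ∀ g, ε₁ * ρ₁.ρ g = ρ₁.ρ g * ε₁.map (S'.φ g) := fun g => by
    rw [← hε, ← hρ, ← Matrix.map_mul, eρ, Matrix.map_mul, Matrix.map_map, Matrix.map_map]
    exact congrArg (fun f => _ * ε.map f) (funext (hφ g))
  choose π hπ using fun i e => exists_pi (p := p) hφ (hl i) e
  choose q hq using fun i e => exists_piM hρ (hπ i e)
  have hV : ∀ (A i : ℕ) (g : G), X 0 ^ A * val (l * S.bc 0 ^ (i + A)) g -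
      val (l * S.bc 0 ^ i) g * S.φ g (X 0 ^ A) = 0 := fun A i g => by
    rw [← S.semi_pow hv A (l * S.bc 0 ^ (i + A)) g, pow_add, ← mul_assoc, mul_inv_cancel_right]
  have hW : ∀ (A e : ℕ) (g : G),
      X 0 ^ A * val (m * (S.bc 0 ^ 0)⁻¹ * (S.B (c + 1) ^ p ^ e)⁻¹) g -
      val (m * (S.bc 0 ^ A)⁻¹ * (S.B (c + 1) ^ p ^ e)⁻¹) g * S.φ g (X 0 ^ A) = 0 := fun A e g => by
    rw [← S.semi_pow hv A (m * (S.bc 0 ^ 0)⁻¹ * (S.B (c + 1) ^ p ^ e)⁻¹) g, pow_zero, inv_one,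
      mul_one, mul_right_comm m]
  suffices h : PFM p ρ ε s (l * S.bc 0 ^ 0) by rwa [pow_zero, mul_one] at h
  refine h1 p d G χ hPD hF (fun i e => Mw ρ (S.II p (c + 1) e) (l * S.bc 0 ^ i))
    (fun i e => Mw ρ₁ (S'.II p c e) (l' i))
    (fun i e => Mw ρ' (S.II p (c + 1) e) (m * (S.bc 0 ^ i)⁻¹ * (S.B (c + 1) ^ p ^ e)⁻¹))
    (fun i e => Mw.nsmul_eq_zero p) (fun i e => Mw.nsmul_eq_zero p)
    (fun i _ _ h => Mw.map ρ (S.pr (c + 1) h _) (S.pr_equi _ h _))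
    (fun i _ _ h => Mw.map ρ₁ (S'.pr c h _) (S'.pr_equi _ h _)) q
    (fun i e => Mw.map ρ (S.mp p (c + 1) le_rfl (X 0 ^ 1) _ _)
      (S.mp_equi _ le_rfl fun g => by rw [hV 1 i g]; exact zero_mem _))
    (fun A e => Mw.map ρ (S.mp p (c + 1) le_rfl (X 0 ^ A) _ _)
      (S.mp_equi _ le_rfl fun g => by
        have := hV A 0 g
        rw [zero_add] at this
        rw [this]
        exact zero_mem _))
    (fun i _ _ h => Mw.map ρ' (S.tr (c + 1) h 1 _ _) (S.tr_equi _ h fun g => by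
      rw [map_one, mul_one, one_mul, sub_self]
      exact zero_mem _))
    (fun A e => Mw.map ρ' (S.mp p (c + 1) le_rfl (X 0 ^ A) _ _)
      (S.mp_equi _ le_rfl fun g => by rw [hW A e g]; exact zero_mem _))
    (fun i e => pm ρ ρ' e _ _ lam) (fun i e => Mw.eps _ _ eρ) (fun i e => Mw.eps _ _ eρ₁)
    (fun i _ _ _ h h' x => Mw.ext fun a => pr_pr S _ h h' (x a))
    (fun i k k' h x => Mw.ext fun a => ?_)
    (fun i _ _ h x => Mw.ext fun a => mp_pr S _ _ h _ (x a)) (fun i k y => ?_)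
    (fun i k x hx => ?_)
    (fun i k y hy => Mw.ext fun a => pr_of_mp S _ _ 0 (y a) (congrArg (fun z => z a) hy))
    (fun k x => Mw.ext fun a => mp_one S _ (pow_zero _) (x a))
    (fun A k x => Mw.ext fun a => mp_mp S _ (l * S.bc 0 ^ A) _ (pow_add _ A 1) (x a))
    (fun i _ k' _ h h' x => Mw.ext fun a =>
      tr_tr S _ (m * (S.bc 0 ^ i)⁻¹ * (S.B (c + 1) ^ p ^ k')⁻¹) _ h h' (x a))
    (fun i k g => pm_inv ρ ρ' k _ _ lam hd (κ := κ) ?_ (hκ g) hlam)
    (fun k => pm_bij ρ ρ' k _ _ lam hlam1) (fun A k k' h x y => ?_)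
    (fun i k x => (Mw.mat_mul ε ε x).symm.trans (by rw [e2]; rfl))
    (fun i k => h2 p G K _ S ι ρ ε hH _ _) (fun i k k' h x => Mw.lift_mat _ ε x)
    (fun A k x => Mw.lift_mat _ ε x) (fun i k x => Mw.ext fun a => ?_)
    s b hb.symm ⟨A, fun e Z hZ => ?_⟩ h'
  · rw [hq]
    exact (pi_pr (hπ i k) (hπ i k') h (x a)).trans (congrArg _ (hq i k' x a).symm)
  · choose x hx using fun a => pi_surj (hπ i k) (y a)
    exact ⟨⟨x⟩, Mw.ext fun a => (hq i k _ a).trans (hx a)⟩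
  · choose y hy using fun a => pi_ker (m := l * S.bc 0 ^ (i + 1)) (hπ i k) (x a)
      ((hq i k x a).symm.trans (congrArg (fun z => z a) hx))
    exact ⟨⟨y⟩, Mw.ext hy⟩
  · rw [← hm, mul_assoc, inv_mul_cancel_right, mul_mul_mul_comm, mul_inv_cancel, mul_one]
  · simp only [pm_apply, Mw.map_eq, Mw.lift_apply]
    refine congrArg lam (Finset.sum_congr rfl fun a _ => ?_)
    rw [tr_mp, mp_pr', S.pair_tr p h]
  · simp only [Mw.eps_eq, Mw.mat_apply, hq, pi_sum (hπ i k), ← hε, Matrix.map_apply]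
  · have hA' : KM p ρ' b (X 0 ^ A) (m * (S.bc 0 ^ 0)⁻¹) (m * (S.bc 0 ^ A)⁻¹) := by
      rwa [pow_zero, inv_one, mul_one]
    obtain ⟨e', he, h⟩ := hA' e Z hZ
    refine ⟨e', he, ?_⟩
    convert h using 1
    exact funext fun y => Mw.ext fun a =>
      tr_mp S _ (m * (S.bc 0 ^ A)⁻¹ * (S.B (c + 1) ^ p ^ e)⁻¹) _ he (X 0 ^ A) (Z y a)

end Vale.Agent.P261Z.D
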