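import Vale.Agent.P261Z.D.McI
import Vale.Agent.P261Z.D.Ind
import Vale.Agent.P261Z.X.Smith
import Vale.Agent.P261Z.T3.GNorm

/-!
# P261, block D with coefficients: the cocycles of the truncated polynomial rings
-/

open MvPowerSeries Matrix

set_option linter.unusedSectionVars false

namespace Vale.Agent.P261Z.D

open Vale.Agent.P251 Vale.Agent.P251.C Vale.Agent.P251.F Vale.Agent.P261Z.Ev _root_.P261.Ser
  _root_.P261.Ser.SA Vale.Agent.P261Z.X Vale.Agent.P261Z.JM Vale.Agent.P261Z.T3.Nm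

section ring

variable {E E' : Type} [CommRing E] [CommRing E'] {M : ℕ}

theorem sm_map (φ : E →+* E') (f : InvSeries E) :
    (Sm M f.val).map φ = Sm M (InvSeries.map φ f).val := by
  ext i j
  rw [Matrix.map_apply, Sm, Sm, of_apply, of_apply, InvSeries.map_val, ← map_pow,
    PowerSeries.coeff_map]

theorem sm_mul (f g : InvSeries E) : Sm M (g * f).val = Sm M f.val * Sm M g.val := by
  have h := Sm_mul (M := M) (RingHom.id E) f g
  rwa [sm_map, InvSeries.map_id] at h

theorem coeff_pow_lt (f : InvSeries E) {i j : ℕ} (h : i < j) :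
    PowerSeries.coeff i (f.val ^ j) = 0 :=
  PowerSeries.X_pow_dvd_iff.1 (pow_dvd_pow_of_dvd (PowerSeries.X_dvd_iff.2 f.cc) j) i h

theorem coeff_pow_self (f : InvSeries E) (j : ℕ) : PowerSeries.coeff j (f.val ^ j) = f.c 0 ^ j := by
  obtain ⟨w, hw⟩ := PowerSeries.X_dvd_iff.2 f.cc
  have h := PowerSeries.coeff_X_pow_mul (w ^ j) j 0
  rw [zero_add] at h
  rw [InvSeries.c, hw, PowerSeries.coeff_succ_X_mul, mul_pow, h,
    PowerSeries.coeff_zero_eq_constantCoeff_apply, PowerSeries.coeff_zero_eq_constantCoeff_apply,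
    map_pow]

theorem emat_sq {ι κ : Type} [Fintype ι] [DecidableEq ι] [Fintype κ] [DecidableEq κ] {p : ℕ}
    (hp : (p : E) = 0) {c : MonoidAlgebra ℤ (Equiv.Perm ι)} {μ : ℤ} (h : c * c = μ • c)
    (hμ : (p : ℤ) ∣ μ - 1) : emat E κ c * emat E κ c = emat E κ c := by
  obtain ⟨m, hm⟩ := hμ
  ext b a
  simp only [Matrix.mul_apply, emat_apply, ← Int.cast_mul]
  rw [← Int.cast_sum, ← mat_mul, h, mat_smul, eq_add_of_sub_eq hm]
  simp [hp]

end ring

section gen

variable {G K : Type} [TopologicalSpace G] [Group G] [Field K] {c : ℕ} {κ : Type} [Fintype κ]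
  [DecidableEq κ]

theorem lcm_inv {Y : Type} [TopologicalSpace Y] {A B : Y → Matrix κ κ (RR K c)}
    (h : ∀ y, A y * B y = 1) (hA : ∀ a b, LCm fun y => A y a b) (a b : κ) :
    LCm fun y => B y a b := fun N => by
  have h1 : IsLocallyConstant fun y => (A y).map (Ideal.Quotient.mk (IX (Fin c) K ^ N)) :=
    (IsLocallyConstant.iff_eventually_eq _).2 fun y => by
      filter_upwards [Filter.eventually_all.2 fun a => Filter.eventually_all.2 fun b =>
        (IsLocallyConstant.iff_eventually_eq _).1 (hA a b N) y] with z hz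
      exact Matrix.ext hz
  convert h1.comp fun Z => Z⁻¹ a b using 2 with y
  rw [Function.comp_apply, Matrix.inv_eq_right_inv (B := (B y).map (Ideal.Quotient.mk _))
    (by rw [← Matrix.map_mul, h, Matrix.map_one _ (map_zero _) (map_one _)]), Matrix.map_apply]

theorem lcm_pow {Y : Type} [TopologicalSpace Y] {f : Y → PowerSeries (RR K c)}
    (h : ∀ i, LCm fun y => PowerSeries.coeff i (f y)) (j : ℕ) :
    ∀ i, LCm fun y => PowerSeries.coeff i (f y ^ j) := by
  induction j with
  | zero => exact fun i => by simpa only [pow_zero] using LCm.const _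
  | succ j ih =>
    intro i
    simp only [pow_succ, PowerSeries.coeff_mul]
    exact LCm.sum _ fun x _ => (ih _).mul (h _)

variable {S : SA G K c}

/-- tensor powers -/
noncomputable def MC.tens (ρ : MC S κ) (ι : Type) [Fintype ι] [DecidableEq ι] : MC S (ι → κ) where
  ρ g := tpi fun _ => ρ.ρ g
  one := by rw [ρ.one, tpi_one]
  mul g g' := by
    rw [ρ.mul, ← tpi_mul]
    exact congrArg _ (tpi_map (S.φ g : RR K c →+* RR K c) _).symm
  lc a b := LCm.prod _ fun i _ => ρ.lc (a i) (b i)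

variable {ι : Type} [Fintype ι] [DecidableEq ι]

theorem emat_tens (ρ : MC S κ) (e : MonoidAlgebra ℤ (Equiv.Perm ι)) (g : G) :
    emat (RR K c) κ e * (ρ.tens ι).ρ g = (ρ.tens ι).ρ g * (emat (RR K c) κ e).map (S.φ g) :=
  (emat_tpi e _).trans (congrArg _ (emat_map (S.φ g : RR K c →+* RR K c) e).symm)

theorem hg_tens {p : ℕ} (ρ : MC S κ) {e : MonoidAlgebra ℤ (Equiv.Perm ι)}
    (kill : ∀ a b : ι → κ, (Finset.univ.image b).card < Fintype.card κ → mat e a b = 0)
    (h : ∀ (P : Subgroup G) [Fintype P], IsPGroup p P → ∃ a b, IsUnit (∑ g : P, ρ.ρ g a b)) :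
    Hg p (ρ.tens ι) (emat (RR K c) κ e) := fun P _ hP => by
  obtain ⟨a, b, hu⟩ := h P hP
  exact IsCoc.smith_hg (φ := fun g : P => (S.φ g : RR K c →+* RR K c)) (ρ := fun g : P => ρ.ρ g)
    ⟨fun g g' x => S.φ_mul g g' x, ρ.one, fun g g' => ρ.mul g g'⟩ hu kill

end gen

variable {p : ℕ} [hp : Fact p.Prime] {h c : ℕ} {G K : Type} [Group G] [TopologicalSpace G] [Field K]
  [CharP K p] (A : N.RG p h c G K) (hh : 1 ≤ h) (M : ℕ)

theorem lcm_sm (i j : Fin M) : LCm fun g => Sm M (A.ser g).val i j :=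
  lcm_pow (f := fun g => (A.ser g).val) (fun i => by
    rcases i with _ | i
    · simpa only [PowerSeries.coeff_zero_eq_constantCoeff_apply, InvSeries.cc] using LCm.const _
    · exact (lCm_iff _).2 (A.cont_ser i)) j i

theorem sm_inv (g : G) : Sm M (A.ser g).val * Sm M (A.ser g)⁻¹.val = 1 := by
  rw [← sm_mul, inv_mul_cancel, Sm_one]

/-- the action on `R[y] / y ^ M` -/
noncomputable def mA : MC (sa A hh) (Fin M) where
  ρ g := Sm M (A.ser g)⁻¹.val
  one := by rw [A.ser_one, inv_one, Sm_one]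
  mul g g' := by
    rw [A.ser_mul, _root_.mul_inv_rev, ← map_inv, Sm_mul]
    rfl
  lc := lcm_inv (sm_inv A M) (lcm_sm A M)

/-- the dual action -/
noncomputable def mD : MC (sa A hh) (Fin M) where
  ρ g := (Sm M (A.ser g).val)ᵀ
  one := by rw [A.ser_one, Sm_one, transpose_one]
  mul g g' := by
    rw [A.ser_mul, sm_mul, transpose_mul, ← sm_map]
    rfl
  lc a b := lcm_sm A M b a

variable (ι : Type) [Fintype ι] [DecidableEq ι]

theorem mD_mul (g : G) : (((mD A hh M).tens ι).ρ g)ᵀ * ((mA A hh M).tens ι).ρ g = 1 := by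
  refine (tpi_mul (fun _ : ι => Sm M (A.ser g).val) _).trans ?_
  rw [← tpi_one]
  exact congrArg tpi (funext fun _ => sm_inv A M g)

theorem tri_mD : Tri ((mD A hh M).tens ι) (Subgroup.zpowers (tc A hh)) := by
  refine ⟨fun a => -∑ i, (a i : ℤ), fun a => tc A hh ^ ∑ i, (a i : ℕ),
    fun a => Subgroup.npow_mem_zpowers _ _, fun g a => ?_, fun g a b hab h => ?_⟩
  · rw [val_pow, ← Finset.prod_pow_eq_pow_sum]
    exact Finset.prod_congr rfl fun i _ => coeff_pow_self (A.ser g) (a i)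
  · obtain ⟨i, hi⟩ : ∃ i, (b i : ℕ) < a i := by
      by_contra h1
      have h2 : ∀ i ∈ Finset.univ, (a i : ℤ) ≤ b i := fun i _ =>
        Int.ofNat_le.2 (not_lt.1 fun e => h1 ⟨i, e⟩)
      refine hab (funext fun i => Fin.ext (Int.natCast_inj.1 ?_))
      exact (Finset.sum_eq_sum_iff_of_le h2).1
        (le_antisymm (Finset.sum_le_sum h2) (neg_le_neg_iff.1 h)) i (Finset.mem_univ i)
    exact Finset.prod_eq_zero (Finset.mem_univ i) (coeff_pow_lt (A.ser g) hi)

end Vale.Agent.P261Z.D
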