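import Vale.Agent.P261Z.D.Sk
import Vale.Agent.P261Z.D.Basic
import Vale.Agent.P261Z.Ser.Dual

/-!
# P261, block D: the tower step for twisted quotients of power series rings
-/

open MvPowerSeries

namespace Vale.Agent.P261Z.D

open Vale.Agent.P251.C Vale.Agent.P261Z.T1 Vale.Agent.P261Z.Ev _root_.P261.Ser _root_.P261.Ser.SA

section cb

variable {G : Type} [Group G] [TopologicalSpace G] {M N : Type} [AddCommGroup M]
  [DistribMulAction G M] [AddCommGroup N] [DistribMulAction G N] {s : ℕ}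

theorem cb_iff {F : (Fin (s + 1) → G) → M} : Cb G s F ↔ F ∈ BB G M s := by
  cases s with
  | zero =>
    rw [mem_BB_zero]
    refine ⟨?_, ?_⟩
    · rintro ⟨Y, -, h, rfl⟩
      rw [h rfl, dd_zero]
    · rintro rfl
      exact ⟨0, IsCoch.zero, fun _ => rfl, dd_zero⟩
  | succ s =>
    exact ⟨fun ⟨Y, h, _, e⟩ => ⟨Y, h, e⟩, fun ⟨Y, h, e⟩ => ⟨Y, h, fun h => absurd h (by omega), e⟩⟩

theorem Bd.hMapBd {u : M →+[G] N} {n : ℕ} (h : Bd G s u n) : HMapBd G s n u := by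
  obtain ⟨S, hS, h⟩ := h
  intro F hF hd
  choose z hz hb using fun i => h (F i) ⟨hF i, hd i⟩
  obtain ⟨a, b, hab, e⟩ := Fintype.exists_ne_map_eq_of_card_lt (fun i => (⟨z i, hz i⟩ : S))
    (by simpa using Nat.lt_succ_of_le hS)
  refine ⟨a, b, hab, cb_iff.2 ?_⟩
  have h1 := sub_mem (hb a) (hb b)
  rw [show z a = z b from congrArg Subtype.val e, sub_sub_sub_cancel_right] at h1
  convert h1 using 1
  funext x
  exact map_sub u _ _

omit [TopologicalSpace G] in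
/-- an equivariant additive map -/
def eqa (u : M →+ N) (h : ∀ (g : G) a, u (g • a) = g • u a) : M →+[G] N where
  toFun := u
  map_smul' := h
  map_zero' := u.map_zero
  map_add' := u.map_add

variable {R : Type} [Semiring R] [Module R M] [Module R N]

omit [TopologicalSpace G] in
/-- an equivariant linear map -/
def eqv (u : M →ₗ[R] N) (h : ∀ (g : G) a, u (g • a) = g • u a) : M →+[G] N where
  toFun := u
  map_smul' := h
  map_zero' := u.map_zero
  map_add' := u.map_add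

omit [TopologicalSpace G] in
theorem eqv_apply (u : M →ₗ[R] N) (h : ∀ (g : G) a, u (g • a) = g • u a) (a : M) :
    eqv u h a = u a := rfl

end cb

section dual

variable {p : ℕ} [Fact p.Prime]

theorem card_dual' (M : Type) [AddCommGroup M] [Finite M] [Module (ZMod p) M] :
    Nat.card (M →+ ZMod p) = Nat.card M :=
  Nat.card_congr ((AddMonoidHom.toZModLinearMapEquiv p).toEquiv.trans
    (Module.finBasis (ZMod p) M).toDualEquiv.toEquiv.symm)

theorem card_dual (M : Type) [AddCommGroup M] [Finite M] (hM : ∀ m : M, p • m = 0) :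
    Nat.card (M →+ ZMod p) = Nat.card M :=
  @card_dual' p _ M _ _ (AddCommGroup.zmodModule hM)

theorem exists_lam (K : Type) [Field K] [CharP K p] : ∃ lam : K →+ ZMod p,
    (∀ (a : ZMod p) z, lam (ZMod.castHom (dvd_refl p) K a * z) = a * lam z) ∧ lam 1 = 1 := by
  let := (ZMod.castHom (dvd_refl p) K).toAlgebra
  obtain ⟨π, hπ⟩ := (Algebra.linearMap (ZMod p) K).exists_leftInverse_of_injective
    (LinearMap.ker_eq_bot.2 (ZMod.castHom (dvd_refl p) K).injective)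
  exact ⟨π, fun a b => π.map_smul a b, by simpa using LinearMap.congr_fun hπ 1⟩

end dual

section kf

variable {K : Type} [Field K] {c : ℕ}

/-- the quotient by the first variable -/
noncomputable def kf (K : Type) [Field K] (c : ℕ) : RR K (c + 1) →ₐ[K] RR K c :=
  killCompl (Fin.succEmb c)

theorem kf_zero : kf K c (X 0) = 0 :=
  killCompl_X_eq_zero (by
    rintro ⟨j, hj⟩
    exact Fin.succ_ne_zero j hj)

theorem kf_succ (j : Fin c) : kf K c (X j.succ) = X j := killCompl_X (e := Fin.succEmb c) j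

theorem kf_C (a : K) : kf K c (C a) = C a := killCompl_C a

theorem kf_surj : Function.Surjective (kf K c) := fun x =>
  ⟨rename (Fin.succEmb c) x, killCompl_rename_app x⟩

theorem kf_mem {N : ℕ} (hN : N ≠ 0) {x : RR K (c + 1)} (h : x ∈ IN K (c + 1) (c + 1) N) :
    kf K c x ∈ IN K c c N := by
  refine (Ideal.span_le (I := (IN K c c N).comap (kf K c))).2 ?_ h
  rintro _ ⟨j, -, rfl⟩
  change kf K c (X j ^ N) ∈ IN K c c N
  rw [map_pow]
  refine Fin.cases ?_ (fun j => ?_) j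
  · rw [kf_zero, zero_pow hN]
    exact zero_mem _
  · rw [kf_succ]
    exact X_pow_mem j.2 N

theorem exists_of_kf {N : ℕ} {x : RR K (c + 1)} (h : kf K c x ∈ IN K c c N) :
    ∃ y, X 0 * y - x ∈ IN K (c + 1) (c + 1) N := by
  have h1 : rename (Fin.succEmb c) (kf K c x) ∈ IN K (c + 1) (c + 1) N := by
    refine (Ideal.span_le (I := (IN K (c + 1) (c + 1) N).comap
      (rename (R := K) (Fin.succEmb c)))).2 ?_ h
    rintro _ ⟨j, -, rfl⟩
    change rename (Fin.succEmb c) (X j ^ N : RR K c) ∈ IN K (c + 1) (c + 1) N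
    rw [map_pow, rename_X]
    exact X_pow_mem (Fin.succEmb c j).2 N
  obtain ⟨y, hy⟩ : (X 0 : RR K (c + 1)) ∣ x - rename (Fin.succEmb c) (kf K c x) := by
    refine X_dvd_iff.2 fun m hm => ?_
    obtain ⟨d, rfl⟩ : ∃ d : Fin c →₀ ℕ, Finsupp.embDomain (Fin.succEmb c) d = m := by
      refine ⟨m.tail, Finsupp.ext fun j => ?_⟩
      refine Fin.cases ?_ (fun j => ?_) j
      · rw [hm]
        exact Finsupp.embDomain_of_notMem_range _ _ _ (by
          rintro ⟨j, hj⟩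
          exact Fin.succ_ne_zero j hj)
      · exact Finsupp.embDomain_apply_self (Fin.succEmb c) _ j
    rw [map_sub, coeff_embDomain_rename, kf, coeff_killCompl, sub_self]
  refine ⟨y, ?_⟩
  rw [← hy, sub_sub_cancel_left]
  exact neg_mem h1

theorem mem_of_X_mul {N N' : ℕ} (hN : N < N') {i : Fin c} {z : RR K c}
    (h : X i * z ∈ IN K c c N') : z ∈ IN K c c N := by
  rw [mem_IN] at h ⊢
  intro d hd
  have := h (d + Finsupp.single i 1) fun j hj => by
    have h1 := hd j hj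
    have h2 : Finsupp.single i 1 j ≤ 1 := by
      rw [Finsupp.single_apply]
      split_ifs <;> omega
    rw [Finsupp.add_apply]
    omega
  rwa [← pow_one (X i : RR K c), coeff_X_pow_mul', if_pos (by simp), add_tsub_cancel_right] at this

end kf

variable {G K : Type} [TopologicalSpace G] [Group G] [Field K] {c : ℕ} (p : ℕ) [hp : Fact p.Prime]
  [CharP K p]

/-- the tower of the modules `R / (u ^ p ^ e)` has bounded stable images in cohomology -/
def PFT (S : SA G K c) (s : ℕ) (l : S.Coc) : Prop :=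
  PF G s (fun e => S.T p e l) fun h => S.pr c h l

omit hp in
theorem nsmul_Tw {S : SA G K c} (I : S.SI) (l : S.Coc) (a : S.Tw I l) : p • a = 0 := by
  rw [← Nat.cast_smul_eq_nsmul K, CharP.cast_eq_zero, zero_smul]

instance [Finite K] (S : SA G K c) (e : ℕ) (l : S.Coc) : Finite (S.T p e l) :=
  Module.finite_of_finite K

theorem pair_tw (S : SA G K c) (e : ℕ) {l l' κ : S.Coc} (h : l * l' * S.B c ^ p ^ e = S.J * κ)
    {g : G} {a : K} (hκ : val κ g = C a) (x : S.T p e l) (y : S.T p e l') :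
    S.pair p e l l' (g • x) (g • y) = a * S.pair p e l l' x y := by
  obtain ⟨x, rfl⟩ := cl_surj _ _ x
  obtain ⟨y, rfl⟩ := cl_surj _ _ y
  have h1 := S.pair_inv p e (l := l) (l' := l' * κ⁻¹) (by
    rw [← mul_assoc, mul_right_comm, h, mul_inv_cancel_right]) g (cl _ _ x) (cl _ _ y)
  have h2 := S.val_mul_inv κ g
  rw [g_cl, g_cl, pair_cl, pair_cl] at h1 ⊢
  rw [← h1, ← coeff_C_mul, ← hκ, val_mul]
  congr 1
  linear_combination (-(val l g * S.φ g x * (val l' g * S.φ g y))) * h2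

theorem beta_bij [Finite K] (S : SA G K c) (e : ℕ) (l l' : S.Coc) {lam : K →+ ZMod p}
    (h1 : lam 1 = 1) (β : S.T p e l →+ S.T p e l' →+ ZMod p)
    (hβ : ∀ x y, β x y = lam (S.pair p e l l' x y)) : Function.Bijective β.flip := by
  have : Finite (S.T p e l →+ ZMod p) := DFunLike.finite _
  refine (Nat.bijective_iff_injective_and_card _).2 ⟨(injective_iff_map_eq_zero _).2
    fun y hy => (S.pair_bij p e l' l).1 ?_, (card_dual (S.T p e l) (nsmul_Tw p _ _)).symm⟩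
  rw [map_zero]
  refine LinearMap.ext fun x => by_contra fun hx => ?_
  have h := DFunLike.congr_fun hy ((S.pair p e _ _ y x)⁻¹ • x)
  rw [AddMonoidHom.flip_apply, hβ, pair_comm, map_smul, smul_eq_mul, inv_mul_cancel₀ hx, h1] at h
  exact one_ne_zero h

section maps

variable {p} (S : SA G K c) {k k' k'' : ℕ} (l l' l'' : S.Coc)

theorem pr_pr (h : k ≤ k') (h' : k' ≤ k'') (x : S.T p k'' l) :
    S.pr c h l (S.pr c h' l x) = S.pr c (h.trans h') l x := by
  obtain ⟨x, rfl⟩ := cl_surj _ _ x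
  rw [pr_cl, pr_cl, pr_cl]

theorem mp_pr (h : k ≤ k') (r : RR K c) (x : S.T p k' l) :
    S.mp p c le_rfl r l l' (S.pr c h l x) = S.pr c h l' (S.mp p c le_rfl r l l' x) := by
  obtain ⟨x, rfl⟩ := cl_surj _ _ x
  rw [pr_cl, mp_cl, mp_cl, pr_cl]

theorem mp_one {r : RR K c} (hr : r = 1) (x : S.T p k l) : S.mp p c le_rfl r l l x = x := by
  obtain ⟨x, rfl⟩ := cl_surj _ _ x
  rw [mp_cl, hr, one_mul]

theorem mp_mp {r r' r'' : RR K c} (hr : r'' = r * r') (x : S.T p k l) :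
    S.mp p c le_rfl r'' l l'' x = S.mp p c le_rfl r l' l'' (S.mp p c le_rfl r' l l' x) := by
  obtain ⟨x, rfl⟩ := cl_surj _ _ x
  rw [mp_cl, mp_cl, mp_cl, hr, mul_assoc]

theorem tr_tr (h : k ≤ k') (h' : k' ≤ k'') (x : S.T p k l) :
    S.tr c h' 1 l' l'' (S.tr c h 1 l l' x) = S.tr c (h.trans h') 1 l l'' x := by
  obtain ⟨x, rfl⟩ := cl_surj _ _ x
  have h1 := Nat.pow_le_pow_right hp.out.pos h
  have h2 := Nat.pow_le_pow_right hp.out.pos h'
  rw [tr_cl, tr_cl, tr_cl, show p ^ k'' - p ^ k = p ^ k'' - p ^ k' + (p ^ k' - p ^ k) by omega,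
    pow_add]
  exact congrArg _ (by ring)

theorem tr_mp (h : k ≤ k') (r : RR K c) (x : S.T p k l) :
    S.tr c h 1 l' l'' (S.mp p c le_rfl r l l' x) = S.tr c h r l l'' x := by
  obtain ⟨x, rfl⟩ := cl_surj _ _ x
  rw [mp_cl, tr_cl, tr_cl]
  exact congrArg _ (by ring)

theorem mp_pr' (h : k ≤ k') (r : RR K c) (x : S.T p k' l) :
    S.mp p c le_rfl r l l' (S.pr c h l x) = S.mp p c h r l l' x := by
  obtain ⟨x, rfl⟩ := cl_surj _ _ x
  rw [pr_cl, mp_cl, mp_cl]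

theorem pr_of_mp (i : Fin c) (y : S.T p (k + 1) l)
    (hy : S.mp p c le_rfl (X i ^ 1) l l' y = 0) : S.pr c (Nat.le_succ k) l y = 0 := by
  obtain ⟨y, rfl⟩ := cl_surj _ _ y
  rw [mp_cl, cl_eq_zero, pow_one] at hy
  rw [pr_cl, cl_eq_zero]
  exact mem_of_X_mul (Nat.pow_lt_pow_right hp.out.one_lt (Nat.lt_succ_self k)) hy

end maps

section pi

variable {p} {S : SA G K (c + 1)} {S' : SA G K c} {k k' : ℕ} {l m : S.Coc} {l' : S'.Coc}

theorem exists_pi (hφ : ∀ g r, kf K c (S.φ g r) = S'.φ g (kf K c r))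
    (hl : ∀ g, kf K c (val l g) = val l' g) (e : ℕ) : ∃ π : S.T p e l →+[G] S'.T p e l',
      ∀ x, π (cl _ _ x) = cl _ _ (kf K c x) := by
  let u : S.T p e l →+ S'.T p e l' :=
    QuotientAddGroup.map (S.II p (c + 1) e).1.toAddSubgroup (S'.II p c e).1.toAddSubgroup
      (kf K c).toRingHom.toAddMonoidHom fun x hx => kf_mem (pp_pos (p := p) e).ne' hx
  have hu : ∀ x, u (cl _ _ x) = cl _ _ (kf K c x) := fun _ => rfl
  refine ⟨eqa u fun g a => ?_, hu⟩
  obtain ⟨x, rfl⟩ := cl_surj _ _ a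
  rw [g_cl, hu, hu, g_cl, map_mul, hl, hφ]

variable {π : S.T p k l → S'.T p k l'} {π' : S.T p k' l → S'.T p k' l'}

theorem pi_pr (hπ : ∀ x, π (cl _ _ x) = cl _ _ (kf K c x))
    (hπ' : ∀ x, π' (cl _ _ x) = cl _ _ (kf K c x)) (h : k ≤ k') (x : S.T p k' l) :
    π (S.pr _ h l x) = S'.pr _ h l' (π' x) := by
  obtain ⟨x, rfl⟩ := cl_surj _ _ x
  rw [pr_cl, hπ, hπ', pr_cl]

theorem pi_surj (hπ : ∀ x, π (cl _ _ x) = cl _ _ (kf K c x)) : Function.Surjective π := by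
  intro y
  obtain ⟨y, rfl⟩ := cl_surj _ _ y
  obtain ⟨x, rfl⟩ := kf_surj y
  exact ⟨_, hπ x⟩

theorem pi_ker (hπ : ∀ x, π (cl _ _ x) = cl _ _ (kf K c x)) (x : S.T p k l) (hx : π x = 0) :
    ∃ y, S.mp p (c + 1) le_rfl (X 0 ^ 1) m l y = x := by
  obtain ⟨x, rfl⟩ := cl_surj _ _ x
  rw [hπ, cl_eq_zero] at hx
  obtain ⟨y, hy⟩ := exists_of_kf hx
  refine ⟨cl _ _ y, ?_⟩
  rw [mp_cl, cl_eq, pow_one]
  exact hy

end pi

theorem phi_X0 (S : SA G K (c + 1)) (g : G) : S.φ g (X 0) = val (S.bc 0) g * X 0 := by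
  have h := S.tri' g 0
  rwa [Fin.val_zero, IN_zero, Ideal.mem_bot, sub_eq_zero] at h

theorem sa_step (hS : STEP) {d : ℕ} [IsTopologicalGroup G] {χ : G →* (ZMod p)ˣ} (hPD : PDM d χ)
    (hF : FinG G p) [Finite K] (S : SA G K (c + 1)) (S' : SA G K c)
    (hφ : ∀ g r, kf K c (S.φ g r) = S'.φ g (kf K c r)) (l : S.Coc) (l' : ℕ → S'.Coc)
    (hl : ∀ i g, kf K c (val (l * S.bc 0 ^ i) g) = val (l' i) g) (m κ : S.Coc)
    (hκ : ∀ g, val κ g = C (ZMod.castHom (dvd_refl p) K (χ g))) (hm : l * m = S.J * κ)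
    (hBV : S.BV p (X 0) (S.bc 0) m) {s : ℕ} (hs : s ≤ d) (h' : ∀ i, PFT p S' s (l' i)) :
    PFT p S s l := by
  obtain ⟨lam, hlam, hlam1⟩ := exists_lam (p := p) K
  obtain ⟨b, hb⟩ := Nat.exists_eq_add_of_le hs
  obtain ⟨A, hA⟩ := hBV b
  have hv := phi_X0 S
  choose π hπ using fun i e => exists_pi (p := p) hφ (hl i) e
  have hV : ∀ (A i : ℕ) (g : G), X 0 ^ A * val (l * S.bc 0 ^ (i + A)) g -
      val (l * S.bc 0 ^ i) g * S.φ g (X 0 ^ A) = 0 := fun A i g => by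
    rw [← S.semi_pow hv A (l * S.bc 0 ^ (i + A)) g, pow_add, ← mul_assoc, mul_inv_cancel_right]
  have hW : ∀ (A e : ℕ) (g : G),
      X 0 ^ A * val (m * (S.bc 0 ^ 0)⁻¹ * (S.B (c + 1) ^ p ^ e)⁻¹) g -
      val (m * (S.bc 0 ^ A)⁻¹ * (S.B (c + 1) ^ p ^ e)⁻¹) g * S.φ g (X 0 ^ A) = 0 := fun A e g => by
    rw [← S.semi_pow hv A (m * (S.bc 0 ^ 0)⁻¹ * (S.B (c + 1) ^ p ^ e)⁻¹) g, pow_zero, inv_one,
      mul_one, mul_right_comm m]
  have hβ : ∀ i e, ∃ β : S.T p e (l * S.bc 0 ^ i) →+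
      S.Hi p (c + 1) e (m * (S.bc 0 ^ i)⁻¹) →+ ZMod p, ∀ x y, β x y = lam (S.pair p e _ _ x y) :=
    fun i e => ⟨AddMonoidHom.mk' (fun x => lam.comp (S.pair p e _ _ x).toAddMonoidHom)
      fun x y => AddMonoidHom.ext fun z => by simp, fun _ _ => rfl⟩
  choose β hβ using hβ
  suffices h : PFT p S s (l * S.bc 0 ^ 0) by rwa [pow_zero, mul_one] at h
  refine hS p d G χ hPD hF (fun i e => S.T p e (l * S.bc 0 ^ i)) (fun i e => S'.T p e (l' i))
    (fun i e => S.Hi p (c + 1) e (m * (S.bc 0 ^ i)⁻¹)) (fun i e => nsmul_Tw p _ _)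
    (fun i e => nsmul_Tw p _ _)
    (fun i _ _ h => eqv (S.pr (c + 1) h _) (S.pr_equi _ h _))
    (fun i _ _ h => eqv (S'.pr c h _) (S'.pr_equi _ h _)) π
    (fun i e => eqv (S.mp p (c + 1) le_rfl (X 0 ^ 1) _ _)
      (S.mp_equi _ le_rfl fun g => by rw [hV 1 i g]; exact zero_mem _))
    (fun A e => eqv (S.mp p (c + 1) le_rfl (X 0 ^ A) _ _)
      (S.mp_equi _ le_rfl fun g => by
        have := hV A 0 g
        rw [zero_add] at this
        rw [this]
        exact zero_mem _))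
    (fun i _ _ h => eqv (S.tr (c + 1) h 1 _ _) (S.tr_equi _ h fun g => by
      rw [map_one, mul_one, one_mul, sub_self]
      exact zero_mem _))
    (fun A e => eqv (S.mp p (c + 1) le_rfl (X 0 ^ A) _ _)
      (S.mp_equi _ le_rfl fun g => by rw [hW A e g]; exact zero_mem _))
    β (fun i _ _ _ h h' x => pr_pr S _ h h' x) (fun i k k' h x => pi_pr (hπ i k) (hπ i k') h x)
    (fun i _ _ h x => mp_pr S _ _ h _ x) (fun i k => pi_surj (hπ i k))
    (fun i k => pi_ker (hπ i k)) (fun i k => pr_of_mp S _ _ 0)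
    (fun k => mp_one S _ (pow_zero _))
    (fun A k => mp_mp S _ (l * S.bc 0 ^ A) _ (pow_add _ A 1))
    (fun i _ k' _ h h' x => tr_tr S _ (m * (S.bc 0 ^ i)⁻¹ * (S.B (c + 1) ^ p ^ k')⁻¹) _ h h' x)
    (fun i k g x y => ?_)
    (fun k => beta_bij p S k _ _ hlam1 _ (hβ 0 k)) (fun A k k' h x y => ?_)
    s b hb.symm ⟨A, fun e Z hZ => ?_⟩ h'
  · rw [hβ, hβ, pair_tw p S k (κ := κ) _ (hκ g), hlam]
    rw [← hm, mul_assoc, inv_mul_cancel_right, mul_mul_mul_comm, mul_inv_cancel, mul_one]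
  · rw [hβ, hβ]
    simp only [eqv_apply]
    rw [tr_mp, mp_pr', S.pair_tr p h]
  · have hA' : S.Kill p b (X 0 ^ A) (m * (S.bc 0 ^ 0)⁻¹) (m * (S.bc 0 ^ A)⁻¹) := by
      rwa [pow_zero, inv_one, mul_one]
    obtain ⟨e', he, h⟩ := hA' e Z hZ.1 hZ.2
    refine ⟨e', he, ?_⟩
    have h1 := cb_iff.1 h
    rwa [← funext fun y => tr_mp S _ (m * (S.bc 0 ^ A)⁻¹ * (S.B (c + 1) ^ p ^ e)⁻¹) _ he
      (X 0 ^ A) (Z y)] at h1

end Vale.Agent.P261Z.D
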