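import Vale.Agent.P261Z.D.Defs
import Vale.Agent.P251.C.Main

/-!
# P261, block D: skeleton of Poincare duality and of the tower step

Rows: `CUP`, `TR`, `KOS`, `UNIF`, `SH`, `GLB`, `TOP`, `LOW`, `ND`, `CHI`, `STEP`.
Assembly: `pdall_of`.
-/

namespace Vale.Agent.P261Z.D

open Vale.Agent.P251 Vale.Agent.P251.C

section props

variable (G : Type) [Group G] [TopologicalSpace G]

/-- `H^s(G; M)` has dimension at most one. -/
def Dim1 (M : Type) [AddCommGroup M] [DistribMulAction G M] (s : ℕ) : Prop :=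
  ∀ F ∈ ZZ G M s, ∀ F' ∈ ZZ G M s, F' ∉ BB G M s → ∃ n : ℕ, F - n • F' ∈ BB G M s

/-- Finite discrete modules killed by `p` have finite cohomology. -/
def FinG (p : ℕ) : Prop :=
  ∀ (M : Type) [AddCommGroup M] [DistribMulAction G M] [DiscMod G M] [Finite M],
    (∀ m : M, p • m = 0) → ∀ s, HFin G M s

/-- The top cohomology of the open normal subgroups contained in `U` has dimension at most one. -/
def Top1 (p d : ℕ) (U : Subgroup G) : Prop :=
  ∀ (V : Subgroup G) [V.Normal], IsOpen (V : Set G) → V ≤ U →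
    Dim1 G (Fn (G ⧸ V) (Triv G p)) d

/-- The corestrictions are pro-zero below the top degree. -/
def Low0 (p d : ℕ) (U : Subgroup G) : Prop :=
  ∀ s < d, ∀ (V : Subgroup G) [V.Normal], IsOpen (V : Set G) → V ≤ U →
    ∃ (V' : Subgroup G) (_ : V'.Normal) (_ : IsOpen (V' : Set G)) (_ : Finite (G ⧸ V'))
      (h : V' ≤ V), HZ G s (pushQ h (Triv G p))

/-- The same with finite coefficients. -/
def LowM (p d : ℕ) : Prop :=
  ∀ s < d, ∀ (M : Type) [AddCommGroup M] [DistribMulAction G M] [DiscMod G M] [Finite M],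
    (∀ m : M, p • m = 0) →
    ∃ (V : Subgroup G) (_ : V.Normal) (_ : IsOpen (V : Set G)) (_ : Finite (G ⧸ V)),
      HZ G s (tot G (G ⧸ V) M)

/-- Vanishing in degree `d + 1`. -/
def CD (p d : ℕ) : Prop :=
  ∀ (M : Type) [AddCommGroup M] [DistribMulAction G M] [DiscMod G M],
    (∀ m : M, p • m = 0) → HZero G M (d + 1)

variable {G} in
/-- Classes in the top degree are detected by the maps to `Tw χ`. -/
def Base {p : ℕ} (d : ℕ) (χ : G →* (ZMod p)ˣ) : Prop :=
  ∀ (M : Type) [AddCommGroup M] [DistribMulAction G M] [DiscMod G M] [Finite M],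
    (∀ m : M, p • m = 0) → ∀ F ∈ ZZ G M d,
      (∀ φ : M →+[G] Tw χ, φ ∘ F ∈ BB G (Tw χ) d) → F ∈ BB G M d

variable {G} in
/-- Poincare duality, in the form used: if the transpose `w` of `u` is zero on `H^b`, then `u` is
zero on `H^s`, `s + b = d`. -/
def PDM {p : ℕ} (d : ℕ) (χ : G →* (ZMod p)ˣ) : Prop :=
  ∀ (M' M D D' : Type) [AddCommGroup M'] [DistribMulAction G M'] [AddCommGroup M]
    [DistribMulAction G M] [AddCommGroup D] [DistribMulAction G D] [AddCommGroup D']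
    [DistribMulAction G D'] [DiscMod G M] [Finite M], (∀ m : M, p • m = 0) →
    ∀ (β : M →+ D →+ ZMod p) (β' : M' →+ D' →+ ZMod p),
    (∀ (g : G) m y, β (g • m) (g • y) = (χ g : ZMod p) * β m y) →
    (∀ (g : G) m y, β' (g • m) (g • y) = (χ g : ZMod p) * β' m y) →
    Function.Bijective β.flip →
    ∀ (u : M' →+[G] M) (w : D →+[G] D'), (∀ m y, β' m (w y) = β (u m) y) →
    ∀ s b : ℕ, s + b = d → HZ G b w → HZ G s u

end props

/-! ### the Koszul complex at a finite level -/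

section kos

variable {p d : ℕ} {U : Type} [Group U]

/-- the sign of a set of indices -/
def eta' (p : ℕ) (T : Finset (Fin d)) : ZMod p := ∏ i ∈ T, -(-1) ^ (i : ℕ)

/-- precomposition with the inversion -/
def invL (p : ℕ) (U : Type) [Group U] : (U → ZMod p) →ₗ[ZMod p] (U → ZMod p) :=
  LinearMap.funLeft (ZMod p) (ZMod p) fun x : U => x⁻¹

/-- The transposed family of functionals. -/
noncomputable def trp (Φ : Finset (Fin d) → VV p d U →ₗ[ZMod p] ZMod p) (T : Finset (Fin d)) :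
    VV p d U →ₗ[ZMod p] ZMod p :=
  ∑ S : Finset (Fin d), (eta' p T * eta' p S) •
    (Φ Sᶜ ∘ₗ LinearMap.single (ZMod p) (fun _ : Finset (Fin d) => U → ZMod p) Tᶜ ∘ₗ invL p U ∘ₗ
      LinearMap.proj S)

/-- The differential of the complex which computes the cohomology of `U` with coefficients in the
functions on `U ⧸ W`. -/
def KA (Φ : Finset (Fin d) → VV p d U →ₗ[ZMod p] ZMod p) (W : Subgroup U)
    (a : Finset (Fin d) → U ⧸ W → ZMod p) : Finset (Fin d) → U ⧸ W → ZMod p :=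
  fun T c => Φ T fun S x => a S (x⁻¹ • c)

/-- `a` is concentrated in degree `n - 1`. -/
def Dg {X : Type} (n : ℕ) (a : Finset (Fin d) → X → ZMod p) : Prop :=
  ∀ S : Finset (Fin d), S.card + 1 ≠ n → a S = 0

variable [TopologicalSpace U]

/-- the top degree -/
def K1 (Φ : Finset (Fin d) → VV p d U →ₗ[ZMod p] ZMod p) : Prop :=
  ∀ (W : Subgroup U) [W.Normal], IsOpen (W : Set U) →
    ∀ a : Finset (Fin d) → U ⧸ W → ZMod p, Dg (d + 1) a → ∑ᶠ c, a Finset.univ c = 0 →
      ∃ b, Dg d b ∧ KA Φ W b = a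

open Classical in
/-- the lower degrees -/
def K2 (Φ : Finset (Fin d) → VV p d U →ₗ[ZMod p] ZMod p) : Prop :=
  ∀ s < d, ∀ (W : Subgroup U) [W.Normal], IsOpen (W : Set U) →
    ∃ (W' : Subgroup U) (_ : W'.Normal) (_ : IsOpen (W' : Set U)) (h : W' ≤ W),
      ∀ a : Finset (Fin d) → U ⧸ W' → ZMod p, Dg (s + 1) a → KA Φ W' a = 0 →
        ∃ b, Dg s b ∧ KA Φ W b =
          fun S c => ∑ᶠ y : U ⧸ W', if Subgroup.quotientMapOfLE h y = c then a S y else 0

end kos

/-! ### rows -/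

/-- Leibniz rule; cup products of cochains are cochains. -/
def CUP : Prop :=
  ∀ (G M D E : Type) [AddCommGroup M] [AddCommGroup D] [AddCommGroup E] (β : M →+ D →+ E)
    (a b n : ℕ) (h : a + b = n) (F : (Fin (a + 1) → G) → M) (Z : (Fin (b + 1) → G) → D),
    dd (cup β h F Z) = cup β (show a + 1 + b = n + 1 by omega) (dd F) Z +
      (-1 : ℤ) ^ a • cup β (show a + (b + 1) = n + 1 by omega) F (dd Z)

/-- The transposed differential has the Koszul symbol and square zero. -/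
def TR : Prop :=
  ∀ (p d : ℕ) [Fact p.Prime] (U : Type) [Group U] (D : NpData p d U)
    (Φ : Finset (Fin d) → VV p d U →ₗ[ZMod p] ZMod p),
    (∀ M, Finite (U ⧸ D.P M)) → D.Good d Φ → D.Good d (trp Φ)

/-- Duality at finite level. -/
def KOS : Prop :=
  ∀ (p d : ℕ) [Fact p.Prime] (U : Type) [Group U] [TopologicalSpace U] [IsTopologicalGroup U]
    [CompactSpace U] (D : NpData p d U) (Φ : Finset (Fin d) → VV p d U →ₗ[ZMod p] ZMod p),
    D.IsTop → D.Good d Φ → D.Good d (trp Φ) → K1 Φ ∧ K2 Φ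

/-- The cohomology of a uniform group. -/
def UNIF : Prop :=
  ∀ (p d : ℕ) [Fact p.Prime] (U : Type) [Group U] [TopologicalSpace U] [IsTopologicalGroup U]
    [CompactSpace U] [T2Space U] [TotallyDisconnectedSpace U] (D : NpData p d U)
    (Φ : Finset (Fin d) → VV p d U →ₗ[ZMod p] ZMod p),
    D.IsTop → D.Good d Φ → K1 Φ → K2 Φ → FinG U p ∧ Top1 U p d ⊤ ∧ Low0 U p d ⊤

/-- Shapiro: restriction from a coinduced module is injective in cohomology. -/
def SH : Prop :=
  ∀ (G : Type) [Group G] [TopologicalSpace G] [IsTopologicalGroup G] [CompactSpace G]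
    (P : Subgroup G), IsOpen (P : Set G) →
    ∀ (B B₀ : Type) [AddCommGroup B] [DistribMulAction G B] [AddCommGroup B₀]
      [DistribMulAction P B₀] (ε : B →+ B₀),
      (∀ b, (∀ γ : G, ε (γ • b) = 0) → b = 0) →
      (∀ φ : G → B₀, (∀ (q : P) (γ : G), φ (q * γ) = q • φ γ) → ∃ b, ∀ γ : G, ε (γ • b) = φ γ) →
      (∀ (q : P) b, ε ((q : G) • b) = q • ε b) →
      ∀ s, ∀ F ∈ ZZ G B s,
        (fun x : Fin (s + 1) → P => ε (F fun i => (x i : G))) ∈ BB P B₀ s → F ∈ BB G B s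

/-- From the open normal subgroup `U` to `G`. -/
def GLB : Prop :=
  SH → ∀ (p d : ℕ) [Fact p.Prime] (G : Type) [Group G] [TopologicalSpace G]
    [IsTopologicalGroup G] [CompactSpace G] [T2Space G] [TotallyDisconnectedSpace G]
    (U : Subgroup G) [U.Normal], IsOpen (U : Set G) →
    (FinG U p → FinG G p) ∧ (Top1 U p d ⊤ → Top1 G p d U) ∧ (Low0 U p d ⊤ → Low0 G p d U)

/-- The dualizing character. -/
def TOP : Prop :=
  ∀ (p d : ℕ) [Fact p.Prime] (G : Type) [Group G] [TopologicalSpace G]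
    [IsTopologicalGroup G] [CompactSpace G] [T2Space G] [TotallyDisconnectedSpace G]
    (U : Subgroup G), IsOpen (U : Set G) → CD G p d → Top1 G p d U →
    ∃ χ : G →* (ZMod p)ˣ, IsOpen (χ.ker : Set G) ∧ Base d χ

/-- Finite coefficients below the top degree. -/
def LOW : Prop :=
  ∀ (p d : ℕ) [Fact p.Prime] (G : Type) [Group G] [TopologicalSpace G]
    [IsTopologicalGroup G] [CompactSpace G] [T2Space G] [TotallyDisconnectedSpace G]
    (U : Subgroup G), IsOpen (U : Set G) → Low0 G p d U → LowM G p d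

/-- Dimension shifting. -/
def ND : Prop :=
  CUP → ∀ (p d : ℕ) [Fact p.Prime] (G : Type) [Group G] [TopologicalSpace G]
    [IsTopologicalGroup G] [CompactSpace G] (χ : G →* (ZMod p)ˣ),
    IsOpen (χ.ker : Set G) → Base d χ → LowM G p d → PDM d χ

/-- Continuous characters are trivial on the pro-`p` subgroup. -/
def CHI : Prop :=
  ∀ (p d : ℕ) [Fact p.Prime] (G : Type) [Group G] [TopologicalSpace G] [IsTopologicalGroup G]
    (V : I.VirtUnif p d G) (χ : G →* (ZMod p)ˣ), p ≠ 2 → IsOpen (χ.ker : Set G) →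
    ∀ g ∈ V.S, χ g = 1

/-- The tower step: `M i k` is the module of weight number `i` at level `k`, `M' i k` its quotient
by `v`, `D i k` the dual module. -/
def STEP : Prop :=
  ∀ (p d : ℕ) (G : Type) [Group G] [TopologicalSpace G] [IsTopologicalGroup G]
    (χ : G →* (ZMod p)ˣ), PDM d χ → FinG G p →
    ∀ (M M' D : ℕ → ℕ → Type) [∀ i k, AddCommGroup (M i k)] [∀ i k, DistribMulAction G (M i k)]
      [∀ i k, AddCommGroup (M' i k)] [∀ i k, DistribMulAction G (M' i k)]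
      [∀ i k, AddCommGroup (D i k)] [∀ i k, DistribMulAction G (D i k)]
      [∀ i k, DiscMod G (M i k)] [∀ i k, Finite (M i k)]
      [∀ i k, DiscMod G (D i k)] [∀ i k, Finite (D i k)],
      (∀ i k (m : M i k), p • m = 0) → (∀ i k (y : D i k), p • y = 0) →
    ∀ (r : ∀ i {k k' : ℕ}, k ≤ k' → M i k' →+[G] M i k)
      (r' : ∀ i {k k' : ℕ}, k ≤ k' → M' i k' →+[G] M' i k)
      (π : ∀ i k, M i k →+[G] M' i k) (v : ∀ i k, M (i + 1) k →+[G] M i k)
      (V : ∀ A k, M A k →+[G] M 0 k)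
      (ι : ∀ i {k k' : ℕ}, k ≤ k' → D i k →+[G] D i k') (W : ∀ A k, D 0 k →+[G] D A k)
      (β : ∀ i k, M i k →+ D i k →+ ZMod p),
      (∀ i k k' k'' (h : k ≤ k') (h' : k' ≤ k'') x, r i h (r i h' x) = r i (h.trans h') x) →
      (∀ i k k' (h : k ≤ k') x, π i k (r i h x) = r' i h (π i k' x)) →
      (∀ i k k' (h : k ≤ k') x, v i k (r (i + 1) h x) = r i h (v i k' x)) →
      (∀ i k, Function.Surjective (π i k)) →
      (∀ i k x, π i k x = 0 → ∃ y, v i k y = x) →
      (∀ i k y, v i (k + 1) y = 0 → r (i + 1) (Nat.le_succ k) y = 0) →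
      (∀ k x, V 0 k x = x) → (∀ A k x, V (A + 1) k x = V A k (v A k x)) →
      (∀ i k k' k'' (h : k ≤ k') (h' : k' ≤ k'') y, ι i h' (ι i h y) = ι i (h.trans h') y) →
      (∀ i k (g : G) m y, β i k (g • m) (g • y) = (χ g : ZMod p) * β i k m y) →
      (∀ k, Function.Bijective (β 0 k).flip) →
      (∀ A k k' (h : k ≤ k') m y, β A k' m (ι A h (W A k y)) = β 0 k (V A k (r A h m)) y) →
    ∀ s b : ℕ, s + b = d →
      (∃ A, ∀ k, ∀ Z ∈ ZZ G (D 0 k) b, ∃ k', ∃ h : k ≤ k',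
        (fun y => ι A h (W A k y)) ∘ Z ∈ BB G (D A k') b) →
      (∀ i, PF G s (M' i) fun h => r' i h) → PF G s (M 0) fun h => r 0 h

/-- The output of the Poincare duality part. -/
def PDALL : Prop :=
  ∀ (p d : ℕ) [Fact p.Prime] (G : Type) [Group G] [TopologicalSpace G] [IsTopologicalGroup G]
    [CompactSpace G] [T2Space G] [TotallyDisconnectedSpace G] (V : I.VirtUnif p d G),
    p ≠ 2 → (∀ g : G, g ^ p = 1 → g = 1) →
    FinG G p ∧ ∃ χ : G →* (ZMod p)ˣ, (∀ g ∈ V.S, χ g = 1) ∧ PDM d χ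

theorem pdall_of (h1 : CUP) (h2 : TR) (h3 : KOS) (h4 : UNIF) (h5 : SH) (h6 : GLB) (h7 : TOP)
    (h8 : LOW) (h9 : ND) (h10 : CHI) : PDALL := by
  intro p d _ G _ _ _ _ _ _ V hp2 hno
  have := V.U_normal
  have hUc : CompactSpace V.U :=
    isCompact_iff_compactSpace.1 (Subgroup.isClosed_of_isOpen V.U V.isOpen).isCompact
  obtain ⟨D, hD1, hD2⟩ := exists_npData hp2 V.unif
  have hD : D.IsTop := ⟨hD1, hD2⟩
  obtain ⟨Φ, hΦ⟩ := D.exists_good d
  have hΦ' := h2 p d V.U D Φ (fun M => Subgroup.quotient_finite_of_isOpen _ (hD1 M)) hΦ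
  obtain ⟨k1, k2⟩ := h3 p d V.U D Φ hD hΦ hΦ'
  obtain ⟨u1, u2, u3⟩ := h4 p d V.U D Φ hD hΦ k1 k2
  obtain ⟨g1, g2, g3⟩ := h6 h5 p d G V.U V.isOpen
  have hcd : CD G p d := fun M _ _ _ hM =>
    CV p d G hp2 V hno M hM (d + 1) (Nat.lt_succ_self d)
  obtain ⟨χ, hχ, hB⟩ := h7 p d G V.U V.isOpen hcd (g2 u2)
  exact ⟨g1 u1, χ, h10 p d G V χ hp2 hχ,
    h9 h1 p d G χ hχ hB (h8 p d G V.U V.isOpen (g3 u3))⟩

end Vale.Agent.P261Z.D
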