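import Vale.Agent.P261Z.D.Basic
import Vale.Agent.P261Z.D.Sk

/-!
# P261, block D: functions on a quotient which acts on the coefficients; the row `LOW`
-/

set_option linter.unusedSectionVars false

namespace Vale.Agent.P261Z.D

open Vale.Agent.P251 Vale.Agent.P251.C

namespace TopH

instance modFn {R X M : Type} [Semiring R] [AddCommGroup M] [Module R M] : Module R (Fn X M) :=
  (Fn.equiv X M).module R

theorem smul_ap {R X M : Type} [Semiring R] [AddCommGroup M] [Module R M] (a : R) (f : Fn X M)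
    (x : X) : (a • f) x = a • f x := rfl

variable {G : Type} [Group G] {p : ℕ}

instance modTw (χ : G →* (ZMod p)ˣ) : Module (ZMod p) (Tw χ) :=
  inferInstanceAs (Module (ZMod p) (ZMod p))

/-- the underlying element, as a linear map -/
def valL (χ : G →* (ZMod p)ˣ) : Tw χ ≃ₗ[ZMod p] ZMod p := LinearEquiv.refl _ _

/-- `V` acts trivially -/
def Tr (V : Subgroup G) (M : Type) [AddCommGroup M] [DistribMulAction G M] : Prop :=
  ∀ v ∈ V, ∀ m : M, v • m = m

variable {V V' : Subgroup G} {M N : Type} [AddCommGroup M] [DistribMulAction G M]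
  [AddCommGroup N] [DistribMulAction G N]

theorem Tr.mono (h : Tr V M) (h' : V' ≤ V) : Tr V' M := fun v hv => h v (h' hv)

theorem Tr.out (h : Tr V M) (x : G) (m : M) : (x : G ⧸ V).out • m = x • m := by
  obtain ⟨v, hv⟩ := QuotientGroup.mk_out_eq_mul V x
  rw [hv, mul_smul, h v v.2]

theorem Tr.out' (h : Tr V M) (x : G) (m : M) : (x : G ⧸ V).out⁻¹ • m = x⁻¹ • m := by
  rw [inv_smul_eq_iff, h.out, smul_inv_smul]

theorem smul_mk (g x : G) : g • (x : G ⧸ V) = ((g * x : G) : G ⧸ V) := rfl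

theorem comp_sum {ι X : Type} [Fintype ι] (u : M →+[G] N) (F : ι → X → M) :
    u ∘ (∑ i, F i) = ∑ i, u ∘ F i := funext fun x => by
  simp only [Function.comp_apply, Finset.sum_apply, map_sum]

/-- right translation -/
def rho (V : Subgroup G) [V.Normal] (M : Type) [AddCommGroup M] [DistribMulAction G M] (g : G) :
    Fn (G ⧸ V) M →+[G] Fn (G ⧸ V) M where
  toFun f := Fn.mk fun c => f (c * g)
  map_smul' h f := Fn.ext fun c => by
    obtain ⟨x, rfl⟩ := QuotientGroup.mk_surjective c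
    change h • f (h⁻¹ • ((x * g : G) : G ⧸ V)) = h • f ((h⁻¹ * x * g : G) : G ⧸ V)
    rw [smul_mk, mul_assoc]
  map_zero' := rfl
  map_add' _ _ := rfl

theorem rho_ap [V.Normal] (g : G) (f : Fn (G ⧸ V) M) (c : G ⧸ V) : rho V M g f c = f (c * g) := rfl

theorem rho_mul [V.Normal] (g g' : G) (f : Fn (G ⧸ V) M) :
    rho V M (g * g') f = rho V M g (rho V M g' f) := Fn.ext fun c => by
  rw [rho_ap, rho_ap, rho_ap, QuotientGroup.mk_mul, mul_assoc]

theorem rho_mem [V.Normal] {g : G} (hg : g ∈ V) (f : Fn (G ⧸ V) M) : rho V M g f = f :=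
  Fn.ext fun c => by rw [rho_ap, (QuotientGroup.eq_one_iff g).2 hg, mul_one]

theorem tot_rho [V.Normal] [Finite (G ⧸ V)] (g : G) (f : Fn (G ⧸ V) M) :
    tot G (G ⧸ V) M (rho V M g f) = tot G (G ⧸ V) M f := by
  have := Fintype.ofFinite (G ⧸ V)
  rw [tot_apply, tot_apply]
  exact Equiv.sum_comp (Equiv.mulRight (g : G ⧸ V)) fun c => f c

theorem push_rho [V.Normal] [V'.Normal] [Finite (G ⧸ V')] (h : V' ≤ V) (g : G)
    (f : Fn (G ⧸ V') M) : pushQ h M (rho V' M g f) = rho V M g (pushQ h M f) := by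
  classical
  have := Fintype.ofFinite (G ⧸ V')
  refine Fn.ext fun c => ?_
  rw [rho_ap, pushQ, push_apply, push_apply]
  refine Fintype.sum_equiv (Equiv.mulRight (g : G ⧸ V')) _ _ fun y => ?_
  obtain ⟨x, rfl⟩ := QuotientGroup.mk_surjective y
  congr 1
  exact propext (mul_left_inj (g : G ⧸ V)).symm

variable [Module (ZMod p) M] [Module (ZMod p) N]

theorem smul_sc (g : G) (a : ZMod p) (m : M) : g • a • m = a • g • m :=
  ZMod.map_smul (DistribSMul.toAddMonoidHom M g) a m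

theorem comp_sc {X : Type} (u : M →+[G] N) (a : ZMod p) (F : X → M) :
    u ∘ (a • F) = a • (u ∘ F) := funext fun x => ZMod.map_smul u a (F x)

/-- the map given by an element of the coefficients -/
noncomputable def jm (h : Tr V M) (m : M) : Fn (G ⧸ V) (Triv G p) →+[G] Fn (G ⧸ V) M where
  toFun f := Fn.mk fun c => valL 1 (f c) • c.out • m
  map_smul' g f := Fn.ext fun c => by
    obtain ⟨x, rfl⟩ := QuotientGroup.mk_surjective c
    change valL 1 (g • f (g⁻¹ • (x : G ⧸ V))) • (x : G ⧸ V).out • m =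
      g • valL 1 (f (g⁻¹ • (x : G ⧸ V))) • ((g⁻¹ * x : G) : G ⧸ V).out • m
    rw [Triv.smul_eq, h.out, h.out, smul_sc, mul_smul, smul_inv_smul]
  map_zero' := Fn.ext fun c => by
    change valL 1 (0 : Triv G p) • c.out • m = 0
    rw [map_zero, zero_smul]
  map_add' f f' := Fn.ext fun c => by
    change valL 1 (f c + f' c) • c.out • m = _
    rw [map_add, add_smul]
    rfl

theorem jm_ap (h : Tr V M) (m : M) (f : Fn (G ⧸ V) (Triv G p)) (x : G) :
    jm h m f x = valL 1 (f x) • x • m := congrArg (valL 1 (f x) • ·) (h.out x m)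

/-- the map given by a linear form on the coefficients -/
noncomputable def kap (h : Tr V M) (l : M →ₗ[ZMod p] ZMod p) :
    Fn (G ⧸ V) M →+[G] Fn (G ⧸ V) (Triv G p) where
  toFun f := Fn.mk fun c => (valL 1).symm (l (c.out⁻¹ • f c))
  map_smul' g f := Fn.ext fun c => by
    obtain ⟨x, rfl⟩ := QuotientGroup.mk_surjective c
    change (valL 1).symm (l ((x : G ⧸ V).out⁻¹ • g • f (g⁻¹ • (x : G ⧸ V)))) =
      g • (valL 1).symm (l (((g⁻¹ * x : G) : G ⧸ V).out⁻¹ • f (g⁻¹ • (x : G ⧸ V))))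
    rw [Triv.smul_eq, h.out', h.out', mul_inv_rev, inv_inv, mul_smul]
  map_zero' := Fn.ext fun c => by
    change (valL 1).symm (l (c.out⁻¹ • (0 : M))) = 0
    rw [smul_zero, map_zero, map_zero]
  map_add' f f' := Fn.ext fun c => by
    change (valL 1).symm (l (c.out⁻¹ • (f c + f' c))) = _
    rw [smul_add, map_add, map_add]
    rfl

theorem kap_ap (h : Tr V M) (l : M →ₗ[ZMod p] ZMod p) (f : Fn (G ⧸ V) M) (x : G) :
    valL 1 (kap h l f x) = l (x⁻¹ • f x) := congrArg l (h.out' x (f x))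

theorem sum_jm_kap (h : Tr V M) {ι : Type} [Fintype ι] (b : Module.Basis ι (ZMod p) M)
    (f : Fn (G ⧸ V) M) : ∑ i, jm h (b i) (kap h (b.coord i) f) = f := Fn.ext fun c => by
  obtain ⟨x, rfl⟩ := QuotientGroup.mk_surjective c
  simp only [Fn.sum_apply, jm_ap, kap_ap, ← smul_sc, ← Finset.smul_sum, Module.Basis.coord_apply,
    b.sum_repr, smul_inv_smul]

theorem kap_jm (h : Tr V M) (l : M →ₗ[ZMod p] ZMod p) {m : M} (hm : l m = 1)
    (f : Fn (G ⧸ V) (Triv G p)) : kap h l (jm h m f) = f := Fn.ext fun c => by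
  obtain ⟨x, rfl⟩ := QuotientGroup.mk_surjective c
  apply (valL 1).injective
  rw [kap_ap, jm_ap, smul_sc, inv_smul_smul, map_smul, hm, smul_eq_mul, mul_one]

theorem push_jm [Finite (G ⧸ V')] (h : Tr V M) (h' : V' ≤ V) (m : M)
    (f : Fn (G ⧸ V') (Triv G p)) :
    pushQ h' M (jm (h.mono h') m f) = jm h m (pushQ h' (Triv G p) f) := by
  classical
  have := Fintype.ofFinite (G ⧸ V')
  refine Fn.ext fun c => ?_
  obtain ⟨x, rfl⟩ := QuotientGroup.mk_surjective c
  rw [jm_ap, pushQ, pushQ, push_apply, push_apply, map_sum, Finset.sum_smul]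
  refine Finset.sum_congr rfl fun y _ => ?_
  obtain ⟨z, rfl⟩ := QuotientGroup.mk_surjective y
  split_ifs with e
  · rw [jm_ap, ← h.out x, ← e]
    exact congrArg _ (h.out z m).symm
  · rw [map_zero, zero_smul]

theorem rho_jm [V.Normal] (h : Tr V M) (g : G) (m : M) (f : Fn (G ⧸ V) (Triv G p)) :
    rho V M g (jm h m f) = jm h (g • m) (rho V (Triv G p) g f) := Fn.ext fun c => by
  obtain ⟨x, rfl⟩ := QuotientGroup.mk_surjective c
  rw [jm_ap, rho_ap, rho_ap, ← QuotientGroup.mk_mul, jm_ap, mul_smul]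

theorem map_jm (h : Tr V M) (h' : Tr V N) (φ : M →+[G] N) (m : M) (f : Fn (G ⧸ V) (Triv G p)) :
    Fn.map (G ⧸ V) φ (jm h m f) = jm h' (φ m) f := Fn.ext fun c => by
  obtain ⟨x, rfl⟩ := QuotientGroup.mk_surjective c
  rw [Fn.map_apply, jm_ap, jm_ap, ZMod.map_smul, map_smul]

/-- the dependence on the element is linear -/
noncomputable def JJ (h : Tr V M) {X : Type} (w : X → Fn (G ⧸ V) (Triv G p)) :
    M →ₗ[ZMod p] (X → Fn (G ⧸ V) M) where
  toFun m := jm h m ∘ w
  map_add' m m' := funext fun y => Fn.ext fun c => by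
    obtain ⟨x, rfl⟩ := QuotientGroup.mk_surjective c
    simp only [Function.comp_apply, Pi.add_apply, Fn.add_apply, jm_ap, smul_add]
  map_smul' a m := funext fun y => Fn.ext fun c => by
    obtain ⟨x, rfl⟩ := QuotientGroup.mk_surjective c
    simp only [Function.comp_apply, Pi.smul_apply, smul_ap, jm_ap, RingHom.id_apply, smul_sc,
      smul_comm a]

theorem JJ_ap (h : Tr V M) {X : Type} (w : X → Fn (G ⧸ V) (Triv G p)) (m : M) :
    JJ h w m = jm h m ∘ w := rfl

theorem comp_dec (h : Tr V M) {ι X : Type} [Fintype ι] (b : Module.Basis ι (ZMod p) M)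
    (F : X → Fn (G ⧸ V) M) : F = ∑ i, jm h (b i) ∘ (kap h (b.coord i) ∘ F) := funext fun x => by
  simp only [Finset.sum_apply, Function.comp_apply, sum_jm_kap]

theorem ex_basis (p : ℕ) [Fact p.Prime] (M : Type) [AddCommGroup M] [Module (ZMod p) M] [Finite M] :
    ∃ n, Nonempty (Module.Basis (Fin n) (ZMod p) M) :=
  ⟨_, ⟨Module.finBasis (ZMod p) M⟩⟩

end TopH

open TopH

theorem low : LOW := by
  intro p d _ G _ _ _ _ _ _ U hU hL s hs M _ _ _ _ hM
  obtain ⟨_⟩ : Nonempty (Module (ZMod p) M) := ⟨AddCommGroup.zmodModule hM⟩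
  obtain ⟨V, _, h1, h2, h3⟩ := exists_normal_triv U hU M
  obtain ⟨V', i1, i2, i3, h, hz⟩ := hL s hs V h1 h2
  have : Finite (G ⧸ V) := Subgroup.quotient_finite_of_isOpen _ h1
  refine ⟨V', i1, i2, i3, fun F hF => ?_⟩
  obtain ⟨n, ⟨b⟩⟩ := ex_basis p M
  have e : tot G (G ⧸ V') M ∘ F = tot G (G ⧸ V) M ∘
      ∑ i, jm h3 (b i) ∘ (pushQ h (Triv G p) ∘ (kap (Tr.mono h3 h) (b.coord i) ∘ F)) := by
    funext x
    simp only [Function.comp_apply, Finset.sum_apply, ← push_jm h3 h, ← map_sum, sum_jm_kap,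
      tot_pushQ]
  rw [e]
  exact BB.map (sum_mem fun i _ => BB.map (hz _ (ZZ.map hF _)) _) _

end Vale.Agent.P261Z.D
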